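import Mathlib

/-!
P361, low-temperature order of the Heisenberg ferromagnet: common definitions (note 9886).

Part A: charge laws of random permutations (charge network), `X` = set of space-time nodes.
Part B: the physical circuit (Trotter number `N`, extra slice `T` = layer `0`).
Part C: the static Gibbs state, spin 1/2, real matrices in the `S³`-basis.
Part D: the torus and the family of field profiles.
-/

namespace Vale.Agent.P361.LRO

open Finset Matrix

noncomputable section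

/-! ### Part A -/

section A

variable {X : Type} [Fintype X] [DecidableEq X]

/-- Law of the random permutation `σ₁ * σ₂ * ⋯ * σ_m * σ`, where `σ_i` is the transposition
`swap x y` with probability `p` and `1` with probability `1 - p`, `(x, y, p)` the `i`-th entry. -/
def law : List (X × X × ℝ) → Equiv.Perm X → Equiv.Perm X → ℝ
  | [], σ => Pi.single σ 1
  | g :: l, σ => fun π =>
      (1 - g.2.2) * law l σ π + g.2.2 * law l σ (Equiv.swap g.1 g.2.1 * π)

/-- `μ` is the law of a product of independent random transpositions and one permutation. -/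
def IsLaw (μ : Equiv.Perm X → ℝ) : Prop :=
  ∃ (l : List (X × X × ℝ)) (σ : Equiv.Perm X),
    (∀ g ∈ l, 0 ≤ g.2.2 ∧ g.2.2 ≤ 1 / 2) ∧ μ = law l σ

/-- Weight of the flips: the node `x` costs `θ x` if the spin jumps there. -/
def wt (θ : X → ℝ) (π : Equiv.Perm X) (s : X → Fin 2) : ℝ :=
  ∏ x, if s x = s (π x) then 1 else θ x

/-- The charge (jump) at the node `x`, in `{-1, 0, 1}`. -/
def jj (π : Equiv.Perm X) (s : X → Fin 2) (x : X) : ℝ :=
  ((s x : ℕ) : ℝ) - ((s (π x) : ℕ) : ℝ)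

/-- Partition function. -/
def ZZ (μ : Equiv.Perm X → ℝ) (θ : X → ℝ) : ℝ := ∑ π, ∑ s, μ π * wt θ π s

/-- Expectation. -/
def EE (μ : Equiv.Perm X → ℝ) (θ : X → ℝ) (f : Equiv.Perm X → (X → Fin 2) → ℝ) : ℝ :=
  (∑ π, ∑ s, μ π * wt θ π s * f π s) / ZZ μ θ

/-- `K(a) = Var(∑ a_x j_x)`. -/
def KK (μ : Equiv.Perm X → ℝ) (θ : X → ℝ) (a : X → ℝ) : ℝ :=
  EE μ θ fun π s => (∑ x, a x * jj π s x) ^ 2

/-- Conductance `c_uv = - E j_u j_v` (meant for `u ≠ v`). -/
def cc (μ : Equiv.Perm X → ℝ) (θ : X → ℝ) (u v : X) : ℝ :=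
  - EE μ θ fun π s => jj π s u * jj π s v

/-- `v_z = E j_z² = P(j_z ≠ 0)`. -/
def vv (μ : Equiv.Perm X → ℝ) (θ : X → ℝ) (z : X) : ℝ :=
  EE μ θ fun π s => jj π s z ^ 2

/-- The magnetization `M_z = <σ³_z>` at the node `z` (with the slice at `z` removed):
`Z = B + θ_z A`, `M = A / B`. -/
def mag (μ : Equiv.Perm X → ℝ) (θ : X → ℝ) (z : X) : ℝ :=
  (∑ π, ∑ s, if s z = s (π z) then 0 else μ π * wt (Function.update θ z 1) π s) /
    (∑ π, ∑ s, if s z = s (π z) then μ π * wt θ π s else 0)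

/-- Generating polynomial `E ∏ ζ_x^{1 + j_x}` (not normalised). -/
def gen (μ : Equiv.Perm X → ℝ) (θ : X → ℝ) (ζ : X → ℂ) : ℂ :=
  ∑ π, ∑ s, ((μ π * wt θ π s : ℝ) : ℂ) *
    ∏ x, (if s x = s (π x) then ζ x else if s x = 1 then ζ x ^ 2 else 1)

/-- Real stability. -/
def Stable (μ : Equiv.Perm X → ℝ) (θ : X → ℝ) : Prop :=
  ∀ ζ : X → ℂ, (∀ x, 0 < (ζ x).im) → gen μ θ ζ ≠ 0

/-- Lower bound `c` for the effective conductance between the electrodes `E` (potential `1`)
and `G` (potential `0`). -/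
def LB (μ : Equiv.Perm X → ℝ) (θ : X → ℝ) (E G : Finset X) (c : ℝ) : Prop :=
  ∀ a : X → ℝ, (∀ x ∈ E, a x = 1) → (∀ x ∈ G, a x = 0) → c ≤ KK μ θ a

/-- Upper bound `R` for the resistance between the electrode `E` and the unit charge
distribution `q`. -/
def RB (μ : Equiv.Perm X → ℝ) (θ : X → ℝ) (E : Finset X) (q : X → ℝ) (R : ℝ) : Prop :=
  ∀ a : X → ℝ, (∀ x ∈ E, a x = 1) → (1 - ∑ x, q x * a x) ^ 2 ≤ R * KK μ θ a

end A

/-! ### Part B -/

section B

variable {V : Type} [Fintype V] [DecidableEq V]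

/-- `(k, x) ↦ (k - 1, x)` (cyclic). -/
def base (N : ℕ) : Equiv.Perm (Fin (N + 1) × V) :=
  Equiv.prodCongr (Equiv.subRight 1) (Equiv.refl V)

/-- All gates: between the layers `k` and `k + 1`, `k < N`, one gate for each edge of `L`. There
is no gate between the layer `N` and the layer `0`. -/
def gates (L : List (V × V)) (N : ℕ) (p : ℝ) :
    List ((Fin (N + 1) × V) × (Fin (N + 1) × V) × ℝ) :=
  (List.finRange N).flatMap fun k =>
    L.map fun e => ((k.castSucc, e.1), (k.castSucc, e.2), p)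

/-- The law of the worldline permutation; gates `(1 - p) + p P_e`, `p = β / (2N)`. -/
def phys (L : List (V × V)) (β : ℝ) (N : ℕ) : Equiv.Perm (Fin (N + 1) × V) → ℝ :=
  law (gates L N (β / (2 * N))) (base N)

/-- Slice parameters: the layers `1, …, N` are physical (`θ = β h_x / (2N)`), the layer `0` is the
extra slice `T`. -/
def th (β : ℝ) (N : ℕ) (h T : V → ℝ) : Fin (N + 1) × V → ℝ :=
  fun z => if z.1 = 0 then T z.2 else β * h z.2 / (2 * N)

/-- The extra slice `e^{K n_b}`, `n_b = S³_b / |b|`: `θ = tanh (K / (2|b|))` on `b`. -/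
def blk (K : ℝ) (b : Finset V) : V → ℝ :=
  fun x => if x ∈ b then Real.tanh (K / (2 * b.card)) else 0

/-- The nodes of the extra slice in `b`. -/
def hatb (N : ℕ) (b : Finset V) : Finset (Fin (N + 1) × V) := {0} ×ˢ b

/-- `κ_b = Var (Q_b)`, `Q_b` = total charge of the extra slice in `b`. -/
def kap (L : List (V × V)) (β : ℝ) (N : ℕ) (h : V → ℝ) (K : ℝ) (b : Finset V) : ℝ :=
  KK (phys L β N) (th β N h (blk K b)) fun z => if z ∈ hatb N b then 1 else 0

end B

/-! ### Part C -/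

section C

variable {V : Type} [Fintype V] [DecidableEq V]

/-- The exchange of the spins at `x` and `y`. -/
def swapM (x y : V) : Matrix (V → Fin 2) (V → Fin 2) ℝ :=
  Matrix.of fun σ τ => if σ = τ ∘ Equiv.swap x y then 1 else 0

/-- `σ³_x` (`0` = up). -/
def szM (x : V) : Matrix (V → Fin 2) (V → Fin 2) ℝ :=
  Matrix.diagonal fun σ => if σ x = 0 then 1 else -1

/-- `σ¹_x`. -/
def sxM (x : V) : Matrix (V → Fin 2) (V → Fin 2) ℝ :=
  Matrix.of fun σ τ => if σ = Function.update τ x (1 - τ x) then 1 else 0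

/-- `h_xy = 1/4 - S_x · S_y = (1 - P_xy) / 2`. -/
def hM (x y : V) : Matrix (V → Fin 2) (V → Fin 2) ℝ := (1 / 2 : ℝ) • (1 - swapM x y)

/-- `H - ∑ h_x S³_x`, one term `h_xy` for each entry of the list `L` of edges. -/
def ham (L : List (V × V)) (h : V → ℝ) : Matrix (V → Fin 2) (V → Fin 2) ℝ :=
  (L.map fun e => hM e.1 e.2).sum - ∑ x, (h x / 2) • szM x

/-- Gibbs expectation. -/
def gib (L : List (V × V)) (β : ℝ) (h : V → ℝ) (A : Matrix (V → Fin 2) (V → Fin 2) ℝ) : ℝ :=
  Matrix.trace (NormedSpace.exp (-β • ham L h) * A) /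
    Matrix.trace (NormedSpace.exp (-β • ham L h))

/-- `ρ_x = <1/2 - S³_x>`. -/
def rho (L : List (V × V)) (β : ℝ) (h : V → ℝ) (x : V) : ℝ :=
  gib L β h ((1 / 2 : ℝ) • (1 - szM x))

end C

/-! ### Part D -/

/-- The torus of side `n`. -/
abbrev Tor (n : ℕ) : Type := Fin 3 → ZMod n

/-- The nearest neighbour edges `(x, x + e_i)` of the torus (each edge once if `n ≥ 3`). -/
def edges (n : ℕ) [NeZero n] : List (Tor n × Tor n) :=
  ((Finset.univ : Finset (Tor n × Fin 3)).toList).map fun z => (z.1, z.1 + Pi.single z.2 1)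

/-- The family of profiles: `h0 ≤ h ≤ 1`, `|log h_x - log h_y| ≤ lam` for nearest neighbours
(`lam = 1 / L₀`). -/
def Fam (n : ℕ) (h0 lam : ℝ) (h : Tor n → ℝ) : Prop :=
  (∀ x, h0 ≤ h x ∧ h x ≤ 1) ∧
    ∀ (x : Tor n) (i : Fin 3), h x ≤ Real.exp lam * h (x + Pi.single i 1) ∧
      h (x + Pi.single i 1) ≤ Real.exp lam * h x

/-- The cube `x + [0, w)³`. -/
def cube (n : ℕ) (x : Tor n) (w : ℕ) : Finset (Tor n) :=
  (Finset.univ : Finset (Fin 3 → Fin w)).image fun y => x + fun i => ((y i : ℕ) : ZMod n)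

end

end Vale.Agent.P361.LRO

/-- Realizes the equations of `law` (and of its matcher) in this file. -/
theorem Vale.Agent.P361.LRO.eqforce_law : True := by exact (fun _ => trivial) @Vale.Agent.P361.LRO.law.eq_1
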