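import Vale.Agent.P361.LRO.Defs
import Vale.Agent.P361.LRO.Net.LawBasic

/-!
Elementary toolbox for Part A of `Defs.lean` (charge networks).
-/

namespace Vale.Agent.P361.LRO

open Finset Matrix

set_option linter.unusedSectionVars false

section BaseA

variable {X : Type} [Fintype X] [DecidableEq X]

/-! ### The law of the permutation -/

theorem IsLaw.sum_eq {μ : Equiv.Perm X → ℝ} (h : IsLaw μ) : ∑ π, μ π = 1 := by
  obtain ⟨l, σ, hl, rfl⟩ := h
  exact law_sum l σ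

/-! ### Weights and charges -/

theorem fin2_cast (a : Fin 2) : ((a : ℕ) : ℝ) = 0 ∨ ((a : ℕ) : ℝ) = 1 := by
  fin_cases a <;> simp

theorem fin2_cast_inj {a b : Fin 2} : ((a : ℕ) : ℝ) = ((b : ℕ) : ℝ) ↔ a = b := by
  constructor
  · intro h; exact Fin.ext (by exact_mod_cast h)
  · rintro rfl; rfl

theorem jj_eq_zero_iff (π : Equiv.Perm X) (s : X → Fin 2) (x : X) :
    jj π s x = 0 ↔ s x = s (π x) := by
  unfold jj
  rw [sub_eq_zero, fin2_cast_inj]

theorem abs_jj_le (π : Equiv.Perm X) (s : X → Fin 2) (x : X) : |jj π s x| ≤ 1 := by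
  unfold jj
  rcases fin2_cast (s x) with h2 | h2 <;> rcases fin2_cast (s (π x)) with h3 | h3 <;>
    rw [h2, h3] <;> norm_num

theorem ZZ_ge_two {μ : Equiv.Perm X → ℝ} (hμ : ∀ π, 0 ≤ μ π) (hs : ∑ π, μ π = 1) {θ : X → ℝ}
    (hθ : ∀ x, 0 ≤ θ x) : 1 ≤ ZZ μ θ := by
  unfold ZZ
  rw [← hs]
  apply Finset.sum_le_sum
  intro π _
  rw [← Finset.mul_sum]
  have h : (1 : ℝ) ≤ ∑ s, wt θ π s := by
    calc (1 : ℝ) = wt θ π (fun _ => 0) := (wt_const θ π 0).symm
      _ ≤ ∑ s, wt θ π s := Finset.single_le_sum (f := fun s => wt θ π s)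
          (fun s _ => wt_nonneg hθ π s) (Finset.mem_univ _)
  nlinarith [hμ π]

/-! ### Linearity of the expectation -/

theorem EE_congr {μ : Equiv.Perm X → ℝ} {θ : X → ℝ} {f g : Equiv.Perm X → (X → Fin 2) → ℝ}
    (h : ∀ π s, f π s = g π s) : EE μ θ f = EE μ θ g := by
  have : f = g := funext fun π => funext fun s => h π s
  rw [this]

theorem EE_add (μ : Equiv.Perm X → ℝ) (θ : X → ℝ) (f g : Equiv.Perm X → (X → Fin 2) → ℝ) :
    EE μ θ (fun π s => f π s + g π s) = EE μ θ f + EE μ θ g := by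
  unfold EE
  rw [← add_div, ← Finset.sum_add_distrib]
  congr 1
  refine Finset.sum_congr rfl fun π _ => ?_
  rw [← Finset.sum_add_distrib]
  exact Finset.sum_congr rfl fun s _ => by ring

theorem EE_mul_left (μ : Equiv.Perm X → ℝ) (θ : X → ℝ) (c : ℝ)
    (f : Equiv.Perm X → (X → Fin 2) → ℝ) :
    EE μ θ (fun π s => c * f π s) = c * EE μ θ f := by
  unfold EE
  rw [← mul_div_assoc, Finset.mul_sum]
  congr 1
  refine Finset.sum_congr rfl fun π _ => ?_
  rw [Finset.mul_sum]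
  exact Finset.sum_congr rfl fun s _ => by ring

theorem EE_neg (μ : Equiv.Perm X → ℝ) (θ : X → ℝ) (f : Equiv.Perm X → (X → Fin 2) → ℝ) :
    EE μ θ (fun π s => - f π s) = - EE μ θ f := by
  have h := EE_mul_left μ θ (-1) f
  simpa using h

theorem EE_sub (μ : Equiv.Perm X → ℝ) (θ : X → ℝ) (f g : Equiv.Perm X → (X → Fin 2) → ℝ) :
    EE μ θ (fun π s => f π s - g π s) = EE μ θ f - EE μ θ g := by
  have h := EE_add μ θ f (fun π s => - g π s)
  rw [EE_neg] at h
  simpa [sub_eq_add_neg] using h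

theorem EE_sum {ι : Type*} (μ : Equiv.Perm X → ℝ) (θ : X → ℝ) (S : Finset ι)
    (f : ι → Equiv.Perm X → (X → Fin 2) → ℝ) :
    EE μ θ (fun π s => ∑ i ∈ S, f i π s) = ∑ i ∈ S, EE μ θ (f i) := by
  classical
  induction S using Finset.induction_on with
  | empty => simp [EE]
  | insert i S hi ih =>
    rw [Finset.sum_insert hi, ← ih, ← EE_add]
    exact EE_congr fun π s => by rw [Finset.sum_insert hi]

theorem EE_nonneg {μ : Equiv.Perm X → ℝ} (hμ : ∀ π, 0 ≤ μ π) {θ : X → ℝ} (hθ : ∀ x, 0 ≤ θ x)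
    {f : Equiv.Perm X → (X → Fin 2) → ℝ} (hf : ∀ π s, 0 ≤ f π s) : 0 ≤ EE μ θ f := by
  unfold EE ZZ
  apply div_nonneg
  · exact Finset.sum_nonneg fun π _ => Finset.sum_nonneg fun s _ =>
      mul_nonneg (mul_nonneg (hμ π) (wt_nonneg hθ π s)) (hf π s)
  · exact Finset.sum_nonneg fun π _ => Finset.sum_nonneg fun s _ =>
      mul_nonneg (hμ π) (wt_nonneg hθ π s)

theorem EE_mono {μ : Equiv.Perm X → ℝ} (hμ : ∀ π, 0 ≤ μ π) {θ : X → ℝ} (hθ : ∀ x, 0 ≤ θ x)
    {f g : Equiv.Perm X → (X → Fin 2) → ℝ} (hfg : ∀ π s, f π s ≤ g π s) :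
    EE μ θ f ≤ EE μ θ g := by
  have h := EE_nonneg (f := fun π s => g π s - f π s) hμ hθ (fun π s => sub_nonneg.2 (hfg π s))
  rw [EE_sub] at h
  linarith

theorem EE_const {μ : Equiv.Perm X → ℝ} {θ : X → ℝ} (hZ : ZZ μ θ ≠ 0) (c : ℝ) :
    EE μ θ (fun _ _ => c) = c := by
  unfold EE
  rw [div_eq_iff hZ]
  unfold ZZ
  rw [Finset.mul_sum]
  refine Finset.sum_congr rfl fun π _ => ?_
  rw [Finset.mul_sum]
  exact Finset.sum_congr rfl fun s _ => by ring

/-! ### Flip symmetry -/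

/-- The global flip of the configuration. -/
def flipC : (X → Fin 2) ≃ (X → Fin 2) := Equiv.piCongrRight fun _ => Equiv.subLeft (1 : Fin 2)

theorem flipC_apply (s : X → Fin 2) (x : X) : flipC s x = 1 - s x := rfl

theorem fin2_one_sub (a : Fin 2) : (((1 - a : Fin 2) : ℕ) : ℝ) = 1 - ((a : ℕ) : ℝ) := by
  fin_cases a <;> simp

theorem jj_flip (π : Equiv.Perm X) (s : X → Fin 2) (x : X) :
    jj π (flipC s) x = - jj π s x := by
  unfold jj
  rw [flipC_apply, flipC_apply, fin2_one_sub, fin2_one_sub]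
  ring

theorem wt_flip (θ : X → ℝ) (π : Equiv.Perm X) (s : X → Fin 2) :
    wt θ π (flipC s) = wt θ π s := by
  unfold wt
  refine Finset.prod_congr rfl fun x _ => ?_
  have : (flipC s x = flipC s (π x)) ↔ (s x = s (π x)) := by
    rw [flipC_apply, flipC_apply]; exact sub_right_inj
  simp only [this]

theorem EE_flip (μ : Equiv.Perm X → ℝ) (θ : X → ℝ) (f : Equiv.Perm X → (X → Fin 2) → ℝ) :
    EE μ θ (fun π s => f π (flipC s)) = EE μ θ f := by
  unfold EE
  congr 1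
  refine Finset.sum_congr rfl fun π _ => ?_
  refine Fintype.sum_equiv flipC _ _ fun s => ?_
  rw [wt_flip]

theorem EE_odd {μ : Equiv.Perm X → ℝ} {θ : X → ℝ} {f : Equiv.Perm X → (X → Fin 2) → ℝ}
    (h : ∀ π s, f π (flipC s) = - f π s) : EE μ θ f = 0 := by
  have h1 := EE_flip μ θ f
  rw [EE_congr h, EE_neg] at h1
  linarith

theorem EE_jj (μ : Equiv.Perm X → ℝ) (θ : X → ℝ) (x : X) :
    EE μ θ (fun π s => jj π s x) = 0 :=
  EE_odd fun π s => jj_flip π s x

theorem EE_lin (μ : Equiv.Perm X → ℝ) (θ : X → ℝ) (a : X → ℝ) :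
    EE μ θ (fun π s => ∑ x, a x * jj π s x) = 0 :=
  EE_odd fun π s => by
    rw [← Finset.sum_neg_distrib]
    exact Finset.sum_congr rfl fun x _ => by rw [jj_flip]; ring

/-! ### The quadratic form `KK` -/

theorem KK_expand (μ : Equiv.Perm X → ℝ) (θ : X → ℝ) (a : X → ℝ) :
    KK μ θ a = ∑ u, ∑ v, a u * a v * EE μ θ (fun π s => jj π s u * jj π s v) := by
  unfold KK
  rw [EE_congr (g := fun π s => ∑ u, ∑ v, (a u * a v) * (jj π s u * jj π s v))
    (fun π s => by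
      rw [sq, Finset.sum_mul_sum]
      exact Finset.sum_congr rfl fun u _ => Finset.sum_congr rfl fun v _ => by ring)]
  rw [EE_sum]
  refine Finset.sum_congr rfl fun u _ => ?_
  rw [EE_sum]
  exact Finset.sum_congr rfl fun v _ => EE_mul_left _ _ _ _

theorem KK_add_const (μ : Equiv.Perm X → ℝ) (θ : X → ℝ) (a : X → ℝ) (c : ℝ) :
    KK μ θ (fun x => a x + c) = KK μ θ a := by
  unfold KK
  refine EE_congr fun π s => ?_
  congr 1
  have : ∑ x, (a x + c) * jj π s x = ∑ x, a x * jj π s x + c * ∑ x, jj π s x := by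
    rw [Finset.mul_sum, ← Finset.sum_add_distrib]
    exact Finset.sum_congr rfl fun x _ => by ring
  rw [this, sum_jj]; ring

theorem KK_smul (μ : Equiv.Perm X → ℝ) (θ : X → ℝ) (c : ℝ) (a : X → ℝ) :
    KK μ θ (fun x => c * a x) = c ^ 2 * KK μ θ a := by
  unfold KK
  rw [← EE_mul_left]
  refine EE_congr fun π s => ?_
  have : ∑ x, c * a x * jj π s x = c * ∑ x, a x * jj π s x := by
    rw [Finset.mul_sum]; exact Finset.sum_congr rfl fun x _ => by ring
  rw [this]; ring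

theorem cc_comm (μ : Equiv.Perm X → ℝ) (θ : X → ℝ) (u v : X) : cc μ θ u v = cc μ θ v u := by
  unfold cc
  rw [EE_congr (fun π s => mul_comm (jj π s u) (jj π s v))]

theorem sum_cc_right (μ : Equiv.Perm X → ℝ) (θ : X → ℝ) (u : X) : ∑ v, cc μ θ u v = 0 := by
  unfold cc
  rw [Finset.sum_neg_distrib, ← EE_sum, neg_eq_zero]
  rw [EE_congr (g := fun _ _ => 0 * (0 : ℝ)) (fun π s => by
    rw [← Finset.mul_sum, sum_jj]; ring)]
  rw [EE_mul_left]; ring

/-- `K(a) = (1/2) ∑_{u,v} c_uv (a_u - a_v)²`. -/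
theorem KK_eq (μ : Equiv.Perm X → ℝ) (θ : X → ℝ) (a : X → ℝ) :
    KK μ θ a = (1 / 2) * ∑ u, ∑ v, cc μ θ u v * (a u - a v) ^ 2 := by
  have h1 : ∑ u, ∑ v, cc μ θ u v * a u ^ 2 = 0 := by
    refine Finset.sum_eq_zero fun u _ => ?_
    rw [← Finset.sum_mul, sum_cc_right, zero_mul]
  have h2 : ∑ u, ∑ v, cc μ θ u v * a v ^ 2 = 0 := by
    rw [Finset.sum_comm]
    refine Finset.sum_eq_zero fun v _ => ?_
    rw [← Finset.sum_mul, Finset.sum_congr rfl fun u _ => cc_comm μ θ u v, sum_cc_right, zero_mul]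
  have h3 : ∑ u, ∑ v, cc μ θ u v * (a u - a v) ^ 2
      = ∑ u, ∑ v, cc μ θ u v * a u ^ 2 + ∑ u, ∑ v, cc μ θ u v * a v ^ 2
        + 2 * ∑ u, ∑ v, a u * a v * EE μ θ (fun π s => jj π s u * jj π s v) := by
    rw [Finset.mul_sum, ← Finset.sum_add_distrib, ← Finset.sum_add_distrib]
    refine Finset.sum_congr rfl fun u _ => ?_
    rw [Finset.mul_sum, ← Finset.sum_add_distrib, ← Finset.sum_add_distrib]
    refine Finset.sum_congr rfl fun v _ => ?_
    unfold cc
    ring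
  rw [KK_expand, h3, h1, h2]
  ring

end BaseA

end Vale.Agent.P361.LRO
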