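import Mathlib

/-!
P361, step (5): the extra slice `T` changes the density of down spins by a bounded factor only
(Jensen).
-/

namespace Vale.Agent.P361.LRO

open Finset Matrix

theorem tilt_gen {Ω : Type*} [Fintype Ω] (w f N : Ω → ℝ) (hw : ∀ ω, 0 ≤ w ω)
    (hf : ∀ ω, 0 ≤ f ω) (hN : ∀ ω, 0 ≤ N ω) {k : ℝ} (hk : 0 ≤ k) (hW : 0 < ∑ ω, w ω) :
    (∑ ω, w ω * Real.exp (-(k * N ω)) * f ω) / (∑ ω, w ω * Real.exp (-(k * N ω))) ≤
      Real.exp (k * ((∑ ω, w ω * N ω) / ∑ ω, w ω)) * ((∑ ω, w ω * f ω) / ∑ ω, w ω) := by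
  set W := ∑ ω, w ω with hWd
  set m := (∑ ω, w ω * N ω) / W with hm
  -- Jensen
  have hJ : W * Real.exp (-(k * m)) ≤ ∑ ω, w ω * Real.exp (-(k * N ω)) := by
    have h1 : ∀ ω, w ω * (Real.exp (-(k * m)) * (1 + (k * m - k * N ω))) ≤
        w ω * Real.exp (-(k * N ω)) := by
      intro ω
      refine mul_le_mul_of_nonneg_left ?_ (hw ω)
      have h2 := Real.add_one_le_exp (k * m - k * N ω)
      have h3 : Real.exp (-(k * N ω)) = Real.exp (-(k * m)) * Real.exp (k * m - k * N ω) := by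
        rw [← Real.exp_add]; congr 1; ring
      rw [h3]
      exact mul_le_mul_of_nonneg_left (by linarith) (Real.exp_pos _).le
    have h4 := Finset.sum_le_sum fun ω (_ : ω ∈ (univ : Finset Ω)) => h1 ω
    have h5 : ∑ ω, w ω * (Real.exp (-(k * m)) * (1 + (k * m - k * N ω))) =
        W * Real.exp (-(k * m)) := by
      have h6 : ∀ ω, w ω * (Real.exp (-(k * m)) * (1 + (k * m - k * N ω))) =
          Real.exp (-(k * m)) * ((1 + k * m) * w ω - k * (w ω * N ω)) := fun ω => by ring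
      rw [Finset.sum_congr rfl fun ω _ => h6 ω, ← Finset.mul_sum, Finset.sum_sub_distrib,
        ← Finset.mul_sum, ← Finset.mul_sum]
      have h7 : ∑ ω, w ω * N ω = m * W := by
        rw [hm, div_mul_cancel₀ _ hW.ne']
      rw [h7, ← hWd]; ring
    rwa [h5] at h4
  have hD : 0 < ∑ ω, w ω * Real.exp (-(k * N ω)) :=
    lt_of_lt_of_le (mul_pos hW (Real.exp_pos _)) hJ
  have hnum : ∑ ω, w ω * Real.exp (-(k * N ω)) * f ω ≤ ∑ ω, w ω * f ω := by
    refine Finset.sum_le_sum fun ω _ => ?_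
    refine mul_le_mul_of_nonneg_right ?_ (hf ω)
    have : Real.exp (-(k * N ω)) ≤ 1 := Real.exp_le_one_iff.2 (by
      have := mul_nonneg hk (hN ω); linarith)
    calc w ω * Real.exp (-(k * N ω)) ≤ w ω * 1 := mul_le_mul_of_nonneg_left this (hw ω)
      _ = w ω := mul_one _
  have hF : 0 ≤ ∑ ω, w ω * f ω := Finset.sum_nonneg fun ω _ => mul_nonneg (hw ω) (hf ω)
  rw [div_le_iff₀ hD]
  calc ∑ ω, w ω * Real.exp (-(k * N ω)) * f ω ≤ ∑ ω, w ω * f ω := hnum
    _ = Real.exp (k * m) * ((∑ ω, w ω * f ω) / W) * (W * Real.exp (-(k * m))) := by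
        rw [Real.exp_neg]
        field_simp
    _ ≤ _ := mul_le_mul_of_nonneg_left hJ
        (mul_nonneg (Real.exp_pos _).le (div_nonneg hF hW.le))

variable {ι : Type*} [Fintype ι] [DecidableEq ι]

theorem trace_diag4 (e d : ι → ℝ) (A B : Matrix ι ι ℝ) :
    trace (diagonal e * A * diagonal d * B) = ∑ p : ι × ι, (A p.1 p.2 * B p.2 p.1) * e p.1 * d p.2 := by
  rw [Fintype.sum_prod_type, Matrix.trace]
  refine Finset.sum_congr rfl fun i _ => ?_
  rw [Matrix.diag_apply, Matrix.mul_apply]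
  refine Finset.sum_congr rfl fun j _ => ?_
  rw [Matrix.mul_diagonal, Matrix.diagonal_mul]
  ring

/-- Matrix form of the tilt bound: `A`, `B` entrywise nonnegative, `N` the number of down spins of
the block at the extra slice, `d` the observable at any other slice. -/
theorem tilt_matrix (A B : Matrix ι ι ℝ) (hA : ∀ i j, 0 ≤ A i j) (hB : ∀ i j, 0 ≤ B i j)
    (N d : ι → ℝ) (hN : ∀ i, 0 ≤ N i) (hd : ∀ i, 0 ≤ d i) {k : ℝ} (hk : 0 ≤ k)
    (hAB : 0 < trace (A * B)) :
    trace (diagonal (fun i => Real.exp (-(k * N i))) * A * diagonal d * B) /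
        trace (diagonal (fun i => Real.exp (-(k * N i))) * A * B) ≤
      Real.exp (k * (trace (diagonal N * A * B) / trace (A * B))) *
        (trace (A * diagonal d * B) / trace (A * B)) := by
  have h1 : ∀ e : ι → ℝ, trace (diagonal e * A * B) = ∑ p : ι × ι, (A p.1 p.2 * B p.2 p.1) * e p.1 := by
    intro e
    have := trace_diag4 e (fun _ => 1) A B
    rw [Matrix.diagonal_one, Matrix.mul_one] at this
    rw [this]
    exact Finset.sum_congr rfl fun p _ => by ring
  have h2 : trace (A * B) = ∑ p : ι × ι, (A p.1 p.2 * B p.2 p.1) := by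
    have := h1 (fun _ => 1)
    rw [Matrix.diagonal_one, Matrix.one_mul] at this
    rw [this]
    exact Finset.sum_congr rfl fun p _ => by ring
  have h3 : trace (A * diagonal d * B) = ∑ p : ι × ι, (A p.1 p.2 * B p.2 p.1) * d p.2 := by
    have := trace_diag4 (fun _ => 1) d A B
    rw [Matrix.diagonal_one, Matrix.one_mul] at this
    rw [this]
    exact Finset.sum_congr rfl fun p _ => by ring
  rw [trace_diag4, h1, h1, h2, h3]
  have := tilt_gen (fun p : ι × ι => A p.1 p.2 * B p.2 p.1) (fun p => d p.2) (fun p => N p.1)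
    (fun p => mul_nonneg (hA _ _) (hB _ _)) (fun p => hd _) (fun p => hN _) hk (by rwa [← h2])
  exact this

end Vale.Agent.P361.LRO
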