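import Mathlib

/-!
Convexity of the hyperbolicity cone of a real stable homogeneous polynomial (Garding), in the form of
real-rootedness along all directions of the cone, and log-concavity at the points of the cone.
-/

namespace Vale.Agent.P361.LRO.T1

open MvPolynomial

variable {σ : Type*} [Fintype σ]

/-- real stability: no zero with all coordinates in the open upper half plane -/
def RStable (f : MvPolynomial σ ℝ) : Prop :=
  ∀ z : σ → ℂ, (∀ i, 0 < (z i).im) → aeval z f ≠ 0

theorem aeval_smul_hom {f : MvPolynomial σ ℝ} {N : ℕ} (hf : f.IsHomogeneous N) (c : ℂ)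
    (z : σ → ℂ) : aeval (fun i => c * z i) f = c ^ N * aeval z f := by
  rw [aeval_def, aeval_def, eval₂_eq', eval₂_eq', Finset.mul_sum]
  refine Finset.sum_congr rfl fun m hm => ?_
  have h1 : ∏ i, (c * z i) ^ m i = c ^ N * ∏ i, z i ^ m i := by
    simp only [mul_pow]
    rw [Finset.prod_mul_distrib, Finset.prod_pow_eq_pow_sum]
    congr 2
    have h2 := hf (mem_support_iff.1 hm)
    rw [← h2, Finsupp.weight_apply, Finsupp.sum_fintype]
    · simp
    · simp
  rw [h1]
  ring

omit [Fintype σ] in
theorem aeval_conj (f : MvPolynomial σ ℝ) (z : σ → ℂ) :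
    aeval (fun i => (starRingEnd ℂ) (z i)) f = (starRingEnd ℂ) (aeval z f) := by
  have h := comp_aeval_apply (R := ℝ) (f := z) (Complex.conjAe : ℂ →ₐ[ℝ] ℂ) f
  exact h.symm

omit [Fintype σ] in
theorem continuous_aeval (f : MvPolynomial σ ℝ) : Continuous fun z : σ → ℂ => aeval z f := by
  have h : (fun z : σ → ℂ => aeval z f) = fun z => eval z (map (algebraMap ℝ ℂ) f) := by
    funext z
    rw [eval_map, aeval_def]
  rw [h]
  exact MvPolynomial.continuous_eval _

/-- the restriction to a line -/
noncomputable def line (f : MvPolynomial σ ℝ) (p q : σ → ℂ) : Polynomial ℂ :=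
  aeval (fun i => Polynomial.C (p i) + Polynomial.C (q i) * Polynomial.X) f

omit [Fintype σ] in
theorem line_eval (f : MvPolynomial σ ℝ) (p q : σ → ℂ) (u : ℂ) :
    (line f p q).eval u = aeval (fun i => p i + q i * u) f := by
  have h := comp_aeval_apply (R := ℝ)
    (f := fun i => Polynomial.C (p i) + Polynomial.C (q i) * Polynomial.X)
    ((Polynomial.aeval u : Polynomial ℂ →ₐ[ℂ] ℂ).restrictScalars ℝ) f
  rw [line]
  have h2 : ∀ P : Polynomial ℂ,
      ((Polynomial.aeval u : Polynomial ℂ →ₐ[ℂ] ℂ).restrictScalars ℝ) P = P.eval u := by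
    intro P
    rw [AlgHom.restrictScalars_apply, Polynomial.coe_aeval_eq_eval]
  rw [h2] at h
  rw [h]
  congr 2
  funext i
  rw [h2]
  simp

omit [Fintype σ] in
theorem prod_lin (p q : σ → ℂ) (m : σ → ℕ) (s : Finset σ) :
    (∏ i ∈ s, (Polynomial.C (p i) + Polynomial.C (q i) * Polynomial.X) ^ m i).natDegree ≤
        ∑ i ∈ s, m i ∧
      (∏ i ∈ s, (Polynomial.C (p i) + Polynomial.C (q i) * Polynomial.X) ^ m i).coeff
        (∑ i ∈ s, m i) = ∏ i ∈ s, q i ^ m i := by
  classical
  have key : ∀ (i : σ) (k : ℕ),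
      ((Polynomial.C (p i) + Polynomial.C (q i) * Polynomial.X) ^ k).natDegree ≤ k ∧
      ((Polynomial.C (p i) + Polynomial.C (q i) * Polynomial.X) ^ k).coeff k = q i ^ k := by
    intro i k
    have hd1 : (Polynomial.C (p i) + Polynomial.C (q i) * Polynomial.X).natDegree ≤ 1 := by
      rw [add_comm]
      exact Polynomial.natDegree_linear_le
    induction k with
    | zero => simp
    | succ k ih =>
      refine ⟨?_, ?_⟩
      · refine (Polynomial.natDegree_pow_le).trans ?_
        calc (k + 1) * _ ≤ (k + 1) * 1 := Nat.mul_le_mul_left _ hd1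
          _ = k + 1 := mul_one _
      · rw [pow_succ, Polynomial.coeff_mul_add_eq_of_natDegree_le ih.1 hd1, ih.2, pow_succ]
        simp
  induction s using Finset.induction_on with
  | empty => simp
  | insert i s hi ih =>
    rw [Finset.prod_insert hi, Finset.sum_insert hi, Finset.prod_insert hi]
    refine ⟨(Polynomial.natDegree_mul_le).trans (add_le_add (key i (m i)).1 ih.1), ?_⟩
    rw [Polynomial.coeff_mul_add_eq_of_natDegree_le (key i (m i)).1 ih.1, (key i (m i)).2, ih.2]

theorem line_degree {f : MvPolynomial σ ℝ} {N : ℕ} (hf : f.IsHomogeneous N) (p q : σ → ℂ) :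
    (line f p q).natDegree ≤ N ∧ (line f p q).coeff N = aeval q f := by
  classical
  have hsum : ∀ m ∈ f.support, ∑ i, m i = N := by
    intro m hm
    have h2 := hf (mem_support_iff.1 hm)
    rw [← h2, Finsupp.weight_apply, Finsupp.sum_fintype]
    · simp
    · simp
  rw [line, aeval_def, eval₂_eq']
  refine ⟨?_, ?_⟩
  · refine Polynomial.natDegree_sum_le_of_forall_le _ _ fun m hm => ?_
    refine (Polynomial.natDegree_mul_le).trans ?_
    have h1 : (algebraMap ℝ (Polynomial ℂ) (coeff m f)).natDegree = 0 := by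
      rw [IsScalarTower.algebraMap_apply ℝ ℂ (Polynomial ℂ), Polynomial.algebraMap_eq]
      exact Polynomial.natDegree_C _
    have h2 := (prod_lin p q m Finset.univ).1
    rw [hsum m hm] at h2
    rw [h1, zero_add]
    exact h2
  · rw [Polynomial.finsetSum_coeff, aeval_def, eval₂_eq']
    refine Finset.sum_congr rfl fun m hm => ?_
    have h2 := (prod_lin p q m Finset.univ).2
    rw [hsum m hm] at h2
    rw [IsScalarTower.algebraMap_apply ℝ ℂ (Polynomial ℂ), Polynomial.algebraMap_eq,
      Polynomial.coeff_C_mul, h2]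

theorem prod_norm_ge (u : ℂ) (hu : 0 ≤ u.im) (s : Multiset ℂ) (hs : ∀ r ∈ s, r.im ≤ 0) :
    u.im ^ s.card ≤ ‖(s.map fun a => u - a).prod‖ := by
  induction s using Multiset.induction_on with
  | empty => simp
  | cons a s ih =>
    rw [Multiset.card_cons, Multiset.map_cons, Multiset.prod_cons, norm_mul, pow_succ']
    refine mul_le_mul ?_ (ih fun r hr => hs r (Multiset.mem_cons_of_mem hr)) (by positivity)
      (norm_nonneg _)
    have h1 : (u - a).im ≤ ‖u - a‖ := (le_abs_self _).trans (Complex.abs_im_le_norm _)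
    have h2 := hs a (Multiset.mem_cons_self a s)
    rw [Complex.sub_im] at h1
    linarith

theorem eval_norm_ge (P : Polynomial ℂ) (N : ℕ) (hdeg : P.natDegree ≤ N) (hc : P.coeff N ≠ 0)
    (hroot : ∀ u : ℂ, 0 ≤ u.im → P.eval u ≠ 0) (u : ℂ) (hu : 0 ≤ u.im) :
    ‖P.coeff N‖ * u.im ^ N ≤ ‖P.eval u‖ := by
  have hN : P.natDegree = N := le_antisymm hdeg (Polynomial.le_natDegree_of_ne_zero hc)
  have hsp := IsAlgClosed.splits P
  have hcard := hsp.natDegree_eq_card_roots
  rw [hsp.eval_eq_prod_roots u, norm_mul, Polynomial.leadingCoeff, hN]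
  refine mul_le_mul_of_nonneg_left ?_ (norm_nonneg _)
  have h1 := prod_norm_ge u hu P.roots fun r hr => by
    by_contra h
    exact hroot r (not_le.1 h).le (Polynomial.isRoot_of_mem_roots hr)
  rw [← hcard, hN] at h1
  exact h1

/-- the point `b` lies in the hyperbolicity cone -/
def Cone (f : MvPolynomial σ ℝ) (b : σ → ℝ) : Prop :=
  ∀ s : ℝ, 0 ≤ s → aeval (fun i => ((b i + s : ℝ) : ℂ)) f ≠ 0

omit [Fintype σ] in
theorem aeval_shift_ne {f : MvPolynomial σ ℝ} (hs : RStable f) {b : σ → ℝ} (hb : Cone f b) (s : ℂ)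
    (hre : 0 ≤ s.re) : aeval (fun i => (b i : ℂ) + s) f ≠ 0 := by
  rcases lt_trichotomy s.im 0 with h | h | h
  · intro h0
    have h1 := aeval_conj f fun i => (b i : ℂ) + s
    rw [h0, map_zero] at h1
    refine hs _ (fun i => ?_) h1
    simp only [map_add, Complex.conj_ofReal, Complex.add_im, Complex.ofReal_im, Complex.conj_im]
    linarith
  · have h1 : s = (s.re : ℂ) := by
      apply Complex.ext
      · simp
      · simp [h]
    have h2 := hb s.re hre
    rw [h1]
    intro h0
    apply h2
    rw [← h0]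
    congr 2
    funext i
    push_cast
    rfl
  · refine hs _ fun i => ?_
    simp only [Complex.add_im, Complex.ofReal_im, zero_add]
    exact h

/-- **Homotopy.** -/
theorem garding_bound {f : MvPolynomial σ ℝ} {N : ℕ} (hf : f.IsHomogeneous N) (hs : RStable f)
    {b : σ → ℝ} (hb : Cone f b) (d : σ → ℝ) {δ : ℝ} (hδ : 0 < δ) (u : ℂ) (hu : 0 ≤ u.im) :
    ‖aeval (fun i => (b i : ℂ)) f‖ * u.im ^ N ≤
      ‖aeval (fun i => ((d i : ℂ) + δ * Complex.I) + b i * u) f‖ := by
  classical
  set B : ℂ := aeval (fun i => (b i : ℂ)) f with hB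
  have hB0 : B ≠ 0 := by
    have := hb 0 le_rfl
    simpa using this
  set G : ℝ → ℂ → ℂ := fun l u =>
    aeval (fun i => ((l * d i : ℝ) : ℂ) + δ * Complex.I + b i * u) f with hG
  have hGc : Continuous fun x : ℝ × ℂ => G x.1 x.2 := by
    refine (continuous_aeval f).comp (continuous_pi fun i => ?_)
    fun_prop
  -- no real root
  have hreal : ∀ (l : ℝ) (u : ℂ), u.im = 0 → G l u ≠ 0 := by
    intro l u hu
    refine hs _ fun i => ?_
    simp [hu, hδ]
  -- the bound for the good parameters
  have hbd : ∀ l : ℝ, (∀ u : ℂ, 0 ≤ u.im → G l u ≠ 0) → ∀ u : ℂ, 0 ≤ u.im →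
      ‖B‖ * u.im ^ N ≤ ‖G l u‖ := by
    intro l hl u hu
    obtain ⟨h1, h2⟩ := line_degree hf (fun i => ((l * d i : ℝ) : ℂ) + δ * Complex.I)
      (fun i => (b i : ℂ))
    have h3 := eval_norm_ge (line f (fun i => ((l * d i : ℝ) : ℂ) + δ * Complex.I)
      (fun i => (b i : ℂ))) N h1 (by rw [h2]; exact hB0)
      (fun u hu => by rw [line_eval]; exact hl u hu) u hu
    rw [h2, line_eval] at h3
    exact h3
  -- a bound for the roots
  obtain ⟨R, hR⟩ : ∃ R : ℝ, ∀ l ∈ Set.Icc (0 : ℝ) 1, ∀ u : ℂ, G l u = 0 → ‖u‖ ≤ R := by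
    have hc := (continuous_aeval f).continuousAt (x := fun i => (b i : ℂ))
    have h1 : ∀ᶠ z in nhds (fun i => (b i : ℂ)), aeval z f ≠ 0 := hc.eventually_ne hB0
    obtain ⟨ε, hε, h2⟩ := Metric.eventually_nhds_iff.1 h1
    set D : ℝ := ∑ i, |d i| + δ with hD
    have hD0 : 0 < D := by
      have : 0 ≤ ∑ i, |d i| := Finset.sum_nonneg fun i _ => abs_nonneg _
      linarith
    refine ⟨D / ε * 2, fun l hl u h0 => ?_⟩
    by_contra hu
    rw [not_le] at hu
    have hun : 0 < ‖u‖ := lt_trans (by positivity) hu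
    have hu0 : u ≠ 0 := norm_pos_iff.1 hun
    have h3 : G l u = u ^ N * aeval (fun i => (b i : ℂ) +
        (((l * d i : ℝ) : ℂ) + δ * Complex.I) / u) f := by
      rw [← aeval_smul_hom hf]
      simp only [hG]
      congr 2
      funext i
      field_simp
      ring
    rw [h3] at h0
    rcases mul_eq_zero.1 h0 with h4 | h4
    · exact hu0 (eq_zero_of_pow_eq_zero h4)
    · refine h2 ?_ h4
      rw [dist_pi_lt_iff hε]
      intro i
      rw [Complex.dist_eq, add_sub_cancel_left, norm_div, div_lt_iff₀ hun]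
      have h5 : ‖((l * d i : ℝ) : ℂ) + δ * Complex.I‖ ≤ D := by
        refine (norm_add_le _ _).trans ?_
        have e1 : ‖((l * d i : ℝ) : ℂ)‖ = l * |d i| := by
          rw [Complex.norm_real, Real.norm_eq_abs, abs_mul, abs_of_nonneg hl.1]
        have e2 : ‖(δ : ℂ) * Complex.I‖ = δ := by
          rw [norm_mul, Complex.norm_real, Complex.norm_I, mul_one, Real.norm_eq_abs,
            abs_of_pos hδ]
        rw [e1, e2]
        have h6 : |d i| ≤ ∑ i, |d i| :=
          Finset.single_le_sum (f := fun i => |d i|) (fun i _ => abs_nonneg _) (Finset.mem_univ i)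
        have h7 : l * |d i| ≤ |d i| := by
          have := abs_nonneg (d i)
          nlinarith [hl.2]
        linarith
      have h6 : D < ε * ‖u‖ := by
        have h7 : D / ε * 2 < ‖u‖ := hu
        have h8 : D = ε * (D / ε) := by field_simp
        have h9 : 0 < D / ε := by positivity
        rw [h8]
        exact mul_lt_mul_of_pos_left (by linarith) hε
      linarith
  -- the two closed sets
  set T : Set ℝ := {l | l ∈ Set.Icc (0 : ℝ) 1 ∧ ∃ u : ℂ, 0 ≤ u.im ∧ G l u = 0} with hT
  set T' : Set ℝ := {l | ∀ u : ℂ, 0 ≤ u.im → ‖B‖ * u.im ^ N ≤ ‖G l u‖} with hT'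
  have hTc : IsClosed T := by
    have h1 : IsCompact ((Set.Icc (0 : ℝ) 1 ×ˢ Metric.closedBall (0 : ℂ) R) ∩
        {x : ℝ × ℂ | 0 ≤ x.2.im ∧ G x.1 x.2 = 0}) := by
      refine (isCompact_Icc.prod (isCompact_closedBall _ _)).inter_right ?_
      refine IsClosed.inter ?_ ?_
      · exact isClosed_le continuous_const (Complex.continuous_im.comp continuous_snd)
      · exact isClosed_eq hGc continuous_const
    have h2 : T = Prod.fst '' ((Set.Icc (0 : ℝ) 1 ×ˢ Metric.closedBall (0 : ℂ) R) ∩
        {x : ℝ × ℂ | 0 ≤ x.2.im ∧ G x.1 x.2 = 0}) := by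
      ext l
      constructor
      · rintro ⟨hl, u, hu, h0⟩
        refine ⟨(l, u), ⟨⟨hl, ?_⟩, hu, h0⟩, rfl⟩
        rw [mem_closedBall_zero_iff]
        exact hR l hl u h0
      · rintro ⟨⟨l', u⟩, ⟨⟨hl, -⟩, hu, h0⟩, rfl⟩
        exact ⟨hl, u, hu, h0⟩
    rw [h2]
    exact (h1.image continuous_fst).isClosed
  have hTc' : IsClosed T' := by
    have h1 : T' = ⋂ u : {u : ℂ // 0 ≤ u.im}, {l | ‖B‖ * u.1.im ^ N ≤ ‖G l u.1‖} := by
      ext l
      simp only [hT', Set.mem_ofPred_eq, Set.mem_iInter, Subtype.forall]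
    rw [h1]
    refine isClosed_iInter fun u => ?_
    refine isClosed_le continuous_const ?_
    exact (hGc.comp (continuous_id.prodMk continuous_const)).norm
  have hcov : Set.Icc (0 : ℝ) 1 ⊆ T ∪ T' := by
    intro l hl
    by_cases h : ∃ u : ℂ, 0 ≤ u.im ∧ G l u = 0
    · exact Or.inl ⟨hl, h⟩
    · push Not at h
      exact Or.inr (hbd l h)
  have h0T' : (0 : ℝ) ∈ T' := by
    refine hbd 0 fun u hu h0 => ?_
    by_cases hu0 : u = 0
    · exact hreal 0 u (by rw [hu0]; rfl) h0
    · have h3 : G 0 u = u ^ N * aeval (fun i => (b i : ℂ) + δ * Complex.I / u) f := by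
        rw [← aeval_smul_hom hf]
        simp only [hG]
        congr 2
        funext i
        field_simp
        push_cast
        ring
      rw [h3] at h0
      rcases mul_eq_zero.1 h0 with h4 | h4
      · exact hu0 (eq_zero_of_pow_eq_zero h4)
      · refine aeval_shift_ne hs hb (δ * Complex.I / u) ?_ h4
        rw [Complex.div_re]
        simp only [Complex.mul_re, Complex.ofReal_re, Complex.I_re, mul_zero, Complex.ofReal_im,
          Complex.I_im, mul_one, sub_self, zero_mul, zero_div, Complex.mul_im, zero_add]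
        have := Complex.normSq_nonneg u
        positivity
  have h1T' : (1 : ℝ) ∈ T' := by
    by_contra h1
    have h2 : (1 : ℝ) ∈ T := by
      rcases hcov ⟨zero_le_one, le_rfl⟩ with h | h
      · exact h
      · exact absurd h h1
    obtain ⟨l, -, hl, hl'⟩ := isPreconnected_closed_iff.1 isPreconnected_Icc T T' hTc hTc' hcov
      ⟨1, ⟨zero_le_one, le_rfl⟩, h2⟩ ⟨0, ⟨le_rfl, zero_le_one⟩, h0T'⟩
    obtain ⟨-, u, hu, h0⟩ := hl
    rcases hu.lt_or_eq with h | h
    · have h3 := hl' u hu
      rw [h0, norm_zero] at h3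
      have h4 : 0 < ‖B‖ * u.im ^ N := mul_pos (norm_pos_iff.2 hB0) (pow_pos h N)
      linarith
    · exact hreal l u h.symm h0
  have h5 := h1T' u hu
  simp only [hG] at h5
  refine h5.trans_eq ?_
  congr 3
  funext i
  push_cast
  ring

/-- real-rootedness along the directions of the cone -/
theorem garding {f : MvPolynomial σ ℝ} {N : ℕ} (hf : f.IsHomogeneous N) (hs : RStable f)
    {b : σ → ℝ} (hb : Cone f b) (d : σ → ℝ) (u : ℂ) (hu : u.im ≠ 0) :
    aeval (fun i => (d i : ℂ) + b i * u) f ≠ 0 := by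
  have hB0 : aeval (fun i => (b i : ℂ)) f ≠ 0 := by
    have := hb 0 le_rfl
    simpa using this
  have key : ∀ u : ℂ, 0 < u.im → aeval (fun i => (d i : ℂ) + b i * u) f ≠ 0 := by
    intro u hu h0
    have h1 : Filter.Tendsto (fun δ : ℝ =>
        ‖aeval (fun i => ((d i : ℂ) + δ * Complex.I) + b i * u) f‖) (nhdsWithin 0 (Set.Ioi 0))
        (nhds ‖aeval (fun i => (d i : ℂ) + b i * u) f‖) := by
      have h2 : Continuous fun δ : ℝ =>
          ‖aeval (fun i => ((d i : ℂ) + δ * Complex.I) + b i * u) f‖ := by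
        refine ((continuous_aeval f).comp (continuous_pi fun i => ?_)).norm
        fun_prop
      have h3 := (h2.tendsto 0).mono_left (nhdsWithin_le_nhds (s := Set.Ioi (0 : ℝ)))
      simpa using h3
    have h2 : ‖aeval (fun i => (b i : ℂ)) f‖ * u.im ^ N ≤
        ‖aeval (fun i => (d i : ℂ) + b i * u) f‖ := by
      refine ge_of_tendsto h1 ?_
      filter_upwards [self_mem_nhdsWithin] with δ hδ
      exact garding_bound hf hs hb d hδ u hu.le
    rw [h0, norm_zero] at h2
    have h4 : 0 < ‖aeval (fun i => (b i : ℂ)) f‖ * u.im ^ N :=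
      mul_pos (norm_pos_iff.2 hB0) (pow_pos hu N)
    linarith
  rcases lt_or_gt_of_ne hu with h | h
  · intro h0
    have h1 := aeval_conj f fun i => (d i : ℂ) + b i * u
    rw [h0, map_zero] at h1
    refine key ((starRingEnd ℂ) u) (by rw [Complex.conj_im]; linarith) ?_
    rw [← h1]
    congr 2
    funext i
    simp
  · exact key u h

/-- a real polynomial with real zeros only is log-concave -/
theorem real_rooted_ineq (g : Polynomial ℝ)
    (hg : ∀ z : ℂ, z.im ≠ 0 → Polynomial.aeval z g ≠ 0) (x : ℝ) :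
    g.eval x * g.derivative.derivative.eval x ≤ g.derivative.eval x ^ 2 := by
  induction hn : g.natDegree using Nat.strong_induction_on generalizing g with
  | _ n ih =>
    by_cases hd : g.natDegree = 0
    · rw [Polynomial.eq_C_of_natDegree_eq_zero hd]
      simp
    · have h1 : (g.map (algebraMap ℝ ℂ)).degree ≠ 0 := by
        intro h
        rw [Polynomial.degree_map] at h
        exact hd (Polynomial.natDegree_eq_of_degree_eq_some h)
      obtain ⟨z, hz⟩ := IsAlgClosed.exists_root (g.map (algebraMap ℝ ℂ)) h1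
      rw [Polynomial.IsRoot, Polynomial.eval_map_algebraMap] at hz
      have him : z.im = 0 := by
        by_contra h
        exact hg z h hz
      have hz2 : z = ((z.re : ℝ) : ℂ) := by
        apply Complex.ext
        · simp
        · simp [him]
      have hroot : g.IsRoot z.re := by
        rw [hz2] at hz
        have h2 : Polynomial.aeval ((z.re : ℝ) : ℂ) g = ((g.eval z.re : ℝ) : ℂ) :=
          Polynomial.aeval_algebraMap_apply_eq_algebraMap_eval z.re g
        rw [h2] at hz
        exact_mod_cast hz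
      obtain ⟨h, rfl⟩ := Polynomial.dvd_iff_isRoot.2 hroot
      have hh0 : h ≠ 0 := by
        rintro rfl
        rw [mul_zero, Polynomial.natDegree_zero] at hd
        exact hd rfl
      have hlt : h.natDegree < n := by
        rw [← hn, Polynomial.natDegree_mul (Polynomial.X_sub_C_ne_zero _) hh0,
          Polynomial.natDegree_X_sub_C]
        omega
      have h3 := ih _ hlt h (fun w hw h0 => hg w hw (by rw [map_mul, h0, mul_zero])) rfl
      have e1 : ((Polynomial.X - Polynomial.C z.re) * h).derivative =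
          h + (Polynomial.X - Polynomial.C z.re) * h.derivative := by
        rw [Polynomial.derivative_mul]
        simp
      have e2 : ((Polynomial.X - Polynomial.C z.re) * h).derivative.derivative =
          2 * h.derivative + (Polynomial.X - Polynomial.C z.re) * h.derivative.derivative := by
        rw [e1, Polynomial.derivative_add, Polynomial.derivative_mul]
        simp
        ring
      rw [e2, e1]
      simp only [Polynomial.eval_mul, Polynomial.eval_add, Polynomial.eval_sub, Polynomial.eval_X,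
        Polynomial.eval_C, Polynomial.eval_ofNat]
      nlinarith [sq_nonneg (h.eval x), sq_nonneg (x - z.re),
        mul_nonneg (sq_nonneg (x - z.re)) (sub_nonneg.2 h3)]

/-- the real restriction to a line -/
noncomputable def lineR (f : MvPolynomial σ ℝ) (p q : σ → ℝ) : Polynomial ℝ :=
  aeval (fun i => Polynomial.C (p i) + Polynomial.C (q i) * Polynomial.X) f

omit [Fintype σ] in
theorem lineR_aeval (f : MvPolynomial σ ℝ) (p q : σ → ℝ) (u : ℂ) :
    Polynomial.aeval u (lineR f p q) = aeval (fun i => (p i : ℂ) + q i * u) f := by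
  rw [lineR]
  have h := comp_aeval_apply (R := ℝ)
    (f := fun i => Polynomial.C (p i) + Polynomial.C (q i) * Polynomial.X)
    (Polynomial.aeval u : Polynomial ℝ →ₐ[ℝ] ℂ) f
  rw [h]
  congr 2
  funext i
  simp

/-- **Log-concavity at the points of the cone.** -/
theorem garding_ineq {f : MvPolynomial σ ℝ} {N : ℕ} (hf : f.IsHomogeneous N) (hs : RStable f)
    {b : σ → ℝ} (hb : Cone f b) (d : σ → ℝ) :
    (lineR f b d).coeff 0 * (2 * (lineR f b d).coeff 2) ≤ (lineR f b d).coeff 1 ^ 2 := by
  have h := real_rooted_ineq (lineR f b d) (fun z hz h0 => by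
    rw [lineR_aeval] at h0
    have hz0 : z ≠ 0 := by
      rintro rfl
      exact hz rfl
    have h1 : aeval (fun i => (b i : ℂ) + d i * z) f =
        z ^ N * aeval (fun i => (d i : ℂ) + b i * z⁻¹) f := by
      rw [← aeval_smul_hom hf]
      congr 2
      funext i
      field_simp
      ring
    rw [h1] at h0
    rcases mul_eq_zero.1 h0 with h4 | h4
    · exact hz0 (eq_zero_of_pow_eq_zero h4)
    · refine garding hf hs hb d z⁻¹ ?_ h4
      rw [Complex.inv_im]
      exact div_ne_zero (neg_ne_zero.2 hz) (Complex.normSq_pos.2 hz0).ne') 0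
  rw [← Polynomial.coeff_zero_eq_eval_zero, ← Polynomial.coeff_zero_eq_eval_zero,
    ← Polynomial.coeff_zero_eq_eval_zero, Polynomial.coeff_derivative,
    Polynomial.coeff_derivative, Polynomial.coeff_derivative] at h
  norm_num at h
  linarith

end Vale.Agent.P361.LRO.T1
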