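import Mathlib

/-!
Hermitian forms of hemispheres on `ℂ²` and the two-site lemmas (P361, step (8)).
-/

namespace Vale.Agent.P361.LRO

open Complex

noncomputable section

/-- The Hermitian form of the hemisphere centred at the angle `g` in the (1,3) plane. -/
def Q (g : ℝ) (u : Fin 2 → ℂ) : ℝ :=
  Real.cos g * (normSq (u 0) - normSq (u 1)) +
    2 * Real.sin g * ((u 0).re * (u 1).re + (u 0).im * (u 1).im)

/-- The bilinear pairing on `ℂ²`. -/
def dot (u v : Fin 2 → ℂ) : ℂ := u 0 * v 0 + u 1 * v 1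

/-- The symplectic rotation `(v₁, -v₀)`. -/
def eps (v : Fin 2 → ℂ) : Fin 2 → ℂ := ![v 1, -v 0]

@[simp] lemma eps_zero (v : Fin 2 → ℂ) : eps v 0 = v 1 := rfl
@[simp] lemma eps_one (v : Fin 2 → ℂ) : eps v 1 = -v 0 := rfl

lemma Q_eps (g : ℝ) (v : Fin 2 → ℂ) : Q g (eps v) = -Q g v := by
  simp only [Q, eps_zero, eps_one, normSq_neg, neg_re, neg_im]; ring

lemma Q_smul (g : ℝ) (k : ℂ) (v : Fin 2 → ℂ) : Q g (k • v) = normSq k * Q g v := by
  simp only [Q, Pi.smul_apply, smul_eq_mul, normSq_mul, mul_re, mul_im]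
  rw [normSq_apply k]; ring

lemma Q_zero (g : ℝ) : Q g 0 = 0 := by simp [Q]

lemma ne_zero_of_Q_pos {g : ℝ} {v : Fin 2 → ℂ} (h : 0 < Q g v) : v ≠ 0 := by
  rintro rfl; rw [Q_zero] at h; exact lt_irrefl _ h

lemma eps_ne_zero {v : Fin 2 → ℂ} (h : v ≠ 0) : eps v ≠ 0 := by
  intro h0
  apply h
  funext i
  have h1 := congrFun h0 0
  have h2 := congrFun h0 1
  simp only [eps_zero, eps_one, Pi.zero_apply, neg_eq_zero] at h1 h2
  fin_cases i <;> simp [h1, h2]

lemma dot_eps (v : Fin 2 → ℂ) : dot (eps v) v = 0 := by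
  simp only [dot, eps_zero, eps_one]; ring

/-- Quadratic form identity. -/
lemma Q_comb (g a b : ℝ) (p q : Fin 2 → ℂ) :
    Q g ((a : ℂ) • p + (b : ℂ) • q) =
      a * (a + b) * Q g p + b * (a + b) * Q g q - a * b * Q g (p - q) := by
  simp only [Q, Pi.add_apply, Pi.sub_apply, Pi.smul_apply, smul_eq_mul, normSq_apply, add_re,
    add_im, sub_re, sub_im, mul_re, mul_im, ofReal_re, ofReal_im]
  ring

lemma dot_ne_zero {g : ℝ} {u w : Fin 2 → ℂ} (hu : 0 < Q g u) (hw : 0 ≤ Q g w) (hw0 : w ≠ 0) :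
    dot u w ≠ 0 := by
  intro h
  have hk : ∃ k : ℂ, w = k • eps u := by
    by_cases h0 : u 0 = 0
    · have h1 : u 1 ≠ 0 := by
        intro h1
        apply ne_zero_of_Q_pos hu
        funext i; fin_cases i <;> simp [h0, h1]
      have hw1 : w 1 = 0 := by
        have : u 1 * w 1 = 0 := by simpa [dot, h0] using h
        exact (mul_eq_zero.mp this).resolve_left h1
      refine ⟨w 0 / u 1, ?_⟩
      funext i
      fin_cases i
      · simp [h1]
      · simp [hw1, h0]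
    · refine ⟨-(w 1) / u 0, ?_⟩
      have e0 : w 0 = -(u 1 * w 1) / u 0 := by
        rw [eq_div_iff h0]
        have : u 0 * w 0 + u 1 * w 1 = 0 := h
        linear_combination this
      funext i
      fin_cases i
      · simp only [Fin.zero_eta, Pi.smul_apply, eps_zero, smul_eq_mul]
        rw [e0]; ring
      · simp only [Fin.mk_one, Pi.smul_apply, eps_one, smul_eq_mul]
        field_simp
  obtain ⟨k, rfl⟩ := hk
  have hk0 : k ≠ 0 := by
    rintro rfl; exact hw0 (zero_smul _ _)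
  rw [Q_smul, Q_eps] at hw
  have := normSq_pos.mpr hk0
  nlinarith [mul_pos this hu]

lemma dot_comm_cone (u w : Fin 2 → ℂ) : dot u w = dot w u := by simp only [dot]; ring

lemma dot_ne_zero' {g : ℝ} {u w : Fin 2 → ℂ} (hu : 0 ≤ Q g u) (hu0 : u ≠ 0) (hw : 0 < Q g w) :
    dot u w ≠ 0 := by
  rw [dot_comm_cone]; exact dot_ne_zero hw hu hu0

/-- `w` pairs nontrivially with the open cone: `w` is in the closed cone. -/
lemma mem_of_dot_open {g : ℝ} {w : Fin 2 → ℂ} (h : ∀ u, 0 < Q g u → dot u w ≠ 0)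
    (hne : ∃ u, 0 < Q g u) : w ≠ 0 ∧ 0 ≤ Q g w := by
  constructor
  · rintro rfl
    obtain ⟨u, hu⟩ := hne
    exact h u hu (by simp [dot])
  · by_contra hc
    rw [not_le] at hc
    exact h (eps w) (by rw [Q_eps]; linarith) (dot_eps w)

/-- `w` pairs nontrivially with the closed cone: `w` is in the open cone. -/
lemma mem_of_dot_closed {g : ℝ} {w : Fin 2 → ℂ} (h : ∀ u, u ≠ 0 → 0 ≤ Q g u → dot u w ≠ 0)
    (hne : ∃ u : Fin 2 → ℂ, u ≠ 0 ∧ 0 ≤ Q g u) : 0 < Q g w := by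
  have hw0 : w ≠ 0 := by
    rintro rfl
    obtain ⟨u, hu0, hu⟩ := hne
    exact h u hu0 hu (by simp [dot])
  by_contra hc
  rw [not_lt] at hc
  exact h (eps w) (eps_ne_zero hw0) (by rw [Q_eps]; linarith) (dot_eps w)

/-- A boundary vector of every cone. -/
def bd : Fin 2 → ℂ := ![1, I]

lemma bd_ne_zero : bd ≠ 0 := by
  intro h
  have := congrFun h 0
  simp [bd] at this

lemma Q_bd (g : ℝ) : Q g bd = 0 := by simp [Q, bd]

/-- Bilinear form of a `2 × 2` matrix. -/
def bil (M : Fin 2 → Fin 2 → ℂ) (u v : Fin 2 → ℂ) : ℂ :=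
  ∑ s, ∑ t, M s t * u s * v t

/-- `M v` and `Mᵀ v`. -/
def app (M : Fin 2 → Fin 2 → ℂ) (v : Fin 2 → ℂ) : Fin 2 → ℂ := fun s => M s 0 * v 0 + M s 1 * v 1

lemma bil_eq (M : Fin 2 → Fin 2 → ℂ) (u v : Fin 2 → ℂ) : bil M u v = dot u (app M v) := by
  simp only [bil, dot, app, Fin.sum_univ_two]; ring

lemma bil_swap (M : Fin 2 → Fin 2 → ℂ) (u v : Fin 2 → ℂ) :
    bil M v u = dot u (app (fun s t => M t s) v) := by
  simp only [bil, dot, app, Fin.sum_univ_two]; ring

lemma app_sub (M : Fin 2 → Fin 2 → ℂ) (v : Fin 2 → ℂ) :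
    app M v - app (fun s t => M t s) v = (M 0 1 - M 1 0) • eps v := by
  funext i
  fin_cases i
  · simp [app]; ring
  · simp [app]; ring

/-- The swap-gate lemma, open cones. -/
lemma swap_open {g : ℝ} {M : Fin 2 → Fin 2 → ℂ} {a b : ℝ} (ha : 0 ≤ a) (hb : 0 ≤ b)
    (hab : 0 < a + b) (h : ∀ u v, 0 < Q g u → 0 < Q g v → bil M u v ≠ 0)
    {u v : Fin 2 → ℂ} (hu : 0 < Q g u) (hv : 0 < Q g v) :
    (a : ℂ) * bil M u v + (b : ℂ) * bil M v u ≠ 0 := by
  set p := app M v with hp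
  set q := app (fun s t => M t s) v with hq
  have hP : p ≠ 0 ∧ 0 ≤ Q g p := mem_of_dot_open
    (fun w hw => by rw [hp, ← bil_eq]; exact h w v hw hv) ⟨u, hu⟩
  have hQ : q ≠ 0 ∧ 0 ≤ Q g q := mem_of_dot_open
    (fun w hw => by rw [hq, ← bil_swap]; exact h v w hv hw) ⟨u, hu⟩
  have key : (a : ℂ) * bil M u v + (b : ℂ) * bil M v u =
      dot u ((a : ℂ) • p + (b : ℂ) • q) := by
    rw [bil_eq, bil_swap]
    simp only [dot, Pi.add_apply, Pi.smul_apply, smul_eq_mul, hp, hq]; ring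
  have hsub : p - q = (M 0 1 - M 1 0) • eps v := by rw [hp, hq]; exact app_sub M v
  have hQc := Q_comb g a b p q
  rw [hsub, Q_smul, Q_eps] at hQc
  rw [key]
  by_cases hc : M 0 1 - M 1 0 = 0
  · have hpq : p = q := by
      have := hsub; rw [hc, zero_smul] at this; exact sub_eq_zero.mp this
    rw [← hpq, ← add_smul, show dot u (((a : ℂ) + b) • p) = ((a : ℂ) + b) * dot u p by
      simp only [dot, Pi.smul_apply, smul_eq_mul]; ring]
    refine mul_ne_zero ?_ (dot_ne_zero hu hP.2 hP.1)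
    intro h0
    have : ((a + b : ℝ) : ℂ) = 0 := by push_cast; exact h0
    rw [ofReal_eq_zero] at this
    linarith
  · rcases ha.eq_or_lt with ha0 | ha0
    · have : ((a : ℂ) • p + (b : ℂ) • q) = (b : ℂ) • q := by rw [← ha0]; simp
      rw [this, show dot u ((b : ℂ) • q) = (b : ℂ) * dot u q by
        simp only [dot, Pi.smul_apply, smul_eq_mul]; ring]
      refine mul_ne_zero ?_ (dot_ne_zero hu hQ.2 hQ.1)
      intro h0
      rw [ofReal_eq_zero] at h0
      linarith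
    · rcases hb.eq_or_lt with hb0 | hb0
      · have : ((a : ℂ) • p + (b : ℂ) • q) = (a : ℂ) • p := by rw [← hb0]; simp
        rw [this, show dot u ((a : ℂ) • p) = (a : ℂ) * dot u p by
          simp only [dot, Pi.smul_apply, smul_eq_mul]; ring]
        refine mul_ne_zero ?_ (dot_ne_zero hu hP.2 hP.1)
        intro h0
        rw [ofReal_eq_zero] at h0
        linarith
      · have hcp := normSq_pos.mpr hc
        have : 0 < Q g ((a : ℂ) • p + (b : ℂ) • q) := by
          rw [hQc]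
          have h1 := mul_nonneg (mul_nonneg ha hab.le) hP.2
          have h2 := mul_nonneg (mul_nonneg hb hab.le) hQ.2
          have h3 : 0 < a * b * (normSq (M 0 1 - M 1 0) * Q g v) := by positivity
          linarith
        exact dot_ne_zero hu this.le (ne_zero_of_Q_pos this)

/-- The swap-gate lemma, closed cones. -/
lemma swap_closed {g : ℝ} {M : Fin 2 → Fin 2 → ℂ} {a b : ℝ} (ha : 0 ≤ a) (hb : 0 ≤ b)
    (hab : 0 < a + b)
    (h : ∀ u v, u ≠ 0 → 0 ≤ Q g u → v ≠ 0 → 0 ≤ Q g v → bil M u v ≠ 0)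
    {u v : Fin 2 → ℂ} (hu0 : u ≠ 0) (hu : 0 ≤ Q g u) (hv0 : v ≠ 0) (hv : 0 ≤ Q g v) :
    (a : ℂ) * bil M u v + (b : ℂ) * bil M v u ≠ 0 := by
  set p := app M v with hp
  set q := app (fun s t => M t s) v with hq
  have hP : 0 < Q g p := mem_of_dot_closed
    (fun w hw0 hw => by rw [hp, ← bil_eq]; exact h w v hw0 hw hv0 hv) ⟨u, hu0, hu⟩
  have hQ : 0 < Q g q := mem_of_dot_closed
    (fun w hw0 hw => by rw [hq, ← bil_swap]; exact h v w hv0 hv hw0 hw) ⟨u, hu0, hu⟩
  have key : (a : ℂ) * bil M u v + (b : ℂ) * bil M v u =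
      dot u ((a : ℂ) • p + (b : ℂ) • q) := by
    rw [bil_eq, bil_swap]
    simp only [dot, Pi.add_apply, Pi.smul_apply, smul_eq_mul, hp, hq]; ring
  have hsub : p - q = (M 0 1 - M 1 0) • eps v := by rw [hp, hq]; exact app_sub M v
  have hQc := Q_comb g a b p q
  rw [hsub, Q_smul, Q_eps] at hQc
  rw [key]
  have : 0 < Q g ((a : ℂ) • p + (b : ℂ) • q) := by
    rw [hQc]
    have h3 : 0 ≤ a * b * (normSq (M 0 1 - M 1 0) * Q g v) :=
      mul_nonneg (mul_nonneg ha hb) (mul_nonneg (normSq_nonneg _) hv)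
    rcases ha.eq_or_lt with ha0 | ha0
    · have hb0 : 0 < b := by linarith
      have h2 := mul_pos (mul_pos hb0 hab) hQ
      have h1 := mul_nonneg (mul_nonneg ha hab.le) hP.le
      linarith
    · have h1 := mul_pos (mul_pos ha0 hab) hP
      have h2 := mul_nonneg (mul_nonneg hb hab.le) hQ.le
      linarith
  exact dot_ne_zero' hu hu0 this

/-- A matrix which is nonvanishing on closed cone × closed cone has nonzero trace. -/
lemma trace_ne_zero {g : ℝ} {M : Fin 2 → Fin 2 → ℂ}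
    (h : ∀ u v, u ≠ 0 → 0 ≤ Q g u → v ≠ 0 → 0 ≤ Q g v → bil M u v ≠ 0) :
    M 0 0 + M 1 1 ≠ 0 := by
  intro htr
  have hmap : ∀ v : Fin 2 → ℂ, v ≠ 0 → 0 ≤ Q g v → 0 < Q g (app M v) := fun v hv0 hv =>
    mem_of_dot_closed (fun w hw0 hw => by rw [← bil_eq]; exact h w v hw0 hw hv0 hv)
      ⟨v, hv0, hv⟩
  have h1 := hmap bd bd_ne_zero (Q_bd g).ge
  have h2 := hmap (app M bd) (ne_zero_of_Q_pos h1) h1.le
  have h3 : app M (app M bd) = (M 0 1 * M 1 0 - M 0 0 * M 1 1) • bd := by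
    have e : M 1 1 = -M 0 0 := by linear_combination htr
    funext i
    fin_cases i
    · simp only [app, Fin.zero_eta, Pi.smul_apply, smul_eq_mul, e]; ring
    · simp only [app, Fin.mk_one, Pi.smul_apply, smul_eq_mul, e]; ring
  rw [h3, Q_smul, Q_bd, mul_zero] at h2
  exact lt_irrefl _ h2

end

end Vale.Agent.P361.LRO
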