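import Vale.Agent.P361.LRO.Defs

/-!
P361, low-temperature order: the statements of the blocks of note 9886 and the step of the bootstrap from them.
-/

namespace Vale.Agent.P361.LRO

open Filter Finset Matrix

noncomputable section

/-- `D_b = (4 / |b|²) ∑_{pairs} <h_xy>` (here as a sum over ordered pairs) -/
def Dst {V : Type} [Fintype V] [DecidableEq V] (L : List (V × V)) (β : ℝ) (h : V → ℝ)
    (b : Finset V) : ℝ :=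
  2 / (b.card : ℝ) ^ 2 * ∑ x ∈ b, ∑ y ∈ b, gib L β h (hM x y)

/-- `η = β ^ (-1/100)` -/
def etaB (β : ℝ) : ℝ := β ^ (-(1 / 100) : ℝ)

/-- **Block (1)**, the block twist. -/
def PTwist : Prop :=
  ∃ C : ℝ, 0 < C ∧ ∀ (V : Type) [Fintype V] [DecidableEq V] (L : List (V × V)),
    (∀ e ∈ L, e.1 ≠ e.2) → ∀ β : ℝ, 0 < β → ∀ h : V → ℝ, (∀ x, 0 < h x ∧ h x ≤ 1) →
      ∀ (b : Finset V) (K κ : ℝ), b.Nonempty → 10 ≤ K → K ≤ b.card → 0 < κ →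
        (∃ᶠ N : ℕ in atTop, κ ≤ kap L β N h K b) →
          (∑ x ∈ b, rho L β h x) / b.card ≤ C / κ + C * (1 + K) ^ 4 * Dst L β h b

/-- **Block (7)**, the energy. -/
def PEnergy (q : ℕ) : Prop :=
  ∃ C : ℝ, 0 < C ∧ ∀ β : ℝ, 1 ≤ β → ∀ (n : ℕ) [NeZero n] (w m : ℕ), 0 < w → 0 < m →
    3 * (w * m) ≤ n → ∀ h : Tor n → ℝ, (∀ x, 0 < h x ∧ h x ≤ 1) → ∀ x0 : Tor n,
      ∑ y : Fin 3 → Fin m,
          Dst (edges n) β h (cube n (x0 + fun i => ((w * (y i : ℕ) : ℕ) : ZMod n)) w) ≤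
        (m : ℝ) ^ 3 * (C * (w : ℝ) ^ q * (1 / β + 1 / ((w : ℝ) * m)))

/-- **Block (8)**, regularity (Lee-Yang and Harnack). -/
def PHarn : Prop :=
  ∀ (V : Type) [Fintype V] [DecidableEq V] (L : List (V × V)), (∀ e ∈ L, e.1 ≠ e.2) →
    ∀ β : ℝ, 0 < β → ∀ h h' : V → ℝ, (∀ x, 0 < h x) → (∀ x, 0 < h' x) → ∀ d : ℝ, 0 ≤ d →
      3 * d < Real.pi / 2 → (∀ x, |Real.log (h x) - Real.log (h' x)| ≤ d) → ∀ z,
        0 < 1 - 2 * rho L β h z ∧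
        1 / (1 - 2 * rho L β h' z) - 1 ≤ 2 * (1 / (1 - 2 * rho L β h z) - 1) + 9 / 2 * d ^ 2

/-- **Translations.** -/
def PTrans : Prop :=
  ∀ (n : ℕ) [NeZero n] (β : ℝ) (h : Tor n → ℝ) (v x : Tor n),
    rho (edges n) β (fun y => h (y + v)) x = rho (edges n) β h (x + v)

/-- **Blocks (2)-(6)**: the lower bound for `κ_b` in the bootstrap. -/
def PSix (w : ℝ → ℕ) (lam : ℝ → ℝ) : Prop :=
  ∃ c : ℝ, 0 < c ∧ ∀ A : ℝ, 0 < A → ∀ᶠ β : ℝ in atTop, ∀ᶠ n : ℕ in atTop, Odd n →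
    ∀ [NeZero n] (h0 : ℝ), (n : ℝ) ^ (-(1 / 4) : ℝ) ≤ h0 → h0 ≤ 1 →
      (∀ h, Fam n h0 (lam β) h → ∀ x, rho (edges n) β h x ≤ etaB β) →
      ∀ h, Fam n h0 (lam β) h → ∀ x, ∃ᶠ N : ℕ in atTop,
        c * (A / etaB β) ≤ kap (edges n) β N h (A / etaB β) (cube n x (w β))

/-- the conditions on the parameters: `w` side of the blocks, `w * m` side of the cubes,
`lam` = inverse of `L₀` -/
def Par (q : ℕ) (w m : ℝ → ℕ) (lam : ℝ → ℝ) : Prop :=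
  ∀ A C : ℝ, 0 < A → 0 < C → ∀ᶠ β : ℝ in atTop, 0 < w β ∧ 0 < m β ∧ 0 ≤ lam β ∧
    10 ≤ A / etaB β ∧ A / etaB β ≤ (w β : ℝ) ^ 3 ∧
    (1 + A / etaB β) ^ 4 * (C * (w β : ℝ) ^ q * (1 / β + 1 / ((w β : ℝ) * m β))) ≤
      etaB β / 32 ∧
    9 / 2 * (3 * (w β * m β) * lam β) ^ 2 ≤ etaB β / 7 ∧
    3 * (3 * (w β * m β) * lam β) < Real.pi / 2

/-- **The step of the bootstrap.** -/
def PStep (lam : ℝ → ℝ) : Prop :=
  ∀ᶠ β : ℝ in atTop, ∀ᶠ n : ℕ in atTop, Odd n → ∀ [NeZero n] (h0 : ℝ),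
    (n : ℝ) ^ (-(1 / 4) : ℝ) ≤ h0 → h0 ≤ 1 →
      (∀ h, Fam n h0 (lam β) h → ∀ x, rho (edges n) β h x ≤ etaB β) →
      ∀ h, Fam n h0 (lam β) h → ∀ x, rho (edges n) β h x ≤ etaB β / 2

end

end Vale.Agent.P361.LRO
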