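import Vale.Agent.P361.LRO.Defs

/-!
P361, step (5): the family `F(h0)` of field profiles (closure properties, bumps, retraction).
-/

namespace Vale.Agent.P361.LRO

open Finset

noncomputable section

variable {n : ℕ} {h0 h0' lam lam' : ℝ} {g h : Tor n → ℝ}

/-- `|log h_x - log h_y| ≤ lam` for nearest neighbours. -/
def LipN (n : ℕ) (lam : ℝ) (h : Tor n → ℝ) : Prop :=
  ∀ (x : Tor n) (i : Fin 3), h x ≤ Real.exp lam * h (x + Pi.single i 1) ∧
    h (x + Pi.single i 1) ≤ Real.exp lam * h x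

theorem fam_iff : Fam n h0 lam h ↔ (∀ x, h0 ≤ h x ∧ h x ≤ 1) ∧ LipN n lam h := Iff.rfl

theorem Fam.lip (H : Fam n h0 lam h) : LipN n lam h := H.2

theorem Fam.ge (H : Fam n h0 lam h) (x : Tor n) : h0 ≤ h x := (H.1 x).1

theorem Fam.le_one (H : Fam n h0 lam h) (x : Tor n) : h x ≤ 1 := (H.1 x).2

theorem LipN.max (hg : LipN n lam g) (hh : LipN n lam h) : LipN n lam fun x => max (g x) (h x) := by
  intro x i
  have e : 0 ≤ Real.exp lam := (Real.exp_pos _).le
  refine ⟨?_, ?_⟩
  · rw [mul_max_of_nonneg _ _ e]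
    exact max_le_max (hg x i).1 (hh x i).1
  · rw [mul_max_of_nonneg _ _ e]
    exact max_le_max (hg x i).2 (hh x i).2

theorem LipN.smul (hh : LipN n lam h) {c : ℝ} (hc : 0 ≤ c) : LipN n lam fun x => c * h x := by
  intro x i
  refine ⟨?_, ?_⟩
  · calc c * h x ≤ c * (Real.exp lam * h (x + Pi.single i 1)) :=
        mul_le_mul_of_nonneg_left (hh x i).1 hc
      _ = _ := by ring
  · calc c * h (x + Pi.single i 1) ≤ c * (Real.exp lam * h x) :=
        mul_le_mul_of_nonneg_left (hh x i).2 hc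
      _ = _ := by ring

theorem lipN_const {c : ℝ} (hc : 0 ≤ c) (hl : 0 ≤ lam) : LipN n lam fun _ => c := by
  intro x i
  have : c ≤ Real.exp lam * c := le_mul_of_one_le_left hc (Real.one_le_exp hl)
  exact ⟨this, this⟩

theorem LipN.translate (hh : LipN n lam h) (v : Tor n) : LipN n lam fun x => h (x + v) := by
  intro x i
  have e : x + Pi.single i 1 + v = x + v + Pi.single i 1 := by abel
  simp only [e]
  exact hh (x + v) i

theorem LipN.mono (hh : LipN n lam h) (h1 : ∀ x, 0 ≤ h x) (hl : lam ≤ lam') : LipN n lam' h := by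
  intro x i
  have e := Real.exp_le_exp.2 hl
  exact ⟨(hh x i).1.trans (mul_le_mul_of_nonneg_right e (h1 _)),
    (hh x i).2.trans (mul_le_mul_of_nonneg_right e (h1 _))⟩

/-- Bumps: `exp (- lam (d(x) - r)₊)` for a function `d` that changes by at most `1` from a site to
its neighbour. -/
theorem lipN_bump {d : Tor n → ℝ} (hl : 0 ≤ lam) (r : ℝ)
    (hd : ∀ x i, |d (x + Pi.single i 1) - d x| ≤ 1) :
    LipN n lam fun x => Real.exp (-(lam * Max.max (d x - r) 0)) := by
  intro x i
  have h1 := abs_le.1 (hd x i)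
  constructor
  · rw [← Real.exp_add]
    refine Real.exp_le_exp.2 ?_
    have : Max.max (d (x + Pi.single i 1) - r) 0 ≤ Max.max (d x - r) 0 + 1 :=
      max_le (by have := le_max_left (d x - r) 0; linarith [h1.2])
        (by have := le_max_right (d x - r) 0; linarith)
    nlinarith
  · rw [← Real.exp_add]
    refine Real.exp_le_exp.2 ?_
    have : Max.max (d x - r) 0 ≤ Max.max (d (x + Pi.single i 1) - r) 0 + 1 :=
      max_le (by have := le_max_left (d (x + Pi.single i 1) - r) 0; linarith [h1.1])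
        (by have := le_max_right (d (x + Pi.single i 1) - r) 0; linarith)
    nlinarith

theorem bump_le_one {d : Tor n → ℝ} (hl : 0 ≤ lam) (r : ℝ) (x : Tor n) :
    Real.exp (-(lam * Max.max (d x - r) 0)) ≤ 1 :=
  Real.exp_le_one_iff.2 (by have := mul_nonneg hl (le_max_right (d x - r) 0); linarith)

theorem bump_eq_one {d : Tor n → ℝ} {r : ℝ} {x : Tor n} (hx : d x ≤ r) :
    Real.exp (-(lam * Max.max (d x - r) 0)) = 1 := by
  rw [max_eq_right (by linarith), mul_zero, neg_zero, Real.exp_zero]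

/-! ### The family -/

theorem fam_const {c : ℝ} (h1 : h0 ≤ c) (h2 : c ≤ 1) (hc : 0 ≤ c) (hl : 0 ≤ lam) :
    Fam n h0 lam fun _ => c :=
  ⟨fun _ => ⟨h1, h2⟩, lipN_const hc hl⟩

/-- `max g h` with `g` in the family, `h` log-Lipschitz and `≤ 1`. -/
theorem Fam.sup' (hg : Fam n h0 lam g) (hh : LipN n lam h) (h1 : ∀ x, h x ≤ 1) :
    Fam n h0 lam fun x => max (g x) (h x) :=
  ⟨fun x => ⟨(hg.ge x).trans (le_max_left _ _), max_le (hg.le_one x) (h1 x)⟩, hg.lip.max hh⟩

theorem Fam.sup (hg : Fam n h0 lam g) (hh : Fam n h0' lam h) :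
    Fam n h0 lam fun x => max (g x) (h x) :=
  hg.sup' hh.lip hh.le_one

/-- The path of profiles used for lowering: `max (g, c h)`, `0 ≤ c ≤ 1`. -/
theorem Fam.max_smul (hg : Fam n h0 lam g) (hh : LipN n lam h) (h1 : ∀ x, h x ≤ 1)
    (h2 : ∀ x, 0 ≤ h x) {c : ℝ} (hc : 0 ≤ c) (hc1 : c ≤ 1) :
    Fam n h0 lam fun x => max (g x) (c * h x) :=
  hg.sup' (hh.smul hc) fun x =>
    (mul_le_of_le_one_left (h2 x) hc1).trans (h1 x)

theorem Fam.translate (H : Fam n h0 lam h) (v : Tor n) : Fam n h0 lam fun x => h (x + v) :=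
  ⟨fun x => H.1 (x + v), H.lip.translate v⟩

theorem Fam.mono (H : Fam n h0 lam h) (h1 : h0' ≤ h0) (hl : lam ≤ lam') (hp : 0 ≤ h0) :
    Fam n h0' lam' h :=
  ⟨fun x => ⟨h1.trans (H.ge x), H.le_one x⟩, H.lip.mono (fun x => hp.trans (H.ge x)) hl⟩

/-- The bumped profile. -/
theorem Fam.bump (H : Fam n h0 lam h) {d : Tor n → ℝ} (hl : 0 ≤ lam) (r : ℝ)
    (hd : ∀ x i, |d (x + Pi.single i 1) - d x| ≤ 1) :
    Fam n h0 lam fun x => Max.max (h x) (Real.exp (-(lam * Max.max (d x - r) 0))) :=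
  H.sup' (lipN_bump hl r hd) (bump_le_one hl r)

/-- The retraction onto the smaller family. -/
theorem Fam.retract (H : Fam n h0' lam h) (h1 : h0 ≤ 1) (hp : 0 ≤ h0) (hl : 0 ≤ lam) :
    Fam n h0 lam fun x => Max.max (h x) h0 :=
  ⟨fun x => ⟨le_max_right _ _, max_le (H.le_one x) h1⟩, H.lip.max (lipN_const hp hl)⟩

theorem abs_retract_sub (H : Fam n h0' lam h) (hh : h0' ≤ h0) (x : Tor n) :
    |Max.max (h x) h0 - h x| ≤ h0 - h0' := by
  have h1 := H.ge x
  rw [abs_of_nonneg (by linarith [le_max_left (h x) h0])]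
  rcases le_total (h x) h0 with h2 | h2
  · rw [max_eq_right h2]; linarith
  · rw [max_eq_left h2]; linarith

theorem LipN.step (hh : LipN n lam h) (i : Fin 3) (m : ℕ) (x : Tor n) :
    h x ≤ Real.exp (lam * m) * h (x + m • (Pi.single i 1 : Tor n)) ∧
      h (x + m • (Pi.single i 1 : Tor n)) ≤ Real.exp (lam * m) * h x := by
  induction m with
  | zero => simp
  | succ m ih =>
    have e : x + (m + 1) • (Pi.single i 1 : Tor n) =
        x + m • (Pi.single i 1 : Tor n) + Pi.single i 1 := by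
      rw [succ_nsmul]; abel
    have e2 : Real.exp (lam * ((m + 1 : ℕ) : ℝ)) = Real.exp (lam * m) * Real.exp lam := by
      rw [← Real.exp_add]; congr 1; push_cast; ring
    have h3 := hh (x + m • (Pi.single i 1 : Tor n)) i
    rw [e, e2]
    constructor
    · calc h x ≤ Real.exp (lam * m) * h (x + m • (Pi.single i 1 : Tor n)) := ih.1
        _ ≤ Real.exp (lam * m) *
            (Real.exp lam * h (x + m • (Pi.single i 1 : Tor n) + Pi.single i 1)) :=
          mul_le_mul_of_nonneg_left h3.1 (Real.exp_pos _).le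
        _ = _ := by ring
    · calc h (x + m • (Pi.single i 1 : Tor n) + Pi.single i 1) ≤
          Real.exp lam * h (x + m • (Pi.single i 1 : Tor n)) := h3.2
        _ ≤ Real.exp lam * (Real.exp (lam * m) * h x) :=
          mul_le_mul_of_nonneg_left ih.2 (Real.exp_pos _).le
        _ = _ := by ring

/-- Translation by a vector with natural coordinates. -/
theorem LipN.vec (hh : LipN n lam h) (v : Fin 3 → ℕ) (x : Tor n) :
    h x ≤ Real.exp (lam * (v 0 + v 1 + v 2 : ℕ)) * h (x + fun i => ((v i : ℕ) : ZMod n)) ∧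
      h (x + fun i => ((v i : ℕ) : ZMod n)) ≤ Real.exp (lam * (v 0 + v 1 + v 2 : ℕ)) * h x := by
  have e : (x + fun i => ((v i : ℕ) : ZMod n)) = x + v 0 • (Pi.single 0 1 : Tor n) +
      v 1 • (Pi.single 1 1 : Tor n) + v 2 • (Pi.single 2 1 : Tor n) := by
    funext i
    fin_cases i <;> simp
  have a0 := hh.step 0 (v 0) x
  have a1 := hh.step 1 (v 1) (x + v 0 • (Pi.single 0 1 : Tor n))
  have a2 := hh.step 2 (v 2) (x + v 0 • (Pi.single 0 1 : Tor n) + v 1 • (Pi.single 1 1 : Tor n))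
  have e2 : Real.exp (lam * (v 0 + v 1 + v 2 : ℕ)) =
      Real.exp (lam * v 0) * (Real.exp (lam * v 1) * Real.exp (lam * v 2)) := by
    rw [← Real.exp_add, ← Real.exp_add]; congr 1; push_cast; ring
  rw [e, e2]
  have p0 := (Real.exp_pos (lam * v 0)).le
  have p1 := (Real.exp_pos (lam * v 1)).le
  have p2 := (Real.exp_pos (lam * v 2)).le
  constructor
  · calc h x ≤ _ := a0.1
      _ ≤ _ := mul_le_mul_of_nonneg_left a1.1 p0
      _ ≤ _ := mul_le_mul_of_nonneg_left (mul_le_mul_of_nonneg_left a2.1 p1) p0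
      _ = _ := by ring
  · calc _ ≤ _ := a2.2
      _ ≤ _ := mul_le_mul_of_nonneg_left a1.2 p2
      _ ≤ _ := mul_le_mul_of_nonneg_left (mul_le_mul_of_nonneg_left a0.2 p1) p2
      _ = _ := by ring

theorem isCompact_fam (n : ℕ) [NeZero n] (h0 lam : ℝ) : IsCompact {h : Tor n → ℝ | Fam n h0 lam h} := by
  have h1 : IsCompact (Set.pi Set.univ fun _ : Tor n => Set.Icc h0 (1 : ℝ)) :=
    isCompact_univ_pi fun _ => isCompact_Icc
  refine h1.of_isClosed_subset ?_ ?_
  · have e : {h : Tor n → ℝ | Fam n h0 lam h} =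
        (⋂ x, {h : Tor n → ℝ | h0 ≤ h x ∧ h x ≤ 1}) ∩
          ⋂ x, ⋂ i : Fin 3, {h : Tor n → ℝ | h x ≤ Real.exp lam * h (x + Pi.single i 1) ∧
            h (x + Pi.single i 1) ≤ Real.exp lam * h x} := by
      ext h
      simp only [Set.mem_ofPred_eq, Set.mem_inter_iff, Set.mem_iInter]
      exact Iff.rfl
    rw [e]
    refine IsClosed.inter (isClosed_iInter fun x => ?_)
      (isClosed_iInter fun x => isClosed_iInter fun i => ?_)
    · exact (isClosed_le continuous_const (continuous_apply x)).inter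
        (isClosed_le (continuous_apply x) continuous_const)
    · have c1 : Continuous fun h : Tor n → ℝ => h x := continuous_apply x
      have c2 : Continuous fun h : Tor n → ℝ => h (x + Pi.single i 1) := continuous_apply _
      exact (isClosed_le c1 (continuous_const.mul c2)).inter
        (isClosed_le c2 (continuous_const.mul c1))
  · intro h hh x _
    exact ⟨(hh.1 x).1, (hh.1 x).2⟩

end

end Vale.Agent.P361.LRO
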