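import Vale.Agent.P361.LRO.Stab

/-!
Field layers, insertions, parity, and the zero-free region (P361, step (8)).
-/

namespace Vale.Agent.P361.LRO

open Complex Matrix

noncomputable section

variable {V : Type*} [Fintype V] [DecidableEq V]

lemma Q_eq (g : ℝ) (u : Fin 2 → ℂ) :
    Q g u = Real.cos g * (normSq (u 0) - normSq (u 1)) +
      2 * Real.sin g * ((starRingEnd ℂ) (u 0) * u 1).re := by
  simp only [Q, mul_re, conj_re, conj_im]; ring

lemma osc_bound {b n0 n1 cr ci r : ℝ} (hr0 : 0 ≤ r) (hr2 : r ^ 2 = n0 * n1)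
    (hc : n0 * n1 = cr ^ 2 + ci ^ 2) :
    |cr * (Real.cos (2 * b) - 1) + ci * Real.sin (2 * b)| ≤ 2 * |b| * r := by
  refine abs_le_of_sq_le_sq ?_ (by positivity)
  have hs : Real.sin b ^ 2 ≤ b ^ 2 := by
    have := Real.abs_sin_le_abs (x := b)
    exact sq_le_sq.mpr this
  have h1 : (Real.cos (2 * b) - 1) ^ 2 + Real.sin (2 * b) ^ 2 = 4 * Real.sin b ^ 2 := by
    rw [Real.cos_two_mul, Real.sin_two_mul]
    have := Real.sin_sq_add_cos_sq b
    have hcb : Real.cos b ^ 2 = 1 - Real.sin b ^ 2 := by linarith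
    have : (2 * Real.cos b ^ 2 - 1 - 1) ^ 2 + (2 * Real.sin b * Real.cos b) ^ 2 =
        (2 * Real.cos b ^ 2 - 2) ^ 2 + 4 * Real.sin b ^ 2 * Real.cos b ^ 2 := by ring
    rw [this, hcb]; ring
  set C := Real.cos (2 * b) - 1
  set S := Real.sin (2 * b)
  have h2 : (cr * C + ci * S) ^ 2 ≤ (cr ^ 2 + ci ^ 2) * (C ^ 2 + S ^ 2) := by
    nlinarith [sq_nonneg (cr * S - ci * C)]
  calc (cr * C + ci * S) ^ 2
      ≤ (cr ^ 2 + ci ^ 2) * (4 * Real.sin b ^ 2) := by rw [← h1]; exact h2
    _ ≤ (cr ^ 2 + ci ^ 2) * (4 * b ^ 2) := by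
        refine mul_le_mul_of_nonneg_left (by linarith) (by positivity)
    _ = (2 * |b| * r) ^ 2 := by rw [← hc, ← hr2, mul_pow, mul_pow, sq_abs]; ring

lemma field_aux {cg sg a b r X E Q0 : ℝ} (ha : 0 < a) (hab : |b| * |sg| < a * cg)
    (hXr : 4 * a * r ≤ X) (hX0 : 0 < X) (hE : |E| ≤ 2 * |b| * r) (hQ : 0 ≤ Q0) :
    0 < Q0 + (cg * X + 2 * sg * E) := by
  have h1 : |2 * sg * E| ≤ |b| * |sg| * (4 * r) := by
    calc |2 * sg * E| = 2 * |sg| * |E| := by rw [abs_mul, abs_mul, abs_two]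
      _ ≤ 2 * |sg| * (2 * |b| * r) := mul_le_mul_of_nonneg_left hE (by positivity)
      _ = |b| * |sg| * (4 * r) := by ring
  have h2 := neg_le_of_abs_le h1
  have h3 : |b| * |sg| * (4 * a * r) ≤ |b| * |sg| * X :=
    mul_le_mul_of_nonneg_left hXr (by positivity)
  have h4 : |b| * |sg| * X < a * cg * X := mul_lt_mul_of_pos_right hab hX0
  have h5 : 0 < a * (cg * X - |b| * |sg| * (4 * r)) := by
    have : a * (cg * X - |b| * |sg| * (4 * r)) = a * cg * X - |b| * |sg| * (4 * a * r) := by ring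
    rw [this]; linarith
  have h6 : 0 < cg * X - |b| * |sg| * (4 * r) := (mul_pos_iff_of_pos_left ha).mp h5
  linarith

lemma field_real {cg sg a b n0 n1 cr ci : ℝ} (hcg : 0 < cg) (hab : |b| * |sg| < a * cg)
    (hn0 : 0 ≤ n0) (hn1 : 0 ≤ n1) (hn : 0 < n0 + n1) (hc : n0 * n1 = cr ^ 2 + ci ^ 2)
    (hQ : 0 ≤ cg * (n0 - n1) + 2 * sg * cr) :
    0 < cg * (Real.exp (2 * a) * n0 - Real.exp (-(2 * a)) * n1) +
      2 * sg * (cr * Real.cos (2 * b) + ci * Real.sin (2 * b)) := by
  have ha : 0 < a := by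
    by_contra h
    rw [not_lt] at h
    have h1 : a * cg ≤ 0 := mul_nonpos_of_nonpos_of_nonneg h hcg.le
    have h2 : 0 ≤ |b| * |sg| := by positivity
    linarith
  obtain ⟨p, q, hp, hq⟩ : ∃ p q : ℝ, p = Real.exp a ∧ q = Real.exp (-a) := ⟨_, _, rfl, rfl⟩
  have hpq : p * q = 1 := by rw [hp, hq, ← Real.exp_add]; simp
  have hp2 : Real.exp (2 * a) = p ^ 2 := by rw [hp, ← Real.exp_nat_mul]; norm_num
  have hq2 : Real.exp (-(2 * a)) = q ^ 2 := by
    rw [hq, ← Real.exp_nat_mul]; congr 1; push_cast; ring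
  have hp0 : 0 < p := hp ▸ Real.exp_pos _
  have hq0 : 0 < q := hq ▸ Real.exp_pos _
  have hsinh : 2 * a ≤ p - q := by
    have := Real.self_le_sinh_iff.mpr ha.le
    rw [Real.sinh_eq, ← hp, ← hq] at this
    linarith
  obtain ⟨r, hr⟩ : ∃ r : ℝ, r = Real.sqrt (n0 * n1) := ⟨_, rfl⟩
  have hr0 : 0 ≤ r := hr ▸ Real.sqrt_nonneg _
  have hr2 : r ^ 2 = n0 * n1 := by rw [hr]; exact Real.sq_sqrt (mul_nonneg hn0 hn1)
  obtain ⟨X, hX⟩ : ∃ X : ℝ, X = (p ^ 2 - 1) * n0 + (1 - q ^ 2) * n1 := ⟨_, rfl⟩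
  have hX' : X = (p - q) * (p * n0 + q * n1) := by
    rw [hX]; linear_combination (n0 - n1) * hpq
  have hamgm : 2 * r ≤ p * n0 + q * n1 := by
    refine (abs_le_of_sq_le_sq' ?_ (by positivity)).2
    have : (2 * r) ^ 2 = 4 * (p * n0) * (q * n1) := by
      rw [mul_pow, hr2]; linear_combination (-(4 * n0 * n1)) * hpq
    rw [this]
    nlinarith [sq_nonneg (p * n0 - q * n1)]
  have hXr : 4 * a * r ≤ X := by
    rw [hX']
    calc 4 * a * r = (2 * a) * (2 * r) := by ring
      _ ≤ (p - q) * (p * n0 + q * n1) := mul_le_mul hsinh hamgm (by positivity) (by linarith)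
  have hX0 : 0 < X := by
    rw [hX']
    refine mul_pos (by linarith) ?_
    rcases hn0.eq_or_lt with h | h
    · have h1 : 0 < n1 := by linarith
      have h2 := mul_pos hq0 h1
      rw [← h]; linarith
    · have h1 := mul_pos hp0 h
      have h2 := mul_nonneg hq0.le hn1
      linarith
  have hosc := osc_bound (b := b) hr0 hr2 hc
  have := field_aux ha hab hXr hX0 hosc hQ
  rw [hp2, hq2]
  convert this using 1
  rw [hX]; ring

/-- The factor of a field layer. -/
def fieldFac (s : ℂ) : Matrix (Fin 2) (Fin 2) ℂ := !![exp s, 0; 0, exp (-s)]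

/-- The field layer `∏_x exp(s_x σ³_x)`. -/
def fieldMat (s : V → ℂ) : Matrix (V → Fin 2) (V → Fin 2) ℂ := prodMat fun y => fieldFac (s y)

lemma Q_field {g : ℝ} (hg : 0 < Real.cos g) {s : ℂ} (hs : |s.im| * |Real.sin g| < s.re * Real.cos g)
    {u : Fin 2 → ℂ} (hu0 : u ≠ 0) (hu : 0 ≤ Q g u) :
    0 < Q g (fun t => ∑ i, u i * fieldFac s i t) := by
  have e0 : ∑ i, u i * fieldFac s i 0 = u 0 * exp s := by
    simp [fieldFac, Fin.sum_univ_two]
  have e1 : ∑ i, u i * fieldFac s i 1 = u 1 * exp (-s) := by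
    simp [fieldFac, Fin.sum_univ_two]
  simp only [Q_eq, e0, e1]
  have hn : 0 < normSq (u 0) + normSq (u 1) := by
    have h0 := normSq_nonneg (u 0)
    have h1 := normSq_nonneg (u 1)
    rcases h0.eq_or_lt with h | h
    · rcases h1.eq_or_lt with h' | h'
      · exfalso; apply hu0; funext i
        fin_cases i
        · exact normSq_eq_zero.mp h.symm
        · exact normSq_eq_zero.mp h'.symm
      · linarith
    · linarith
  have hc : normSq (u 0) * normSq (u 1) =
      ((starRingEnd ℂ) (u 0) * u 1).re ^ 2 + ((starRingEnd ℂ) (u 0) * u 1).im ^ 2 := by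
    simp only [mul_re, mul_im, conj_re, conj_im, normSq_apply]; ring
  have key := field_real (ci := ((starRingEnd ℂ) (u 0) * u 1).im) hg hs (normSq_nonneg _)
    (normSq_nonneg _) hn hc (by rw [← Q_eq]; exact hu)
  have n0 : normSq (u 0 * exp s) = Real.exp (2 * s.re) * normSq (u 0) := by
    rw [normSq_mul, normSq_eq_norm_sq (exp s), norm_exp, ← Real.exp_nat_mul, mul_comm]
    norm_num
  have n1 : normSq (u 1 * exp (-s)) = Real.exp (-(2 * s.re)) * normSq (u 1) := by
    rw [normSq_mul, normSq_eq_norm_sq (exp (-s)), norm_exp, ← Real.exp_nat_mul, mul_comm, neg_re]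
    congr 2; push_cast; ring
  have nc : ((starRingEnd ℂ) (u 0 * exp s) * (u 1 * exp (-s))).re =
      ((starRingEnd ℂ) (u 0) * u 1).re * Real.cos (2 * s.im) +
        ((starRingEnd ℂ) (u 0) * u 1).im * Real.sin (2 * s.im) := by
    have e2 : (starRingEnd ℂ) (u 0 * exp s) * (u 1 * exp (-s)) =
        ((starRingEnd ℂ) (u 0) * u 1) * exp ((-(2 * s.im) : ℝ) * I) := by
      rw [map_mul, ← exp_conj]
      have : exp ((starRingEnd ℂ) s) * exp (-s) = exp ((-(2 * s.im) : ℝ) * I) := by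
        rw [← exp_add]
        congr 1
        apply Complex.ext
        · simp
        · simp; ring
      linear_combination ((starRingEnd ℂ) (u 0) * u 1) * this
    rw [e2, mul_re, exp_ofReal_mul_I_re, exp_ofReal_mul_I_im, Real.cos_neg, Real.sin_neg]
    ring
  rw [n0, n1, nc]
  exact key

lemma strict_field {g : ℝ} (hg : 0 < Real.cos g) {s : V → ℂ}
    (hs : ∀ x, |(s x).im| * |Real.sin g| < (s x).re * Real.cos g) :
    Strict g (fieldMat s) :=
  strict_prodMat fun y _ hu0 hu => Q_field hg (hs y) hu0 hu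

/-- Insertion of a one-site matrix. -/
def ins (x : V) (R : Matrix (Fin 2) (Fin 2) ℂ) : Matrix (V → Fin 2) (V → Fin 2) ℂ :=
  prodMat fun y => if y = x then R else 1

lemma L_smul_update (ψ : (V → Fin 2) → ℂ) (z : V → Fin 2 → ℂ) (x : V) (k : ℂ) (m : Fin 2 → ℂ) :
    L ψ (Function.update z x (k • m)) = k * L ψ (Function.update z x m) := by
  rw [L_update, L_update (m := m), Finset.mul_sum]
  refine Finset.sum_congr rfl fun i _ => ?_
  simp only [Pi.smul_apply, smul_eq_mul]; ring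

lemma L_ins_rank_one (x : V) (k : ℂ) (u : Fin 2 → ℂ) (ψ : (V → Fin 2) → ℂ) (z : V → Fin 2 → ℂ) :
    L (ins x (Matrix.of fun s t => k * (u s * u t)) *ᵥ ψ) z =
      (k * dot (z x) u) * L ψ (Function.update z x u) := by
  rw [ins, L_prodMat, ← L_smul_update]
  congr 1
  funext y t
  by_cases hy : y = x
  · subst hy
    simp only [if_true, Function.update_self, Pi.smul_apply, smul_eq_mul, Matrix.of_apply, dot,
      Fin.sum_univ_two]
    ring
  · rw [Function.update_of_ne hy]
    simp [hy, Matrix.one_apply]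

lemma good_ins {g : ℝ} (x : V) {k : ℂ} (hk : k ≠ 0) {u : Fin 2 → ℂ} (hu : 0 < Q g u) :
    Good g (ins x (Matrix.of fun s t => k * (u s * u t))) := by
  constructor
  · intro ψ hψ z hz
    rw [L_ins_rank_one]
    refine mul_ne_zero (mul_ne_zero hk (dot_ne_zero (hz x) hu.le (ne_zero_of_Q_pos hu))) ?_
    refine hψ _ fun y => ?_
    by_cases hy : y = x
    · subst hy; simpa using hu
    · rw [Function.update_of_ne hy]; exact hz y
  · intro ψ hψ z hz
    rw [L_ins_rank_one]
    refine mul_ne_zero (mul_ne_zero hk (dot_ne_zero' (hz x).2 (hz x).1 hu)) ?_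
    refine hψ _ fun y => ?_
    by_cases hy : y = x
    · subst hy; simpa using ⟨ne_zero_of_Q_pos hu, hu.le⟩
    · rw [Function.update_of_ne hy]; exact hz y

lemma weak_ins {g : ℝ} (x : V) {k : ℂ} (hk : k ≠ 0) {u : Fin 2 → ℂ} (hu0 : u ≠ 0)
    (hu : 0 ≤ Q g u) :
    Weak g (ins x (Matrix.of fun s t => k * (u s * u t))) := by
  intro ψ hψ z hz
  rw [L_ins_rank_one]
  refine mul_ne_zero (mul_ne_zero hk (dot_ne_zero (hz x) hu hu0)) ?_
  refine hψ _ fun y => ?_
  by_cases hy : y = x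
  · subst hy; simpa using ⟨hu0, hu⟩
  · rw [Function.update_of_ne hy]; exact ⟨ne_zero_of_Q_pos (hz y), (hz y).le⟩

/-- Pauli matrices. -/
def s1 : Matrix (Fin 2) (Fin 2) ℂ := !![0, 1; 1, 0]
def s3 : Matrix (Fin 2) (Fin 2) ℂ := !![1, 0; 0, -1]

lemma ins_apply (x : V) (R : Matrix (Fin 2) (Fin 2) ℂ) (σ τ : V → Fin 2) :
    ins x R σ τ = R (σ x) (τ x) *
      ∏ y ∈ Finset.univ.erase x, (1 : Matrix (Fin 2) (Fin 2) ℂ) (σ y) (τ y) := by
  rw [ins, prodMat, Matrix.of_apply, ← Finset.mul_prod_erase Finset.univ _ (Finset.mem_univ x),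
    if_pos rfl]
  congr 1
  refine Finset.prod_congr rfl fun y hy => ?_
  rw [if_neg (Finset.ne_of_mem_erase hy)]

lemma ins_one (x : V) : ins x (1 : Matrix (Fin 2) (Fin 2) ℂ) = 1 := by
  ext σ τ
  simp only [ins, prodMat, Matrix.of_apply, ite_self, Matrix.one_apply]
  by_cases h : σ = τ
  · subst h; simp
  · rw [if_neg h]
    obtain ⟨y, hy⟩ := Function.ne_iff.mp h
    exact Finset.prod_eq_zero (Finset.mem_univ y) (if_neg hy)

lemma ins_comb (x : V) (a b c : ℂ) (R1 R2 R3 : Matrix (Fin 2) (Fin 2) ℂ) :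
    ins x (a • R1 + b • R2 + c • R3) = a • ins x R1 + b • ins x R2 + c • ins x R3 := by
  ext σ τ
  simp only [Matrix.add_apply, Matrix.smul_apply, smul_eq_mul, ins_apply]
  ring

/-- Parity. -/
def par : Matrix (V → Fin 2) (V → Fin 2) ℂ :=
  Matrix.diagonal fun σ => ∏ x, (if σ x = 0 then (1 : ℂ) else -1)

lemma par_sq : (par : Matrix (V → Fin 2) (V → Fin 2) ℂ) * par = 1 := by
  rw [par, Matrix.diagonal_mul_diagonal, ← Matrix.diagonal_one]
  congr 1
  funext σ
  rw [← Finset.prod_mul_distrib]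
  refine Finset.prod_eq_one fun x _ => ?_
  split_ifs <;> norm_num

lemma par_swap (x y : V) : par * swapMat x y = swapMat x y * par := by
  ext σ τ
  rw [par, Matrix.diagonal_mul, Matrix.mul_diagonal, swapMat, Matrix.of_apply]
  by_cases h : τ = σ ∘ Equiv.swap x y
  · rw [if_pos h, mul_one, one_mul, h]
    rw [← Equiv.prod_comp (Equiv.swap x y)]
    rfl
  · rw [if_neg h]; ring

omit [DecidableEq V] in
lemma fieldMat_eq_diagonal [DecidableEq V] (s : V → ℂ) :
    fieldMat s = Matrix.diagonal fun σ => ∏ y, fieldFac (s y) (σ y) (σ y) := by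
  ext σ τ
  rw [Matrix.diagonal_apply, fieldMat, prodMat, Matrix.of_apply]
  by_cases h : σ = τ
  · subst h; simp
  · rw [if_neg h]
    obtain ⟨y, hy⟩ := Function.ne_iff.mp h
    refine Finset.prod_eq_zero (Finset.mem_univ y) ?_
    have : ∀ i j : Fin 2, i ≠ j → fieldFac (s y) i j = 0 := by
      intro i j hij
      fin_cases i <;> fin_cases j <;> simp_all [fieldFac]
    exact this _ _ hy

lemma par_field (s : V → ℂ) : par * fieldMat s = fieldMat s * par := by
  rw [fieldMat_eq_diagonal, par, Matrix.diagonal_mul_diagonal, Matrix.diagonal_mul_diagonal]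
  congr 1
  funext σ
  ring

lemma par_gate (a b : ℝ) (x y : V) : par * gate a b x y = gate a b x y * par := by
  rw [gate, Matrix.mul_add, Matrix.add_mul, Matrix.mul_smul, Matrix.smul_mul, Matrix.mul_smul,
    Matrix.smul_mul, par_swap, Matrix.mul_one, Matrix.one_mul]

lemma par_s1 (x : V) : par * ins x s1 = -(ins x s1 * par) := by
  ext σ τ
  rw [Matrix.neg_apply, par, Matrix.diagonal_mul, Matrix.mul_diagonal, ins_apply]
  by_cases h : ∀ y ∈ Finset.univ.erase x, σ y = τ y
  · rw [← Finset.mul_prod_erase Finset.univ (fun y => if σ y = 0 then (1 : ℂ) else -1)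
      (Finset.mem_univ x),
      ← Finset.mul_prod_erase Finset.univ (fun y => if τ y = 0 then (1 : ℂ) else -1)
      (Finset.mem_univ x)]
    have e : ∏ y ∈ Finset.univ.erase x, (if σ y = 0 then (1 : ℂ) else -1) =
        ∏ y ∈ Finset.univ.erase x, (if τ y = 0 then (1 : ℂ) else -1) :=
      Finset.prod_congr rfl fun y hy => by rw [h y hy]
    rw [e]
    have k : ∀ i j : Fin 2, (if i = 0 then (1 : ℂ) else -1) * s1 i j =
        -(s1 i j * (if j = 0 then (1 : ℂ) else -1)) := by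
      intro i j
      fin_cases i <;> fin_cases j <;> simp [s1]
    linear_combination ((∏ y ∈ Finset.univ.erase x, (if τ y = 0 then (1 : ℂ) else -1)) *
      ∏ y ∈ Finset.univ.erase x, (1 : Matrix (Fin 2) (Fin 2) ℂ) (σ y) (τ y)) * k (σ x) (τ x)
  · simp only [not_forall] at h
    obtain ⟨y, hy, hne⟩ := h
    have : ∏ y ∈ Finset.univ.erase x, (1 : Matrix (Fin 2) (Fin 2) ℂ) (σ y) (τ y) = 0 :=
      Finset.prod_eq_zero hy (Matrix.one_apply_ne hne)
    rw [this]; ring

lemma trace_s1 (x : V) {A : Matrix (V → Fin 2) (V → Fin 2) ℂ} (hA : par * A = A * par) :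
    (ins x s1 * A).trace = 0 := by
  have h1 : (ins x s1 * A).trace = -(ins x s1 * A).trace := by
    calc (ins x s1 * A).trace = (par * par * (ins x s1 * A)).trace := by
          rw [par_sq, Matrix.one_mul]
      _ = (par * (ins x s1 * A) * par).trace := by
          rw [Matrix.mul_assoc par par, Matrix.trace_mul_comm]
      _ = -(ins x s1 * A).trace := by
          rw [← Matrix.mul_assoc, par_s1, Matrix.neg_mul, Matrix.neg_mul, Matrix.trace_neg]
          congr 1
          rw [Matrix.mul_assoc (ins x s1), hA, ← Matrix.mul_assoc, Matrix.mul_assoc _ par par,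
            par_sq, Matrix.mul_one]
  have h2 : (2 : ℂ) * (ins x s1 * A).trace = 0 := by linear_combination h1
  simpa using h2

/-- The vector of the insertion `1 + sin t σ¹ + cos t σ³`. -/
def uvec (t : ℂ) : Fin 2 → ℂ := ![cos (t / 2), sin (t / 2)]

lemma Q_uvec (g : ℝ) (t : ℂ) : Q g (uvec t) = Real.cos (t.re - g) := by
  have hc : cos (t / 2) = (Real.cos (t.re / 2) * Real.cosh (t.im / 2) : ℝ) -
      (Real.sin (t.re / 2) * Real.sinh (t.im / 2) : ℝ) * I := by
    rw [cos_eq]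
    have h1 : (t / 2).re = t.re / 2 := by simp
    have h2 : (t / 2).im = t.im / 2 := by simp
    rw [h1, h2]; push_cast; ring
  have hs : sin (t / 2) = (Real.sin (t.re / 2) * Real.cosh (t.im / 2) : ℝ) +
      (Real.cos (t.re / 2) * Real.sinh (t.im / 2) : ℝ) * I := by
    rw [sin_eq]
    have h1 : (t / 2).re = t.re / 2 := by simp
    have h2 : (t / 2).im = t.im / 2 := by simp
    rw [h1, h2]; push_cast; ring
  have c0 : (uvec t 0) = cos (t / 2) := rfl
  have c1 : (uvec t 1) = sin (t / 2) := rfl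
  have cre : (cos (t / 2)).re = Real.cos (t.re / 2) * Real.cosh (t.im / 2) := by
    rw [hc]; simp [-ofReal_mul, -ofReal_cos, -ofReal_cosh, -ofReal_sin, -ofReal_sinh]
  have cim : (cos (t / 2)).im = -(Real.sin (t.re / 2) * Real.sinh (t.im / 2)) := by
    rw [hc]; simp [-ofReal_mul, -ofReal_cos, -ofReal_cosh, -ofReal_sin, -ofReal_sinh]
  have sre : (sin (t / 2)).re = Real.sin (t.re / 2) * Real.cosh (t.im / 2) := by
    rw [hs]; simp [-ofReal_mul, -ofReal_cos, -ofReal_cosh, -ofReal_sin, -ofReal_sinh]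
  have sim : (sin (t / 2)).im = Real.cos (t.re / 2) * Real.sinh (t.im / 2) := by
    rw [hs]; simp [-ofReal_mul, -ofReal_cos, -ofReal_cosh, -ofReal_sin, -ofReal_sinh]
  simp only [Q, c0, c1, normSq_apply, cre, cim, sre, sim]
  have hh := Real.cosh_sq (t.im / 2)
  have h2 : t.re = 2 * (t.re / 2) := by ring
  rw [Real.cos_sub, h2, Real.cos_two_mul', Real.sin_two_mul]
  have h3 : 2 * (t.re / 2) / 2 = t.re / 2 := by ring
  rw [h3]
  linear_combination (Real.cos g * (Real.cos (t.re / 2) ^ 2 - Real.sin (t.re / 2) ^ 2) +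
    2 * Real.sin g * (Real.sin (t.re / 2) * Real.cos (t.re / 2))) * hh

lemma R_eq (t : ℂ) :
    (Matrix.of fun i j => (2 : ℂ) * (uvec t i * uvec t j)) =
      (1 : ℂ) • (1 : Matrix (Fin 2) (Fin 2) ℂ) + sin t • s1 + cos t • s3 := by
  have h2 : t = 2 * (t / 2) := by ring
  have hc : cos t = cos (t / 2) ^ 2 - sin (t / 2) ^ 2 := by
    conv_lhs => rw [h2, cos_two_mul']
  have hs : sin t = 2 * sin (t / 2) * cos (t / 2) := by
    conv_lhs => rw [h2, sin_two_mul]
  have h1 := sin_sq_add_cos_sq (t / 2)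
  rw [hc, hs]
  ext i j
  fin_cases i <;> fin_cases j
  · simp [uvec, s1, s3]; linear_combination h1
  · simp [uvec, s1, s3]; ring
  · simp [uvec, s1, s3]; ring
  · simp [uvec, s1, s3]; linear_combination h1

/-- Nonvanishing with an insertion. -/
theorem trace_ins_ne_zero {g : ℝ} (x : V) {t : ℂ} (ht : 0 < Real.cos (t.re - g))
    {A : Matrix (V → Fin 2) (V → Fin 2) ℂ} (hA : Strict g A) (hp : par * A = A * par) :
    A.trace + cos t * (ins x s3 * A).trace ≠ 0 := by
  have h1 : Strict g (ins x (Matrix.of fun i j => (2 : ℂ) * (uvec t i * uvec t j)) * A) :=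
    Strict.mul_left (good_ins x two_ne_zero (by rw [Q_uvec]; exact ht)) hA
  have h2 := h1.trace_ne_zero
  rw [R_eq, ins_comb, ins_one, Matrix.add_mul, Matrix.add_mul, Matrix.trace_add,
    Matrix.trace_add, Matrix.smul_mul, Matrix.smul_mul, Matrix.smul_mul, Matrix.trace_smul,
    Matrix.trace_smul, Matrix.trace_smul, trace_s1 x hp, Matrix.one_mul] at h2
  simpa using h2

/-- The magnetization does not vanish. -/
theorem trace_s3_ne_zero {g : ℝ} (x : V) {A B : Matrix (V → Fin 2) (V → Fin 2) ℂ}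
    (hA : Strict g A) (hB : Strict g B) (hp : par * (B * A) = (B * A) * par) :
    (ins x s3 * (B * A)).trace ≠ 0 := by
  have hw : Weak g (ins x (Matrix.of fun i j => (1 : ℂ) * (![1, -I] i * ![1, -I] j))) :=
    weak_ins x one_ne_zero (by
      intro h; have := congrFun h 0; simp at this) (by simp [Q])
  have h1 := (Strict.weak_strict hA hw hB).trace_ne_zero
  have e : (Matrix.of fun i j => (1 : ℂ) * (![1, -I] i * ![1, -I] j)) =
      (0 : ℂ) • (1 : Matrix (Fin 2) (Fin 2) ℂ) + (-I) • s1 + (1 : ℂ) • s3 := by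
    ext i j
    fin_cases i <;> fin_cases j <;> simp [s1, s3]
  rw [Matrix.mul_assoc, Matrix.trace_mul_comm, Matrix.mul_assoc, e, ins_comb, Matrix.add_mul,
    Matrix.add_mul, Matrix.trace_add, Matrix.trace_add, Matrix.smul_mul, Matrix.smul_mul,
    Matrix.smul_mul, Matrix.trace_smul, Matrix.trace_smul, Matrix.trace_smul,
    trace_s1 x hp] at h1
  simpa using h1

/-- The region: from the zero-free strip to the half plane. -/
theorem region {Z W : ℂ} {al : ℝ} (hal0 : 0 ≤ al) (hal : al < Real.pi / 2) (hW : W ≠ 0)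
    (h : ∀ t : ℂ, |t.re| < Real.pi - al → Z + cos t * W ≠ 0) :
    Real.cos al ≤ (Z / W).re := by
  by_contra hc
  rw [not_le] at hc
  obtain ⟨t0, ht0⟩ := cos_surjective (-(Z / W))
  set n : ℤ := round (t0.re / (2 * Real.pi)) with hn
  set t : ℂ := t0 - n * (2 * Real.pi) with ht
  have hct : cos t = -(Z / W) := by rw [ht, cos_sub_int_mul_two_pi, ht0]
  have hre : t.re = t0.re - n * (2 * Real.pi) := by rw [ht]; simp
  have hpi := Real.pi_pos
  have hle : |t.re| ≤ Real.pi := by
    have h1 := abs_sub_round (t0.re / (2 * Real.pi))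
    have h2 : t.re = 2 * Real.pi * (t0.re / (2 * Real.pi) - n) := by
      rw [hre]; field_simp
    rw [h2, abs_mul, abs_of_pos (by positivity : 0 < 2 * Real.pi)]
    calc 2 * Real.pi * |t0.re / (2 * Real.pi) - n| ≤ 2 * Real.pi * (1 / 2) :=
          mul_le_mul_of_nonneg_left h1 (by positivity)
      _ = Real.pi := by ring
  have hz : Z + cos t * W = 0 := by rw [hct]; field_simp; ring
  have hlt : |t.re| < Real.pi - al := by
    by_contra hge
    rw [not_lt] at hge
    have hcos : Real.cos t.re ≤ -Real.cos al := by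
      rw [← Real.cos_abs, ← Real.cos_pi_sub]
      exact Real.cos_le_cos_of_nonneg_of_le_pi (by linarith) hle hge
    have hcal : 0 < Real.cos al := Real.cos_pos_of_mem_Ioo ⟨by linarith, hal⟩
    have hre2 : (cos t).re = Real.cos t.re * Real.cosh t.im := by
      rw [cos_eq]
      have : cos (t.re : ℂ) * cosh (t.im : ℂ) - sin (t.re : ℂ) * sinh (t.im : ℂ) * I =
          (Real.cos t.re * Real.cosh t.im : ℝ) - (Real.sin t.re * Real.sinh t.im : ℝ) * I := by
        push_cast; ring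
      rw [this]; simp [-ofReal_mul, -ofReal_cos, -ofReal_cosh, -ofReal_sin, -ofReal_sinh]
    have h1 : (cos t).re = -(Z / W).re := by rw [hct, neg_re]
    have h2 := Real.one_le_cosh t.im
    rw [hre2] at h1
    nlinarith [mul_nonneg (sub_nonneg.mpr h2) hcal.le]
  exact h t hlt hz

end

end Vale.Agent.P361.LRO
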