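import Vale.Agent.P361.LRO.Top

/-!
P361, low-temperature order: the step of the bootstrap from the blocks.
-/

namespace Vale.Agent.P361.LRO

open Filter Finset Matrix

noncomputable section

theorem etaB_pos {β : ℝ} (hβ : 0 < β) : 0 < etaB β := Real.rpow_pos_of_pos hβ _

theorem etaB_le_one {β : ℝ} (hβ : 1 ≤ β) : etaB β ≤ 1 := by
  unfold etaB
  exact Real.rpow_le_one_of_one_le_of_nonpos hβ (by norm_num)

theorem edges_ne {n : ℕ} [NeZero n] (hn : 2 ≤ n) : ∀ e ∈ edges n, e.1 ≠ e.2 := by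
  intro e he
  unfold edges at he
  rw [List.mem_map] at he
  obtain ⟨z, -, rfl⟩ := he
  intro h
  have h1 : (Pi.single z.2 1 : Tor n) = 0 := by
    have h2 : z.1 + 0 = z.1 + Pi.single z.2 1 := by
      rw [add_zero]
      exact h
    exact (add_left_cancel h2).symm
  have h3 := congrFun h1 z.2
  rw [Pi.single_eq_same, Pi.zero_apply] at h3
  have : Fact (1 < n) := ⟨hn⟩
  exact one_ne_zero h3

/-- in the cube the field varies slowly -/
theorem fam_log {n : ℕ} [NeZero n] {h0 lam : ℝ} {h : Tor n → ℝ} (hh : Fam n h0 lam h)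
    (h0p : 0 < h0) (x : Tor n) (i : Fin 3) :
    |Real.log (h (x + Pi.single i 1)) - Real.log (h x)| ≤ lam := by
  have hp : ∀ y, 0 < h y := fun y => h0p.trans_le (hh.1 y).1
  obtain ⟨h1, h2⟩ := hh.2 x i
  have h3 := Real.log_le_log (hp _) h1
  have h4 := Real.log_le_log (hp _) h2
  rw [Real.log_mul (Real.exp_pos _).ne' (hp _).ne', Real.log_exp] at h3 h4
  rw [abs_le]
  constructor <;> linarith

theorem fam_log_nat {n : ℕ} [NeZero n] {h0 lam : ℝ} {h : Tor n → ℝ} (hh : Fam n h0 lam h)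
    (h0p : 0 < h0) (i : Fin 3) (k : ℕ) (x : Tor n) :
    |Real.log (h (x + Pi.single i (k : ZMod n))) - Real.log (h x)| ≤ k * lam := by
  induction k with
  | zero =>
    rw [Nat.cast_zero, Pi.single_zero, add_zero, sub_self, abs_zero, Nat.cast_zero, zero_mul]
  | succ k ih =>
    have h1 : x + Pi.single i ((k + 1 : ℕ) : ZMod n) =
        x + Pi.single i (k : ZMod n) + Pi.single i 1 := by
      rw [Nat.cast_succ, Pi.single_add, add_assoc]
    rw [h1]
    have h2 := fam_log hh h0p (x + Pi.single i (k : ZMod n)) i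
    have h3 := abs_add_le (Real.log (h (x + Pi.single i (k : ZMod n) + Pi.single i 1)) -
      Real.log (h (x + Pi.single i (k : ZMod n))))
      (Real.log (h (x + Pi.single i (k : ZMod n))) - Real.log (h x))
    rw [sub_add_sub_cancel] at h3
    push_cast
    linarith

theorem fam_log_vec {n : ℕ} [NeZero n] {h0 lam : ℝ} {h : Tor n → ℝ} (hh : Fam n h0 lam h)
    (h0p : 0 < h0) (l : ℕ) (k : Fin 3 → ℕ) (hk : ∀ i, k i ≤ l) (hlam : 0 ≤ lam) (x : Tor n) :
    |Real.log (h (x + fun i => (k i : ZMod n))) - Real.log (h x)| ≤ 3 * l * lam := by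
  have h1 : (x + fun i => (k i : ZMod n)) = x + Pi.single 0 (k 0 : ZMod n) +
      Pi.single 1 (k 1 : ZMod n) + Pi.single 2 (k 2 : ZMod n) := by
    funext i
    fin_cases i <;> simp
  rw [h1]
  have e0 := fam_log_nat hh h0p 0 (k 0) x
  have e1 := fam_log_nat hh h0p 1 (k 1) (x + Pi.single 0 (k 0 : ZMod n))
  have e2 := fam_log_nat hh h0p 2 (k 2) (x + Pi.single 0 (k 0 : ZMod n) +
    Pi.single 1 (k 1 : ZMod n))
  have hb : ∀ i, (k i : ℝ) * lam ≤ l * lam := fun i =>
    mul_le_mul_of_nonneg_right (by exact_mod_cast hk i) hlam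
  have b0 := hb 0
  have b1 := hb 1
  have b2 := hb 2
  rw [abs_le] at *
  constructor <;> linarith [e0.1, e0.2, e1.1, e1.2, e2.1, e2.2]

/-- **The step from the blocks.** -/
theorem step_of {q : ℕ} {w m : ℝ → ℕ} {lam : ℝ → ℝ} (h1 : PTwist) (h7 : PEnergy q)
    (h8 : PHarn) (ht : PTrans) (h6 : PSix w lam) (hp : Par q w m lam) : PStep lam := by
  obtain ⟨c, hc, h6⟩ := h6
  obtain ⟨C1, hC1, h1⟩ := h1
  obtain ⟨C, hC, h7⟩ := h7
  have hA : (0 : ℝ) < 32 * C1 / c := by positivity
  have hCC : 0 < C1 * C := by positivity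
  filter_upwards [h6 _ hA, hp _ (C1 * C) hA hCC, eventually_ge_atTop (1 : ℝ)] with β h6 hp hβ1
  obtain ⟨hw, hm, hlam, hK10, hKw, hpar, hd1, hd2⟩ := hp
  have hβ : 0 < β := by linarith
  have hη := etaB_pos hβ
  have hη1 := etaB_le_one hβ1
  filter_upwards [h6, eventually_ge_atTop 3, eventually_ge_atTop (3 * (w β * m β))] with
    n h6 hn3 hnw3
  intro hodd _ h0 hh0 hh01 hB h hh x
  have hnw : w β * m β ≤ n := by omega
  have hn0 : (0 : ℝ) < n := by
    have : (3 : ℝ) ≤ n := by exact_mod_cast hn3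
    linarith
  have h0p : 0 < h0 := (Real.rpow_pos_of_pos hn0 _).trans_le hh0
  have hpos : ∀ y, 0 < h y := fun y => h0p.trans_le (hh.1 y).1
  set K : ℝ := 32 * C1 / c / etaB β with hK
  set κ : ℝ := c * K with hκ
  have hκ' : C1 / κ = etaB β / 32 := by
    rw [hκ, hK]
    field_simp
  have hκp : 0 < κ := by
    rw [hκ, hK]
    positivity
  -- the blocks of the cube
  set bl : (Fin 3 → Fin (m β)) → Finset (Tor n) := fun y =>
    cube n (x + fun i => ((w β * (y i : ℕ) : ℕ) : ZMod n)) (w β) with hbl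
  have hwn : w β ≤ n := le_trans (Nat.le_mul_of_pos_right _ hm) hnw
  have hcard : ∀ z : Tor n, (cube n z (w β)).card = w β ^ 3 := by
    intro z
    unfold cube
    rw [Finset.card_image_of_injective, Finset.card_univ, Fintype.card_fun, Fintype.card_fin,
      Fintype.card_fin]
    intro a b hab
    have h2 := add_left_cancel hab
    funext i
    have h3 := congrFun h2 i
    have h4 : ((a i : ℕ) : ZMod n) = ((b i : ℕ) : ZMod n) := h3
    rw [ZMod.natCast_eq_natCast_iff'] at h4
    rw [Nat.mod_eq_of_lt ((a i).2.trans_le hwn), Nat.mod_eq_of_lt ((b i).2.trans_le hwn)] at h4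
    exact Fin.ext h4
  have htw : ∀ y, (∑ z ∈ bl y, rho (edges n) β h z) / (bl y).card ≤
      etaB β / 32 + C1 * (1 + K) ^ 4 * Dst (edges n) β h (bl y) := by
    intro y
    have h2 := h1 (Tor n) (edges n) (edges_ne (by omega)) β hβ h (fun z => ⟨hpos z, (hh.1 z).2⟩)
      (bl y) K κ
      (by
        rw [← Finset.card_pos, hbl]
        dsimp only
        rw [hcard]
        positivity) hK10
      (by
        rw [hbl]
        dsimp only
        rw [hcard]
        exact_mod_cast hKw) hκp (h6 hodd h0 hh0 hh01 hB h hh _)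
    rwa [hκ'] at h2
  have hsum : ∑ y, (∑ z ∈ bl y, rho (edges n) β h z) / (bl y).card ≤
      (m β : ℝ) ^ 3 * (etaB β / 16) := by
    refine (Finset.sum_le_sum fun y _ => htw y).trans ?_
    rw [Finset.sum_add_distrib, ← Finset.mul_sum, Finset.sum_const, Finset.card_univ,
      Fintype.card_fun, Fintype.card_fin, Fintype.card_fin, nsmul_eq_mul]
    push_cast
    have h2 := h7 β hβ1 n (w β) (m β) hw hm hnw3 h (fun z => ⟨hpos z, (hh.1 z).2⟩) x
    have hK3 : 0 ≤ C1 * (1 + K) ^ 4 := by positivity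
    have h3 := mul_le_mul_of_nonneg_left h2 hK3
    have hm3 : (0 : ℝ) ≤ (m β : ℝ) ^ 3 := by positivity
    have h4 := mul_le_mul_of_nonneg_left hpar hm3
    have h5 : C1 * (1 + K) ^ 4 * ((m β : ℝ) ^ 3 * (C * (w β : ℝ) ^ q *
        (1 / β + 1 / ((w β : ℝ) * m β)))) =
        (m β : ℝ) ^ 3 * ((1 + K) ^ 4 * (C1 * C * (w β : ℝ) ^ q *
          (1 / β + 1 / ((w β : ℝ) * m β)))) := by ring
    rw [h5] at h3
    nlinarith
  -- a good point
  obtain ⟨y, z, hz, hρz⟩ : ∃ y, ∃ z ∈ bl y, rho (edges n) β h z ≤ etaB β / 16 := by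
    by_contra hcon
    push Not at hcon
    have hcp : ∀ y, (0 : ℝ) < (bl y).card := by
      intro y
      rw [hbl]
      dsimp only
      rw [hcard]
      positivity
    have h2 : ∀ y, etaB β / 16 < (∑ z ∈ bl y, rho (edges n) β h z) / (bl y).card := by
      intro y
      rw [lt_div_iff₀ (hcp y)]
      have h3 : ∑ z ∈ bl y, etaB β / 16 < ∑ z ∈ bl y, rho (edges n) β h z := by
        refine Finset.sum_lt_sum_of_nonempty ?_ fun z hz => hcon y z hz
        rw [← Finset.card_pos]
        exact_mod_cast hcp y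
      rw [Finset.sum_const, nsmul_eq_mul] at h3
      linarith
    have : Nonempty (Fin (m β)) := ⟨⟨0, hm⟩⟩
    have h3 : ∑ y : Fin 3 → Fin (m β), etaB β / 16 <
        ∑ y, (∑ z ∈ bl y, rho (edges n) β h z) / (bl y).card :=
      Finset.sum_lt_sum_of_nonempty Finset.univ_nonempty fun y _ => h2 y
    rw [Finset.sum_const, Finset.card_univ, Fintype.card_fun, Fintype.card_fin, Fintype.card_fin,
      nsmul_eq_mul] at h3
    push_cast at h3
    linarith
  -- the vector from `x` to `z`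
  obtain ⟨k, hk, hzk⟩ : ∃ k : Fin 3 → ℕ, (∀ i, k i ≤ w β * m β) ∧ z = x + fun i => (k i : ZMod n) := by
    rw [hbl] at hz
    unfold cube at hz
    dsimp only at hz
    rw [Finset.mem_image] at hz
    obtain ⟨a, -, ha⟩ := hz
    refine ⟨fun i => w β * (y i : ℕ) + (a i : ℕ), fun i => ?_, ?_⟩
    · have h2 : (y i : ℕ) + 1 ≤ m β := (y i).2
      have h3 := Nat.mul_le_mul_left (w β) h2
      have h4 : (a i : ℕ) < w β := (a i).2
      rw [mul_add, mul_one] at h3
      exact (Nat.add_le_add_left h4.le _).trans h3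
    · rw [← ha, add_assoc]
      congr 1
      funext i
      simp only [Pi.add_apply]
      push_cast
      ring
  set v : Tor n := fun i => (k i : ZMod n) with hv
  -- Harnack
  have hd0 : (0 : ℝ) ≤ 3 * (w β * m β) * lam β := by positivity
  have hlog : ∀ u, |Real.log (h (u + v)) - Real.log (h u)| ≤ 3 * (w β * m β) * lam β := by
    intro u
    have := fam_log_vec hh h0p (w β * m β) k hk hlam u
    push_cast at this
    exact this
  obtain ⟨hM, hH⟩ := h8 (Tor n) (edges n) (edges_ne (by omega)) β hβ (fun u => h (u + v)) h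
    (fun u => hpos _) hpos _ hd0 hd2 hlog x
  rw [ht n β h v x, ← hzk] at hM hH
  have hM' : 0 < 1 - 2 * rho (edges n) β h x :=
    (h8 (Tor n) (edges n) (edges_ne (by omega)) β hβ h h hpos hpos 0 le_rfl
      (by rw [mul_zero]; positivity) (fun u => by rw [sub_self, abs_zero]) x).1
  -- the end
  have h10 : 1 / (1 - 2 * rho (edges n) β h z) ≤ 1 + etaB β / 7 := by
    rw [div_le_iff₀ hM]
    nlinarith
  have h11 : 1 / (1 - 2 * rho (edges n) β h x) ≤ 1 + 3 * (etaB β / 7) := by linarith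
  rw [div_le_iff₀ hM'] at h11
  by_contra hcon
  push Not at hcon
  nlinarith

end

end Vale.Agent.P361.LRO
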