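import Vale.Agent.P361.LRO.Field
import Vale.Agent.P361.LRO.LY.Harnack

/-!
P361, step (8) at finite Trotter number: zero-free strip and the Harnack inequality for the
magnetization.
-/

namespace Vale.Agent.P361.LRO

open Complex Matrix

noncomputable section

variable {V : Type*} [Fintype V] [DecidableEq V]

/-- All gates of one step. -/
def gprod (l : List (V × V)) (a b : ℝ) : Matrix (V → Fin 2) (V → Fin 2) ℂ :=
  (l.map fun e => gate a b e.1 e.2).prod

lemma good_gprod {g : ℝ} (l : List (V × V)) {a b : ℝ} (ha : 0 ≤ a) (hb : 0 ≤ b)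
    (hab : 0 < a + b) : Good g (gprod l a b) := by
  refine Good.list fun A hA => ?_
  obtain ⟨e, _, rfl⟩ := List.mem_map.mp hA
  exact good_gate ha hb hab _ _

lemma par_gprod (l : List (V × V)) (a b : ℝ) : par * gprod l a b = gprod l a b * par := by
  induction l with
  | nil => simp [gprod]
  | cons e l ih =>
    have : gprod (e :: l) a b = gate a b e.1 e.2 * gprod l a b := by simp [gprod]
    rw [this, ← Matrix.mul_assoc, par_gate, Matrix.mul_assoc, ih, Matrix.mul_assoc]

/-- One Trotter step. -/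
def step (l : List (V × V)) (a b : ℝ) (s : V → ℂ) : Matrix (V → Fin 2) (V → Fin 2) ℂ :=
  gprod l a b * fieldMat s

lemma strict_step {g : ℝ} (hg : 0 < Real.cos g) (l : List (V × V)) {a b : ℝ} (ha : 0 ≤ a)
    (hb : 0 ≤ b) (hab : 0 < a + b) {s : V → ℂ}
    (hs : ∀ x, |(s x).im| * |Real.sin g| < (s x).re * Real.cos g) :
    Strict g (step l a b s) :=
  Strict.mul_left (good_gprod l ha hb hab) (strict_field hg hs)

lemma strict_pow {g : ℝ} {A : Matrix (V → Fin 2) (V → Fin 2) ℂ} (h : Strict g A) (n : ℕ) :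
    Strict g (A ^ (n + 1)) := by
  rw [pow_succ]
  exact Strict.mul_left (h.good.pow n) h

lemma par_step (l : List (V × V)) (a b : ℝ) (s : V → ℂ) :
    par * step l a b s = step l a b s * par := by
  rw [step, ← Matrix.mul_assoc, par_gprod, Matrix.mul_assoc, par_field, Matrix.mul_assoc]

lemma par_pow {A : Matrix (V → Fin 2) (V → Fin 2) ℂ} (h : par * A = A * par) (n : ℕ) :
    par * A ^ n = A ^ n * par := by
  have : Commute par A := h
  exact (this.pow_right n).eq

/-- Partition function of the Trotter word. -/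
def ZW (l : List (V × V)) (a b : ℝ) (N : ℕ) (s : V → ℂ) : ℂ := (step l a b s ^ N).trace

/-- The same with `σ³_x` inserted. -/
def WW (l : List (V × V)) (a b : ℝ) (N : ℕ) (x : V) (s : V → ℂ) : ℂ :=
  (ins x s3 * step l a b s ^ N).trace

lemma WW_ne_zero (l : List (V × V)) {a b : ℝ} (ha : 0 ≤ a) (hb : 0 ≤ b) (hab : 0 < a + b)
    {N : ℕ} (hN : 2 ≤ N) (x : V) {s : V → ℂ} (hs : ∀ x, 0 < (s x).re) :
    WW l a b N x s ≠ 0 := by
  obtain ⟨n, rfl⟩ : ∃ n, N = n + 1 + 1 := ⟨N - 2, by omega⟩
  have h0 : Strict 0 (step l a b s) := strict_step (by simp) l ha hb hab (by simpa using hs)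
  have e : step l a b s ^ (n + 1 + 1) = step l a b s ^ (n + 1) * step l a b s := pow_succ _ _
  rw [WW, e]
  exact trace_s3_ne_zero x h0 (strict_pow h0 n) (by rw [← e]; exact par_pow (par_step l a b s) _)

/-- The half plane bound at finite Trotter number. -/
lemma re_ZW_div {l : List (V × V)} {a b : ℝ} (ha : 0 ≤ a) (hb : 0 ≤ b) (hab : 0 < a + b)
    {N : ℕ} (hN : 2 ≤ N) (x : V) {al : ℝ} (hal0 : 0 ≤ al) (hal : al < Real.pi / 2) {s : V → ℂ}
    (hs : ∀ g : ℝ, |g| < Real.pi / 2 - al →
      ∀ x, |(s x).im| * |Real.sin g| < (s x).re * Real.cos g) :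
    Real.cos al ≤ (ZW l a b N s / WW l a b N x s).re := by
  have hpi := Real.pi_pos
  have hs0 : ∀ x, 0 < (s x).re := fun y => by
    have := hs 0 (by rw [abs_zero]; linarith) y
    simpa using this
  refine region hal0 hal (WW_ne_zero l ha hb hab hN x hs0) fun t ht => ?_
  obtain ⟨n, rfl⟩ : ∃ n, N = n + 1 := ⟨N - 1, by omega⟩
  set c : ℝ := (Real.pi / 2 - al) / (Real.pi - al) with hc
  have hd : 0 < Real.pi - al := by linarith
  have hc0 : 0 < c := div_pos (by linarith) hd
  have hg1 : |t.re * c| < Real.pi / 2 - al := by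
    rw [abs_mul, abs_of_pos hc0]
    calc |t.re| * c < (Real.pi - al) * c := mul_lt_mul_of_pos_right ht hc0
      _ = Real.pi / 2 - al := by rw [hc]; field_simp
  have hg2 : |t.re - t.re * c| < Real.pi / 2 := by
    have e : t.re - t.re * c = t.re * (1 - c) := by ring
    have h1c : 1 - c = (Real.pi / 2) / (Real.pi - al) := by
      rw [hc]; field_simp; ring
    have h1c0 : 0 < 1 - c := by rw [h1c]; positivity
    rw [e, abs_mul, abs_of_pos h1c0]
    calc |t.re| * (1 - c) < (Real.pi - al) * (1 - c) := mul_lt_mul_of_pos_right ht h1c0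
      _ = Real.pi / 2 := by rw [h1c]; field_simp
  have hcg : 0 < Real.cos (t.re * c) := by
    rw [← Real.cos_abs]
    exact Real.cos_pos_of_mem_Ioo ⟨by have := abs_nonneg (t.re * c); linarith, by linarith⟩
  have hct : 0 < Real.cos (t.re - t.re * c) := by
    rw [← Real.cos_abs]
    exact Real.cos_pos_of_mem_Ioo ⟨by have := abs_nonneg (t.re - t.re * c); linarith, hg2⟩
  exact trace_ins_ne_zero x hct (strict_pow (strict_step hcg l ha hb hab (hs _ hg1)) n)
    (par_pow (par_step l a b s) _)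

/-! ### Differentiability -/

/-- Entrywise differentiability. -/
def MD (A : ℂ → Matrix (V → Fin 2) (V → Fin 2) ℂ) : Prop :=
  ∀ σ τ, Differentiable ℂ fun ζ => A ζ σ τ

omit [Fintype V] [DecidableEq V] in
lemma MD.const (A : Matrix (V → Fin 2) (V → Fin 2) ℂ) : MD fun _ => A := fun _ _ =>
  differentiable_const _

lemma MD.mul {A B : ℂ → Matrix (V → Fin 2) (V → Fin 2) ℂ} (hA : MD A) (hB : MD B) :
    MD fun ζ => A ζ * B ζ := fun σ τ => by
  simp only [Matrix.mul_apply]
  exact Differentiable.fun_sum fun i _ => (hA σ i).mul (hB i τ)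

lemma MD.pow {A : ℂ → Matrix (V → Fin 2) (V → Fin 2) ℂ} (hA : MD A) (n : ℕ) :
    MD fun ζ => A ζ ^ n := by
  induction n with
  | zero => simp only [pow_zero]; exact MD.const 1
  | succ n ih => simp only [pow_succ]; exact ih.mul hA

lemma MD.trace {A : ℂ → Matrix (V → Fin 2) (V → Fin 2) ℂ} (hA : MD A) :
    Differentiable ℂ fun ζ => (A ζ).trace := by
  simp only [Matrix.trace, Matrix.diag_apply]
  exact Differentiable.fun_sum fun i _ => hA i i

omit [DecidableEq V] in
lemma MD.field {s : ℂ → V → ℂ} (hs : ∀ x, Differentiable ℂ fun ζ => s ζ x) :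
    MD fun ζ => fieldMat (s ζ) := fun σ τ => by
  simp only [fieldMat, prodMat, Matrix.of_apply]
  refine Differentiable.fun_finsetProd fun y _ => ?_
  generalize σ y = i
  generalize τ y = j
  fin_cases i <;> fin_cases j <;> simp [fieldFac]
  · exact (hs y).cexp
  · exact (hs y).neg.cexp

lemma MD.step {s : ℂ → V → ℂ} (l : List (V × V)) (a b : ℝ)
    (hs : ∀ x, Differentiable ℂ fun ζ => s ζ x) : MD fun ζ => step l a b (s ζ) :=
  (MD.const _).mul (MD.field hs)

/-! ### Real words -/

/-- Real matrices. -/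
def RM (A : Matrix (V → Fin 2) (V → Fin 2) ℂ) : Prop := ∀ σ τ, (A σ τ).im = 0

lemma RM.mul {A B : Matrix (V → Fin 2) (V → Fin 2) ℂ} (hA : RM A) (hB : RM B) : RM (A * B) :=
  fun σ τ => by
    rw [Matrix.mul_apply, im_sum]
    exact Finset.sum_eq_zero fun i _ => by rw [mul_im, hA, hB]; ring

lemma RM.one : RM (1 : Matrix (V → Fin 2) (V → Fin 2) ℂ) := fun σ τ => by
  rw [Matrix.one_apply]; split <;> simp

lemma RM.pow {A : Matrix (V → Fin 2) (V → Fin 2) ℂ} (hA : RM A) (n : ℕ) : RM (A ^ n) := by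
  induction n with
  | zero => rw [pow_zero]; exact RM.one
  | succ n ih => rw [pow_succ]; exact ih.mul hA

lemma RM.trace {A : Matrix (V → Fin 2) (V → Fin 2) ℂ} (hA : RM A) : (A.trace).im = 0 := by
  rw [Matrix.trace, im_sum]
  exact Finset.sum_eq_zero fun i _ => hA i i

lemma RM.gate (a b : ℝ) (x y : V) : RM (gate a b x y) := fun σ τ => by
  simp only [Vale.Agent.P361.LRO.gate, swapMat, Matrix.add_apply, Matrix.smul_apply, smul_eq_mul,
    Matrix.of_apply, Matrix.one_apply]
  split <;> split <;> simp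

lemma RM.gprod (l : List (V × V)) (a b : ℝ) : RM (gprod l a b) := by
  induction l with
  | nil => simp only [Vale.Agent.P361.LRO.gprod, List.map_nil, List.prod_nil]; exact RM.one
  | cons e l ih =>
    simp only [Vale.Agent.P361.LRO.gprod, List.map_cons, List.prod_cons]
    exact (RM.gate _ _ _ _).mul ih

lemma RM.prodMat {R : V → Matrix (Fin 2) (Fin 2) ℂ} (h : ∀ y i j, (R y i j).im = 0) :
    RM (prodMat R) := fun σ τ => by
  rw [Vale.Agent.P361.LRO.prodMat, Matrix.of_apply]
  have : ∀ s : Finset V, (∏ y ∈ s, R y (σ y) (τ y)).im = 0 := fun s => by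
    induction s using Finset.induction_on with
    | empty => simp
    | insert y s hy ih => rw [Finset.prod_insert hy, mul_im, ih, h]; ring
  exact this _

lemma RM.fieldMat {s : V → ℂ} (hs : ∀ x, (s x).im = 0) : RM (fieldMat s) := by
  refine RM.prodMat fun y i j => ?_
  have e : s y = ((s y).re : ℂ) := by apply Complex.ext <;> simp [hs y]
  rw [e]
  fin_cases i <;> fin_cases j <;> simp [fieldFac, exp_im]

lemma RM.ins (x : V) : RM (ins x s3) := by
  refine RM.prodMat fun y i j => ?_
  split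
  · fin_cases i <;> fin_cases j <;> simp [s3]
  · rw [Matrix.one_apply]; split <;> simp

lemma ZW_im {l : List (V × V)} {a b : ℝ} {N : ℕ} {s : V → ℂ} (hs : ∀ x, (s x).im = 0) :
    (ZW l a b N s).im = 0 :=
  (((RM.gprod l a b).mul (RM.fieldMat hs)).pow N).trace

lemma WW_im {l : List (V × V)} {a b : ℝ} {N : ℕ} {x : V} {s : V → ℂ}
    (hs : ∀ x, (s x).im = 0) : (WW l a b N x s).im = 0 :=
  ((RM.ins x).mul (((RM.gprod l a b).mul (RM.fieldMat hs)).pow N)).trace

/-- Step (8) at finite Trotter number. -/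
theorem finite_harnack (l : List (V × V)) {a b : ℝ} (ha : 0 ≤ a) (hb : 0 ≤ b) (hab : 0 < a + b)
    {N : ℕ} (hN : 2 ≤ N) (x : V) {c c' : V → ℝ} (hc : ∀ y, 0 < c y) (hc' : ∀ y, 0 < c' y) {s : ℝ}
    (hs : 3 * s < Real.pi / 2) (hcc : ∀ y, |Real.log (c' y) - Real.log (c y)| ≤ s) :
    (ZW l a b N (fun y => (c' y : ℂ)) / WW l a b N x (fun y => (c' y : ℂ))).re - 1 ≤
      2 * ((ZW l a b N (fun y => (c y : ℂ)) / WW l a b N x (fun y => (c y : ℂ))).re - 1) +
        (9 / 2) * s ^ 2 := by
  have hs0 : 0 ≤ s := (abs_nonneg _).trans (hcc x)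
  set u : V → ℝ := fun y => (Real.log (c' y) - Real.log (c y)) / s with hu
  have hu1 : ∀ y, |u y| ≤ 1 := fun y => by
    rw [hu]; simp only
    rw [abs_div, abs_of_nonneg hs0]
    exact div_le_one_of_le₀ (hcc y) hs0
  set p : ℂ → V → ℂ := fun ζ y => (c y : ℂ) * exp (ζ * u y) with hp
  set F : ℂ → ℂ := fun ζ => ZW l a b N (p ζ) / WW l a b N x (p ζ) with hF
  have hpre : ∀ ζ y, (p ζ y).re = c y * Real.exp (ζ.re * u y) * Real.cos (ζ.im * u y) := by
    intro ζ y
    simp only [hp, mul_re, exp_re, exp_im, ofReal_re, ofReal_im, mul_im, mul_zero, sub_zero,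
      zero_mul, zero_add]
    ring
  have hpim : ∀ ζ y, (p ζ y).im = c y * Real.exp (ζ.re * u y) * Real.sin (ζ.im * u y) := by
    intro ζ y
    simp only [hp, mul_re, exp_re, exp_im, ofReal_re, ofReal_im, mul_im, mul_zero, sub_zero,
      zero_mul, zero_add, add_zero]
    ring
  have hpi := Real.pi_pos
  have key : ∀ ζ : ℂ, |ζ.im| < Real.pi / 2 → ∀ g : ℝ, |g| < Real.pi / 2 - |ζ.im| →
      ∀ y, |(p ζ y).im| * |Real.sin g| < (p ζ y).re * Real.cos g := by
    intro ζ hζ g hg y
    rw [hpre, hpim, abs_mul, abs_of_pos (mul_pos (hc y) (Real.exp_pos _))]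
    have h1 : |ζ.im * u y| ≤ |ζ.im| := by
      rw [abs_mul]
      calc |ζ.im| * |u y| ≤ |ζ.im| * 1 := mul_le_mul_of_nonneg_left (hu1 y) (abs_nonneg _)
        _ = _ := mul_one _
    have h2 : |Real.sin (ζ.im * u y)| * |Real.sin g| <
        Real.cos (ζ.im * u y) * Real.cos g := by
      have e1 : |Real.sin (ζ.im * u y)| = Real.sin |ζ.im * u y| :=
        Real.abs_sin_eq_sin_abs_of_abs_le_pi (by linarith)
      have e2 : |Real.sin g| = Real.sin |g| :=
        Real.abs_sin_eq_sin_abs_of_abs_le_pi (by have := abs_nonneg ζ.im; linarith)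
      rw [e1, e2, ← Real.cos_abs (ζ.im * u y), ← Real.cos_abs g]
      have h3 : 0 < Real.cos (|ζ.im * u y| + |g|) :=
        Real.cos_pos_of_mem_Ioo ⟨by
          have := abs_nonneg g; have := abs_nonneg (ζ.im * u y); linarith, by linarith⟩
      rw [Real.cos_add] at h3
      linarith
    calc c y * Real.exp (ζ.re * u y) * |Real.sin (ζ.im * u y)| * |Real.sin g|
        = (c y * Real.exp (ζ.re * u y)) * (|Real.sin (ζ.im * u y)| * |Real.sin g|) := by ring
      _ < (c y * Real.exp (ζ.re * u y)) * (Real.cos (ζ.im * u y) * Real.cos g) :=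
          mul_lt_mul_of_pos_left h2 (mul_pos (hc y) (Real.exp_pos _))
      _ = _ := by ring
  have hp0 : ∀ ζ : ℂ, |ζ.im| < Real.pi / 2 → ∀ y, 0 < (p ζ y).re := fun ζ hζ y => by
    have := key ζ hζ 0 (by rw [abs_zero]; linarith) y
    simpa using this
  have hpd : ∀ y, Differentiable ℂ fun ζ => p ζ y := fun y => by
    simp only [hp]
    fun_prop
  have hFd : DifferentiableOn ℂ F {z | |z.im| < Real.pi / 2} := by
    refine DifferentiableOn.div ?_ ?_ fun z hz => WW_ne_zero l ha hb hab hN x (hp0 z hz)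
    · exact (((MD.step l a b hpd).pow N).trace).differentiableOn
    · exact (((MD.const _).mul ((MD.step l a b hpd).pow N)).trace).differentiableOn
  have hFre : ∀ z : ℂ, |z.im| < Real.pi / 2 → Real.cos z.im ≤ (F z).re := fun z hz => by
    rw [← Real.cos_abs]
    exact re_ZW_div ha hb hab hN x (abs_nonneg _) hz (key z hz)
  have hp_real : ∀ (t : ℝ) y, (p t y).im = 0 := fun t y => by
    rw [hpim]; simp
  have hFim : ∀ t : ℝ, (F t).im = 0 := fun t => by
    simp only [hF]
    have h1 := ZW_im (l := l) (a := a) (b := b) (N := N) (hp_real t)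
    have h2 := WW_im (l := l) (a := a) (b := b) (N := N) (x := x) (hp_real t)
    rw [div_im, h1, h2]; simp
  have h := harnack_strip F hFd hFre 0 s (hFim 0) (hFim s)
    (by rw [sub_zero, abs_of_nonneg hs0]; exact hs)
  have e0 : p ((0 : ℝ) : ℂ) = fun y => (c y : ℂ) := by
    funext y; simp [hp]
  have e1 : p ((s : ℝ) : ℂ) = fun y => (c' y : ℂ) := by
    funext y
    have h1 : s * u y = Real.log (c' y) - Real.log (c y) := by
      rcases eq_or_ne s 0 with h0 | h0
      · have := hcc y
        rw [h0] at this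
        have := abs_nonpos_iff.mp this
        rw [h0, this, zero_mul]
      · rw [hu]; simp only; field_simp
    have h2 : c' y = c y * Real.exp (s * u y) := by
      rw [h1, Real.exp_sub, Real.exp_log (hc' y), Real.exp_log (hc y)]
      field_simp [(hc y).ne']
    simp only [hp]
    rw [h2]; push_cast; rfl
  simp only [hF] at h
  rw [e0, e1, sub_zero] at h
  exact h

end

end Vale.Agent.P361.LRO
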