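import Vale.Agent.P361.LRO.Fin.Main
import Vale.Agent.P361.LRO.Top.Boot
import Vale.Agent.P361.LRO.Top.Start
import Vale.Agent.P361.LRO.Top.Trans
import Vale.Agent.P361.LRO.Energy.Final
import Vale.Agent.P361.LRO.LY.Reg
import Vale.Agent.P361.LRO.Tw.Final
import Vale.Agent.P361.LRO.Net.KappaOf
import Vale.Agent.P361.LRO.Ind.Final

/-!
P361, low-temperature order: the final assembly.
-/

namespace Vale.Agent.P361.LRO

/-- The output of the bootstrap. -/
theorem bootStmt : BootStmt :=
  bootStmt_ofP (Net.kappaStmt_of_block6 Ind.block6) pTwist energyStmt LY.regStmt startStmt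
    transStmt

/-- **Low temperature order of the three-dimensional quantum Heisenberg ferromagnet, spin 1/2.** -/
theorem final : ∃ β0 : ℝ, 0 < β0 ∧ ∀ β : ℝ, β0 ≤ β →
    1 / 2 - β ^ (-(1 / 100) : ℝ) ≤ Model.spontMag 1 β :=
  main_of_boot bootStmt

end Vale.Agent.P361.LRO
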