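import Mathlib

/-!
Two variable gate lemma (partial swap preserves non-vanishing on the product of upper half planes).
-/

namespace Vale.Agent.P361.LRO

private lemma gt_real_pos {x y m n t : ℝ} (hy : 0 < y) (hn : 0 ≤ n) (h0 : 0 ≤ t) (h1 : t ≤ 1) :
    0 < y * ((1 - t) * (x ^ 2 + y ^ 2) + t + (m ^ 2 + n ^ 2) * (t * (x ^ 2 + y ^ 2) + (1 - t))
        + 2 * (1 - 2 * t) * m * x)
      + n * ((x ^ 2 + y ^ 2) + t * (1 - t) * ((x ^ 2 + y ^ 2) ^ 2 + 1)
        - (x ^ 2 - y ^ 2) * (1 - 2 * t * (1 - t))) := by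
  have hy2 : 0 < y ^ 2 := by positivity
  have hx2 : 0 ≤ x ^ 2 := sq_nonneg x
  set N : ℝ := x ^ 2 + y ^ 2 with hN
  have hNpos : 0 < N := by positivity
  have hxN : x ^ 2 < N := by rw [hN]; linarith
  have hs : 0 ≤ 1 - t := by linarith
  have htt : 0 ≤ t * (1 - t) := mul_nonneg h0 hs
  have hQ : 0 < t * N + (1 - t) := by
    rcases eq_or_lt_of_le h0 with h | h
    · rw [← h]; norm_num
    · have := mul_pos h hNpos
      linarith
  have hPQ : N ≤ ((1 - t) * N + t) * (t * N + (1 - t)) := by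
    have : ((1 - t) * N + t) * (t * N + (1 - t)) = N + t * (1 - t) * (N - 1) ^ 2 := by ring
    rw [this]
    have := mul_nonneg htt (sq_nonneg (N - 1))
    linarith
  have hd : (1 - 2 * t) ^ 2 * x ^ 2 ≤ x ^ 2 := by
    have : (1 - 2 * t) ^ 2 ≤ 1 := by nlinarith
    nlinarith
  have hA : 0 < (1 - t) * N + t + m ^ 2 * (t * N + (1 - t)) + 2 * (1 - 2 * t) * m * x := by
    have hmul : 0 < (t * N + (1 - t)) * ((1 - t) * N + t + m ^ 2 * (t * N + (1 - t))
        + 2 * (1 - 2 * t) * m * x) := by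
      have : (t * N + (1 - t)) * ((1 - t) * N + t + m ^ 2 * (t * N + (1 - t))
        + 2 * (1 - 2 * t) * m * x) = ((t * N + (1 - t)) * m + (1 - 2 * t) * x) ^ 2
          + (((1 - t) * N + t) * (t * N + (1 - t)) - (1 - 2 * t) ^ 2 * x ^ 2) := by ring
      rw [this]
      have := sq_nonneg ((t * N + (1 - t)) * m + (1 - 2 * t) * x)
      linarith
    exact (pos_iff_pos_of_mul_pos hmul).1 hQ
  have hB : 0 ≤ N + t * (1 - t) * (N ^ 2 + 1) - (x ^ 2 - y ^ 2) * (1 - 2 * t * (1 - t)) := by
    have : N + t * (1 - t) * (N ^ 2 + 1) - (x ^ 2 - y ^ 2) * (1 - 2 * t * (1 - t))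
        = 2 * y ^ 2 + t * (1 - t) * ((N - 1) ^ 2 + 4 * x ^ 2) := by
      rw [hN]; ring
    rw [this]
    have : 0 ≤ (N - 1) ^ 2 + 4 * x ^ 2 := by positivity
    have := mul_nonneg htt this
    linarith
  have hn2 : 0 ≤ n ^ 2 * (t * N + (1 - t)) := mul_nonneg (sq_nonneg n) hQ.le
  have h3 : 0 < y * ((1 - t) * N + t + (m ^ 2 + n ^ 2) * (t * N + (1 - t))
        + 2 * (1 - 2 * t) * m * x) := by
    apply mul_pos hy
    nlinarith
  have h4 := mul_nonneg hn hB
  linarith

private lemma gt_key {z w : ℂ} (hz : 0 < z.im) (hzw : z * w = -1) {t : ℝ} (h0 : 0 ≤ t)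
    (h1 : t ≤ 1) {α : ℂ} (hα : 0 ≤ α.im) :
    0 < ((((1 - t : ℂ) * z + t * w) + α)
      * (starRingEnd ℂ) (1 + α * (-(t * z + (1 - t) * w)))).im := by
  obtain ⟨x, y⟩ := z
  obtain ⟨m, n⟩ := α
  simp only at hz hα
  have hN : 0 < x ^ 2 + y ^ 2 := by positivity
  have hw : w = ⟨-x / (x ^ 2 + y ^ 2), y / (x ^ 2 + y ^ 2)⟩ := by
    have hz0 : (⟨x, y⟩ : ℂ) ≠ 0 := by
      intro h
      have := congrArg Complex.im h
      simp at this
      linarith
    apply mul_left_cancel₀ hz0
    rw [hzw]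
    apply Complex.ext
    · simp only [Complex.neg_re, Complex.one_re, Complex.mul_re]
      field_simp
      ring
    · simp only [Complex.neg_im, Complex.one_im, Complex.mul_im]
      field_simp
      ring
  rw [hw]
  have h := gt_real_pos (x := x) (m := m) hz hα h0 h1
  have e : ((((1 - t : ℂ) * ⟨x, y⟩ + t * ⟨-x / (x ^ 2 + y ^ 2), y / (x ^ 2 + y ^ 2)⟩)
      + (⟨m, n⟩ : ℂ))
      * (starRingEnd ℂ) (1 + (⟨m, n⟩ : ℂ) * (-(t * ⟨x, y⟩
        + (1 - t) * ⟨-x / (x ^ 2 + y ^ 2), y / (x ^ 2 + y ^ 2)⟩)))).im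
      = (y * ((1 - t) * (x ^ 2 + y ^ 2) + t + (m ^ 2 + n ^ 2) * (t * (x ^ 2 + y ^ 2) + (1 - t))
        + 2 * (1 - 2 * t) * m * x)
      + n * ((x ^ 2 + y ^ 2) + t * (1 - t) * ((x ^ 2 + y ^ 2) ^ 2 + 1)
        - (x ^ 2 - y ^ 2) * (1 - 2 * t * (1 - t)))) / (x ^ 2 + y ^ 2) := by
    simp only [Complex.mul_im, Complex.add_re, Complex.add_im, Complex.mul_re, Complex.sub_re,
      Complex.sub_im, Complex.one_re, Complex.one_im, Complex.ofReal_re, Complex.ofReal_im,
      Complex.conj_re, Complex.conj_im, Complex.neg_re, Complex.neg_im]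
    field_simp
    ring
  rw [e]
  exact div_pos h hN

/-- Normal form: `w = -1/z`. -/
private lemma gt_normal {a b c d : ℂ}
    (hf : ∀ z w : ℂ, 0 < z.im → 0 < w.im → a + b * z + c * w + d * (z * w) ≠ 0)
    {t : ℝ} (h0 : 0 ≤ t) (h1 : t ≤ 1) {z w : ℂ} (hz : 0 < z.im) (hw : 0 < w.im)
    (hzw : z * w = -1) :
    (1 - t : ℂ) * (a + b * z + c * w + d * (z * w))
      + t * (a + b * w + c * z + d * (z * w)) ≠ 0 := by
  intro h
  have hz0 : z ≠ 0 := by
    rintro rfl; simp at hz
  have key := fun {α : ℂ} (hα : 0 ≤ α.im) => gt_key hz hzw h0 h1 hα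
  set u : ℂ := (1 - t) * z + t * w with hu
  set v : ℂ := -(t * z + (1 - t) * w) with hv
  have hE : (a - d) + b * u - c * v = 0 := by
    rw [hu, hv]
    rw [hzw] at h
    linear_combination h
  have hvim : v.im < 0 := by
    rw [hv]
    simp only [Complex.neg_im, Complex.add_im, Complex.mul_im, Complex.sub_re, Complex.sub_im,
      Complex.one_re, Complex.one_im, Complex.ofReal_re, Complex.ofReal_im]
    rcases eq_or_lt_of_le h0 with h' | h'
    · rw [← h']; simp only [zero_mul, sub_zero, one_mul, zero_add, sub_self, add_zero]; linarith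
    · have h3 := mul_pos h' hz
      have h4 := mul_nonneg (sub_nonneg.2 h1) hw.le
      nlinarith
  have hQ : ∀ ζ : ℂ, 0 < ζ.im → b * ζ ^ 2 + (a - d) * ζ - c ≠ 0 := by
    intro ζ hζ hq
    have hζ0 : ζ ≠ 0 := by rintro rfl; simp at hζ
    have him : 0 < (-ζ⁻¹).im := by
      rw [Complex.neg_im, Complex.inv_im]
      have : 0 < Complex.normSq ζ := Complex.normSq_pos.2 hζ0
      rw [neg_div, neg_neg]
      positivity
    apply hf ζ (-ζ⁻¹) hζ him
    field_simp
    linear_combination hq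
  by_cases hb : b = 0
  · subst hb
    by_cases hc : c = 0
    · subst hc
      have had : a - d = 0 := by linear_combination hE
      exact hQ Complex.I (by simp) (by rw [had]; ring)
    · have hv0 : v ≠ 0 := by
        intro hv0; rw [hv0] at hvim; simp at hvim
      have him : 0 < (v⁻¹).im := by
        rw [Complex.inv_im]
        have : 0 < Complex.normSq v := Complex.normSq_pos.2 hv0
        apply div_pos _ this
        linarith
      apply hQ v⁻¹ him
      have h5 : a - d = c * v := by linear_combination hE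
      rw [h5, mul_assoc, mul_inv_cancel₀ hv0]
      ring
  · obtain ⟨α, hα⟩ : ∃ α : ℂ, b * α ^ 2 + (a - d) * α - c = 0 := by
      obtain ⟨s, hs⟩ := IsAlgClosed.exists_eq_mul_self ((a - d) ^ 2 + 4 * b * c)
      refine ⟨(-(a - d) + s) / (2 * b), ?_⟩
      have h2b : (2 * b) ≠ 0 := mul_ne_zero two_ne_zero hb
      have h6 : (2 * b) * ((-(a - d) + s) / (2 * b)) = -(a - d) + s := by
        field_simp
      set α := (-(a - d) + s) / (2 * b)
      have h7 : (4 * b) * (b * α ^ 2 + (a - d) * α - c) = 0 := by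
        linear_combination (2 * b * α + (-(a - d) + s) + 2 * (a - d)) * h6 - hs
      exact (mul_eq_zero.1 h7).resolve_left (mul_ne_zero (by norm_num) hb)
    set β : ℂ := -(a - d) / b - α with hβ
    have hbb : b * β = -(a - d) - b * α := by
      rw [hβ]; field_simp
    have hβ0 : b * β ^ 2 + (a - d) * β - c = 0 := by
      have h7 : b * (b * β ^ 2 + (a - d) * β - c) = 0 := by
        linear_combination (b * β + (-(a - d) - b * α) + (a - d)) * hbb + b * hα
      exact (mul_eq_zero.1 h7).resolve_left hb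
    have hprod : b * (α * β) = -c := by
      linear_combination α * hbb - hα
    have hsum : b * (α + β) = -(a - d) := by
      linear_combination hbb
    have hαi : α.im ≤ 0 := not_lt.1 fun hh => hQ α hh hα
    have hβi : β.im ≤ 0 := not_lt.1 fun hh => hQ β hh hβ0
    have hrel : u + -α = β * (1 + -α * v) := by
      apply mul_left_cancel₀ hb
      linear_combination hE - hsum + v * hprod
    have hk := key (α := -α) (by simpa using hαi)
    rw [hrel, mul_assoc, Complex.mul_conj] at hk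
    simp only [Complex.mul_im, Complex.ofReal_im, Complex.ofReal_re, mul_zero, zero_add] at hk
    have := Complex.normSq_nonneg (1 + -α * v)
    nlinarith

/-- Partial swap keeps non-vanishing on the product of two upper half planes. -/
theorem gateTwo_ne_zero {a b c d : ℂ}
    (hf : ∀ z w : ℂ, 0 < z.im → 0 < w.im → a + b * z + c * w + d * (z * w) ≠ 0)
    {t : ℝ} (h0 : 0 ≤ t) (h1 : t ≤ 1) {z w : ℂ} (hz : 0 < z.im) (hw : 0 < w.im) :
    (1 - t : ℂ) * (a + b * z + c * w + d * (z * w))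
      + t * (a + b * w + c * z + d * (z * w)) ≠ 0 := by
  -- translation `ρ` and scaling `lam` with `((z - ρ)/lam) * ((w - ρ)/lam) = -1`
  set ρ : ℝ := (z.re * w.im + z.im * w.re) / (z.im + w.im) with hρ
  have hsum : 0 < z.im + w.im := by linarith
  have him : ((z - ρ) * (w - ρ)).im = 0 := by
    simp only [Complex.mul_im, Complex.sub_re, Complex.sub_im, Complex.ofReal_re, Complex.ofReal_im]
    rw [hρ]; field_simp; ring
  have hre : ((z - ρ) * (w - ρ)).re < 0 := by
    have h2 : (z.re - ρ) * w.im + z.im * (w.re - ρ) = 0 := by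
      rw [hρ]; field_simp; ring
    simp only [Complex.mul_re, Complex.sub_re, Complex.sub_im, Complex.ofReal_re, Complex.ofReal_im,
      sub_zero]
    have h3 : z.im * ((z.re - ρ) * (w.re - ρ)) = -(z.re - ρ) ^ 2 * w.im := by
      linear_combination (z.re - ρ) * h2
    have h4 : (z.re - ρ) * (w.re - ρ) ≤ 0 := by
      by_contra hcon
      push Not at hcon
      have h5 := mul_pos hz hcon
      have h6 : 0 ≤ (z.re - ρ) ^ 2 * w.im := mul_nonneg (sq_nonneg _) hw.le
      linarith
    have h7 := mul_pos hz hw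
    linarith
  set κ : ℝ := -((z - ρ) * (w - ρ)).re with hκ
  have hκ0 : 0 < κ := by rw [hκ]; linarith
  have hprod : (z - ρ) * (w - ρ) = -(κ : ℂ) := by
    apply Complex.ext
    · rw [hκ]; simp
    · rw [him]; simp
  set lam : ℝ := Real.sqrt κ with hlam
  have hlam0 : 0 < lam := Real.sqrt_pos.2 hκ0
  have hlamC : (lam : ℂ) ≠ 0 := by exact_mod_cast hlam0.ne'
  have hlam2 : (lam : ℂ) * lam = κ := by
    rw [← Complex.ofReal_mul, hlam, Real.mul_self_sqrt hκ0.le]
  set z' : ℂ := (z - ρ) / lam with hz'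
  set w' : ℂ := (w - ρ) / lam with hw'
  have ez : z = ρ + lam * z' := by rw [hz']; field_simp; ring
  have ew : w = ρ + lam * w' := by rw [hw']; field_simp; ring
  have hz'i : 0 < z'.im := by
    rw [hz', Complex.div_ofReal_im]; simp; positivity
  have hw'i : 0 < w'.im := by
    rw [hw', Complex.div_ofReal_im]; simp; positivity
  have hzw : z' * w' = -1 := by
    rw [hz', hw', div_mul_div_comm, hprod, hlam2, neg_div, div_self]
    exact_mod_cast hκ0.ne'
  have hf' : ∀ p q : ℂ, 0 < p.im → 0 < q.im →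
      (a + (b + c) * ρ + d * ρ ^ 2) + (lam * (b + d * ρ)) * p + (lam * (c + d * ρ)) * q
        + (lam ^ 2 * d) * (p * q) ≠ 0 := by
    intro p q hp hq
    have hp' : 0 < ((ρ : ℂ) + lam * p).im := by simp; positivity
    have hq' : 0 < ((ρ : ℂ) + lam * q).im := by simp; positivity
    have := hf _ _ hp' hq'
    intro h
    apply this
    linear_combination h
  have := gt_normal hf' h0 h1 hz'i hw'i hzw
  intro h
  apply this
  rw [ez, ew] at h
  linear_combination h

end Vale.Agent.P361.LRO
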