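import Mathlib

/-!
# Network ODE (note 9886, step (3)): abstract form

`c s x y` is a time dependent symmetric family of conductances on a finite set.  If the
derivative of the quadratic form is bounded below by the one-node inequality, then the
capacity between two electrodes loses at most the factor `exp (-4 ε s*)` and an additive
`2 ε B exp (-s*)`.
-/

namespace P361.LRO

open Finset Set Filter Topology

variable {V : Type*} [Fintype V] [DecidableEq V]

/-- Dirichlet form of the (symmetric) weight `c`. -/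
noncomputable def netK (c : V → V → ℝ) (a : V → ℝ) : ℝ :=
  (1 / 2) * ∑ x, ∑ y, c x y * (a x - a y) ^ 2

/-- `(K a)_z`. -/
noncomputable def netQ (c : V → V → ℝ) (a : V → ℝ) (z : V) : ℝ :=
  ∑ x, c z x * (a z - a x)

/-- The star energy of the node `z`. -/
noncomputable def netStar (c : V → V → ℝ) (a : V → ℝ) (z : V) : ℝ :=
  ∑ x, c z x * (a x - a z) ^ 2

/-- Total conductance of the node `z`. -/
noncomputable def netV (c : V → V → ℝ) (z : V) : ℝ := ∑ x, c z x

/-- Admissible potentials. -/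
def netAdm (E G : Set V) : Set (V → ℝ) :=
  {u | (∀ x, 0 ≤ u x ∧ u x ≤ 1) ∧ (∀ x ∈ E, u x = 1) ∧ (∀ x ∈ G, u x = 0)}

/-- Capacity between the electrodes `E` (potential one) and `G` (potential zero). -/
noncomputable def netCap (c : V → V → ℝ) (E G : Set V) : ℝ :=
  sInf (netK c '' netAdm E G)

omit [DecidableEq V] in
theorem netK_nonneg {c : V → V → ℝ} (hc : ∀ x y, 0 ≤ c x y) (a : V → ℝ) : 0 ≤ netK c a := by
  unfold netK
  have : 0 ≤ ∑ x, ∑ y, c x y * (a x - a y) ^ 2 :=
    Finset.sum_nonneg fun x _ => Finset.sum_nonneg fun y _ => mul_nonneg (hc x y) (sq_nonneg _)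
  linarith

omit [DecidableEq V] in
theorem netStar_nonneg {c : V → V → ℝ} (hc : ∀ x y, 0 ≤ c x y) (a : V → ℝ) (z : V) :
    0 ≤ netStar c a z :=
  Finset.sum_nonneg fun x _ => mul_nonneg (hc z x) (sq_nonneg _)

omit [DecidableEq V] in
theorem sum_netStar (c : V → V → ℝ) (a : V → ℝ) : ∑ z, netStar c a z = 2 * netK c a := by
  unfold netStar netK
  have : ∀ z x : V, c z x * (a x - a z) ^ 2 = c z x * (a z - a x) ^ 2 := fun z x => by ring
  simp only [this]
  ring

omit [DecidableEq V] in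
theorem netStar_le_netV {c : V → V → ℝ} (hc : ∀ x y, 0 ≤ c x y) {a : V → ℝ}
    (ha : ∀ x, 0 ≤ a x ∧ a x ≤ 1) (z : V) : netStar c a z ≤ netV c z := by
  unfold netStar netV
  refine Finset.sum_le_sum fun x _ => ?_
  have h1 : (a x - a z) ^ 2 ≤ 1 := by
    have hx := ha x; have hz := ha z
    nlinarith [hx.1, hx.2, hz.1, hz.2]
  calc c z x * (a x - a z) ^ 2 ≤ c z x * 1 := mul_le_mul_of_nonneg_left h1 (hc z x)
    _ = c z x := mul_one _

omit [DecidableEq V] in
theorem netK_sub_abs_le (c d : V → V → ℝ) {a : V → ℝ} (ha : ∀ x, 0 ≤ a x ∧ a x ≤ 1) :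
    |netK c a - netK d a| ≤ ∑ x, ∑ y, |c x y - d x y| := by
  have h : netK c a - netK d a = (1 / 2) * ∑ x, ∑ y, (c x y - d x y) * (a x - a y) ^ 2 := by
    unfold netK
    rw [← mul_sub, ← Finset.sum_sub_distrib]
    congr 1
    refine Finset.sum_congr rfl fun x _ => ?_
    rw [← Finset.sum_sub_distrib]
    exact Finset.sum_congr rfl fun y _ => by ring
  rw [h, abs_mul]
  have h2 : |∑ x, ∑ y, (c x y - d x y) * (a x - a y) ^ 2| ≤ ∑ x, ∑ y, |c x y - d x y| := by
    refine (Finset.abs_sum_le_sum_abs _ _).trans (Finset.sum_le_sum fun x _ => ?_)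
    refine (Finset.abs_sum_le_sum_abs _ _).trans (Finset.sum_le_sum fun y _ => ?_)
    rw [abs_mul]
    have h1 : |(a x - a y) ^ 2| ≤ 1 := by
      rw [abs_of_nonneg (sq_nonneg _)]
      have hx := ha x; have hz := ha y
      nlinarith [hx.1, hx.2, hz.1, hz.2]
    calc |c x y - d x y| * |(a x - a y) ^ 2| ≤ |c x y - d x y| * 1 :=
          mul_le_mul_of_nonneg_left h1 (abs_nonneg _)
      _ = _ := mul_one _
  have h3 : |(1 / 2 : ℝ)| = 1 / 2 := abs_of_pos (by norm_num)
  rw [h3]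
  have h4 : 0 ≤ ∑ x, ∑ y, |c x y - d x y| :=
    Finset.sum_nonneg fun x _ => Finset.sum_nonneg fun y _ => abs_nonneg _
  linarith

omit [DecidableEq V] in
theorem netQ_sub_abs_le (c d : V → V → ℝ) {a : V → ℝ} (ha : ∀ x, 0 ≤ a x ∧ a x ≤ 1) (z : V) :
    |netQ c a z - netQ d a z| ≤ ∑ x, ∑ y, |c x y - d x y| := by
  have h : netQ c a z - netQ d a z = ∑ x, (c z x - d z x) * (a z - a x) := by
    unfold netQ
    rw [← Finset.sum_sub_distrib]
    exact Finset.sum_congr rfl fun x _ => by ring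
  rw [h]
  have h2 : |∑ x, (c z x - d z x) * (a z - a x)| ≤ ∑ x, |c z x - d z x| := by
    refine (Finset.abs_sum_le_sum_abs _ _).trans (Finset.sum_le_sum fun x _ => ?_)
    rw [abs_mul]
    have h1 : |a z - a x| ≤ 1 := by
      have hx := ha x; have hz := ha z
      rw [abs_le]; constructor <;> linarith [hx.1, hx.2, hz.1, hz.2]
    calc |c z x - d z x| * |a z - a x| ≤ |c z x - d z x| * 1 :=
          mul_le_mul_of_nonneg_left h1 (abs_nonneg _)
      _ = _ := mul_one _
  refine h2.trans ?_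
  exact Finset.single_le_sum (f := fun x => ∑ y, |c x y - d x y|)
    (fun x _ => Finset.sum_nonneg fun y _ => abs_nonneg _) (Finset.mem_univ z)

omit [DecidableEq V] in
theorem continuous_netK (c : V → V → ℝ) : Continuous (netK c) := by
  unfold netK
  fun_prop

omit [Fintype V] [DecidableEq V] in
theorem isCompact_netAdm (E G : Set V) : IsCompact (netAdm E G) := by
  have h : netAdm E G = (Set.pi Set.univ fun _ : V => Set.Icc (0 : ℝ) 1) ∩
      {u | (∀ x ∈ E, u x = 1) ∧ (∀ x ∈ G, u x = 0)} := by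
    ext u
    simp only [netAdm, Set.mem_ofPred_eq, Set.mem_inter_iff, Set.mem_pi, Set.mem_univ,
      forall_true_left, Set.mem_Icc]
  rw [h]
  refine (isCompact_univ_pi fun _ => isCompact_Icc).inter_right ?_
  have h1 : IsClosed {u : V → ℝ | ∀ x ∈ E, u x = 1} := by
    simp only [Set.ofPred_forall]
    exact isClosed_iInter fun x => isClosed_iInter fun _ =>
      isClosed_eq (continuous_apply x) continuous_const
  have h2 : IsClosed {u : V → ℝ | ∀ x ∈ G, u x = 0} := by
    simp only [Set.ofPred_forall]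
    exact isClosed_iInter fun x => isClosed_iInter fun _ =>
      isClosed_eq (continuous_apply x) continuous_const
  exact h1.inter h2

omit [Fintype V] [DecidableEq V] in
theorem nonempty_netAdm {E G : Set V} (hEG : Disjoint E G) : (netAdm E G).Nonempty := by
  classical
  refine ⟨fun x => if x ∈ E then 1 else 0, ?_, ?_, ?_⟩
  · intro x
    by_cases hx : x ∈ E <;> simp [hx]
  · intro x hx; simp [hx]
  · intro x hx
    have : x ∉ E := fun h => (Set.disjoint_left.mp hEG h) hx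
    simp [this]

omit [DecidableEq V] in
theorem exists_min (c : V → V → ℝ) {E G : Set V} (hEG : Disjoint E G) :
    ∃ u ∈ netAdm E G, netK c u = netCap c E G ∧ ∀ w ∈ netAdm E G, netK c u ≤ netK c w := by
  obtain ⟨u, hu, hmin⟩ := (isCompact_netAdm E G).exists_isMinOn (nonempty_netAdm hEG)
    (continuous_netK c).continuousOn
  have hm : ∀ w ∈ netAdm E G, netK c u ≤ netK c w := fun w hw => hmin hw
  refine ⟨u, hu, ?_, hm⟩
  unfold netCap
  refine le_antisymm ?_ ?_
  · refine le_csInf ⟨_, Set.mem_image_of_mem _ hu⟩ ?_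
    rintro _ ⟨w, hw, rfl⟩
    exact hm w hw
  · refine csInf_le ⟨netK c u, ?_⟩ (Set.mem_image_of_mem _ hu)
    rintro _ ⟨w, hw, rfl⟩
    exact hm w hw

omit [DecidableEq V] in
theorem netCap_le {c : V → V → ℝ} (hc : ∀ x y, 0 ≤ c x y) {E G : Set V} {w : V → ℝ}
    (hw : w ∈ netAdm E G) : netCap c E G ≤ netK c w := by
  unfold netCap
  refine csInf_le ⟨0, ?_⟩ (Set.mem_image_of_mem _ hw)
  rintro _ ⟨w, _, rfl⟩
  exact netK_nonneg hc w

omit [DecidableEq V] in
theorem netCap_nonneg {c : V → V → ℝ} (hc : ∀ x y, 0 ≤ c x y) {E G : Set V}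
    (hEG : Disjoint E G) : 0 ≤ netCap c E G := by
  obtain ⟨u, _, h, _⟩ := exists_min c hEG
  rw [← h]; exact netK_nonneg hc u

/-- Truncation to `[0,1]`. -/
noncomputable def trunc01 (a : V → ℝ) : V → ℝ := fun x => max 0 (min 1 (a x))

omit [Fintype V] [DecidableEq V] in
theorem trunc01_lip (s t : ℝ) : (max 0 (min 1 s) - max 0 (min 1 t)) ^ 2 ≤ (s - t) ^ 2 := by
  have h : |max 0 (min 1 s) - max 0 (min 1 t)| ≤ |s - t| := by
    have h1 : |max 0 (min 1 s) - max 0 (min 1 t)| ≤ |min 1 s - min 1 t| := by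
      have := abs_max_sub_max_le_abs (min 1 s) (min 1 t) 0
      simpa [max_comm] using this
    have h2 : |min 1 s - min 1 t| ≤ |s - t| := by
      have := abs_min_sub_min_le_max 1 s 1 t
      simpa using this
    exact h1.trans h2
  exact sq_le_sq.mpr h

omit [DecidableEq V] in
theorem netK_trunc01_le {c : V → V → ℝ} (hc : ∀ x y, 0 ≤ c x y) (a : V → ℝ) :
    netK c (trunc01 a) ≤ netK c a := by
  unfold netK trunc01
  have : ∑ x, ∑ y, c x y * (max 0 (min 1 (a x)) - max 0 (min 1 (a y))) ^ 2 ≤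
      ∑ x, ∑ y, c x y * (a x - a y) ^ 2 :=
    Finset.sum_le_sum fun x _ => Finset.sum_le_sum fun y _ =>
      mul_le_mul_of_nonneg_left (trunc01_lip _ _) (hc x y)
  linarith

omit [Fintype V] [DecidableEq V] in
theorem trunc01_mem {E G : Set V} {a : V → ℝ} (hE : ∀ x ∈ E, a x = 1) (hG : ∀ x ∈ G, a x = 0) :
    trunc01 a ∈ netAdm E G := by
  refine ⟨fun x => ⟨le_max_left _ _, ?_⟩, fun x hx => ?_, fun x hx => ?_⟩
  · exact max_le (by norm_num) (min_le_left _ _)
  · simp [trunc01, hE x hx]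
  · simp [trunc01, hG x hx]

omit [DecidableEq V] in
/-- the capacity is a lower bound without the restriction to `[0,1]`. -/
theorem netCap_le' {c : V → V → ℝ} (hc : ∀ x y, 0 ≤ c x y) {E G : Set V} {w : V → ℝ}
    (hE : ∀ x ∈ E, w x = 1) (hG : ∀ x ∈ G, w x = 0) : netCap c E G ≤ netK c w :=
  (netCap_le hc (trunc01_mem hE hG)).trans (netK_trunc01_le hc w)

theorem netK_add_single {c : V → V → ℝ} (hsymm : ∀ x y, c x y = c y x) (a : V → ℝ) (z : V)
    (t : ℝ) :
    netK c (a + Pi.single z t) = netK c a + 2 * t * netQ c a z + t ^ 2 * netK c (Pi.single z 1) := by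
  have hexp : netK c (a + Pi.single z t) = netK c a
      + t * ∑ x, ∑ y, c x y * ((a x - a y) * ((Pi.single z (1:ℝ) : V → ℝ) x - (Pi.single z (1:ℝ) : V → ℝ) y))
      + t ^ 2 * netK c (Pi.single z 1) := by
    unfold netK
    have hs : ∀ x, (a + (Pi.single z t : V → ℝ)) x = a x + t * (Pi.single z (1:ℝ) : V → ℝ) x := by
      intro x
      by_cases hx : x = z
      · subst hx; simp
      · simp [Pi.single_eq_of_ne hx]
    simp only [hs, Finset.mul_sum, ← Finset.sum_add_distrib]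
    refine Finset.sum_congr rfl fun x _ => Finset.sum_congr rfl fun y _ => ?_
    ring
  have hlin : ∑ x, ∑ y, c x y * ((a x - a y) * ((Pi.single z (1:ℝ) : V → ℝ) x - (Pi.single z (1:ℝ) : V → ℝ) y))
      = 2 * netQ c a z := by
    have h1 : ∑ x, ∑ y, c x y * ((a x - a y) * ((Pi.single z (1:ℝ) : V → ℝ) x - (Pi.single z (1:ℝ) : V → ℝ) y))
        = ∑ x, ∑ y, (Pi.single z (1:ℝ) : V → ℝ) x * (c x y * (a x - a y))
          + ∑ x, ∑ y, (Pi.single z (1:ℝ) : V → ℝ) y * (c x y * (a y - a x)) := by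
      rw [← Finset.sum_add_distrib]
      refine Finset.sum_congr rfl fun x _ => ?_
      rw [← Finset.sum_add_distrib]
      exact Finset.sum_congr rfl fun y _ => by ring
    have h2 : ∑ x, ∑ y, (Pi.single z (1:ℝ) : V → ℝ) x * (c x y * (a x - a y)) = netQ c a z := by
      unfold netQ
      rw [Finset.sum_eq_single z]
      · simp
      · intro x _ hx; simp [Pi.single_eq_of_ne hx]
      · intro h; exact absurd (Finset.mem_univ z) h
    have h3 : ∑ x, ∑ y, (Pi.single z (1:ℝ) : V → ℝ) y * (c x y * (a y - a x)) = netQ c a z := by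
      rw [Finset.sum_comm, ← h2]
      refine Finset.sum_congr rfl fun x _ => Finset.sum_congr rfl fun y _ => ?_
      rw [hsymm y x]
    rw [h1, h2, h3]; ring
  rw [hexp, hlin]; ring

theorem stationary {c : V → V → ℝ} (hc : ∀ x y, 0 ≤ c x y) (hsymm : ∀ x y, c x y = c y x)
    {E G : Set V} {u : V → ℝ} (hu : u ∈ netAdm E G) (hmin : netK c u = netCap c E G)
    {z : V} (hzE : z ∉ E) (hzG : z ∉ G) : netQ c u z = 0 := by
  have h : ∀ t : ℝ, 0 ≤ 2 * t * netQ c u z + t ^ 2 * netK c (Pi.single z 1) := by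
    intro t
    have h1 : netCap c E G ≤ netK c (u + Pi.single z t) := by
      refine netCap_le' hc (fun x hx => ?_) (fun x hx => ?_)
      · have : x ≠ z := fun h => hzE (h ▸ hx)
        simp [Pi.single_eq_of_ne this, hu.2.1 x hx]
      · have : x ≠ z := fun h => hzG (h ▸ hx)
        simp [Pi.single_eq_of_ne this, hu.2.2 x hx]
    rw [netK_add_single hsymm, ← hmin] at h1
    linarith
  set q := netQ c u z
  set k := netK c (Pi.single z 1)
  have hk : 0 ≤ k := netK_nonneg hc _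
  have h2 := h (-q / (k + 1))
  have hk1 : 0 < k + 1 := by linarith
  have h3 : 2 * (-q / (k + 1)) * q + (-q / (k + 1)) ^ 2 * k = - (q ^ 2 * (k + 2)) / (k + 1) ^ 2 := by
    field_simp
    ring
  rw [h3] at h2
  have h4 : 0 < (k + 1) ^ 2 := by positivity
  rw [le_div_iff₀ h4] at h2
  have h5 : q ^ 2 * (k + 2) ≤ 0 := by linarith
  have h6 : q ^ 2 ≤ 0 := by nlinarith [sq_nonneg q]
  exact pow_eq_zero_iff (two_ne_zero) |>.mp (le_antisymm h6 (sq_nonneg q))


/-- `ℓ¹` distance of two weights. -/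
noncomputable def netDist (c d : V → V → ℝ) : ℝ := ∑ x, ∑ y, |c x y - d x y|

omit [DecidableEq V] in
theorem netDist_nonneg (c d : V → V → ℝ) : 0 ≤ netDist c d :=
  Finset.sum_nonneg fun _ _ => Finset.sum_nonneg fun _ _ => abs_nonneg _

omit [DecidableEq V] in
theorem netDist_comm (c d : V → V → ℝ) : netDist c d = netDist d c := by
  unfold netDist
  exact Finset.sum_congr rfl fun x _ => Finset.sum_congr rfl fun y _ => abs_sub_comm _ _

omit [DecidableEq V] in
theorem netCap_sub_le {c d : V → V → ℝ} {E G : Set V} (hd : ∀ x y, 0 ≤ d x y)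
    (hEG : Disjoint E G) : netCap d E G - netCap c E G ≤ netDist d c := by
  obtain ⟨u, hu, huc, _⟩ := exists_min c hEG
  have h1 := netCap_le hd hu
  have h2 := netK_sub_abs_le d c hu.1
  have h3 := (abs_le.mp h2).2
  unfold netDist
  linarith

omit [DecidableEq V] in
theorem netCap_abs_sub_le {c d : V → V → ℝ} {E G : Set V} (hc : ∀ x y, 0 ≤ c x y)
    (hd : ∀ x y, 0 ≤ d x y) (hEG : Disjoint E G) :
    |netCap d E G - netCap c E G| ≤ netDist d c := by
  rw [abs_le]
  have h1 := netCap_sub_le (c := c) (d := d) hd hEG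
  have h2 := netCap_sub_le (c := d) (d := c) hc hEG
  rw [netDist_comm] at h2
  constructor <;> linarith

/-- One step of the Gronwall argument, evaluated at the NEW minimiser. -/
theorem one_step {c0 c1 c' : V → V → ℝ} {E G : Set V} (hEG : Disjoint E G)
    (h0 : ∀ x y, 0 ≤ c0 x y) (h1 : ∀ x y, 0 ≤ c1 x y) (hs1 : ∀ x y, c1 x y = c1 y x)
    {r : V → ℝ} (hr0 : ∀ z, 0 ≤ r z) (hr1 : ∀ z, r z ≤ 1) (hrE : ∀ z ∈ E, r z = 0)
    (hrG : ∀ z ∈ G, r z = 0) {ε : ℝ} (hε : 0 ≤ ε)
    (hbound : ∀ a : V → ℝ, - ∑ z, r z * ((netQ c0 a z) ^ 2 / netV c0 z + 2 * ε * netStar c0 a z)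
      ≤ netK c' a) {δ : ℝ} (hδ : 0 < δ) :
    δ⁻¹ * (netCap c0 E G - netCap c1 E G) ≤
      netDist (fun x y => δ⁻¹ * (c1 x y - c0 x y)) c'
        + (∑ z, (netV c0 z)⁻¹) * (netDist c1 c0) ^ 2
        + 2 * ε * min (2 * (netCap c0 E G + 2 * netDist c1 c0)) (∑ z, r z * netV c0 z) := by
  obtain ⟨u, hu, huc, _⟩ := exists_min c1 hEG
  set Δ := netDist c1 c0 with hΔ
  have hΔ0 : 0 ≤ Δ := netDist_nonneg _ _
  have hstep : netCap c0 E G - netCap c1 E G ≤ netK c0 u - netK c1 u := by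
    have := netCap_le h0 hu
    linarith
  have hlin : δ⁻¹ * (netK c0 u - netK c1 u) = - netK (fun x y => δ⁻¹ * (c1 x y - c0 x y)) u := by
    unfold netK
    have : ∑ x, ∑ y, δ⁻¹ * (c1 x y - c0 x y) * (u x - u y) ^ 2
        = δ⁻¹ * (∑ x, ∑ y, c1 x y * (u x - u y) ^ 2 - ∑ x, ∑ y, c0 x y * (u x - u y) ^ 2) := by
      rw [← Finset.sum_sub_distrib, Finset.mul_sum]
      refine Finset.sum_congr rfl fun x _ => ?_
      rw [← Finset.sum_sub_distrib, Finset.mul_sum]
      exact Finset.sum_congr rfl fun y _ => by ring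
    rw [this]; ring
  have hd := netK_sub_abs_le (fun x y => δ⁻¹ * (c1 x y - c0 x y)) c' hu.1
  have hd' : - netK (fun x y => δ⁻¹ * (c1 x y - c0 x y)) u ≤
      netDist (fun x y => δ⁻¹ * (c1 x y - c0 x y)) c' - netK c' u := by
    have := (abs_le.mp hd).1
    unfold netDist
    linarith
  have hb := hbound u
  have hq : ∀ z, r z * ((netQ c0 u z) ^ 2 / netV c0 z) ≤ (netV c0 z)⁻¹ * Δ ^ 2 := by
    intro z
    have hv : 0 ≤ (netV c0 z)⁻¹ := inv_nonneg.mpr (Finset.sum_nonneg fun x _ => h0 z x)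
    by_cases hz : z ∈ E
    · rw [hrE z hz, zero_mul]; positivity
    by_cases hz' : z ∈ G
    · rw [hrG z hz', zero_mul]; positivity
    have hst := stationary h1 hs1 hu huc hz hz'
    have hq1 := netQ_sub_abs_le c0 c1 hu.1 z
    rw [hst, sub_zero] at hq1
    have hq2 : |netQ c0 u z| ≤ Δ := by
      rw [hΔ, netDist_comm]; exact hq1
    have hq3 : (netQ c0 u z) ^ 2 ≤ Δ ^ 2 := by
      rw [← sq_abs]
      exact pow_le_pow_left₀ (abs_nonneg _) hq2 2
    rw [div_eq_mul_inv]
    calc r z * ((netQ c0 u z) ^ 2 * (netV c0 z)⁻¹)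
        ≤ 1 * ((netQ c0 u z) ^ 2 * (netV c0 z)⁻¹) :=
          mul_le_mul_of_nonneg_right (hr1 z) (mul_nonneg (sq_nonneg _) hv)
      _ = (netV c0 z)⁻¹ * (netQ c0 u z) ^ 2 := by ring
      _ ≤ (netV c0 z)⁻¹ * Δ ^ 2 := mul_le_mul_of_nonneg_left hq3 hv
  have hstar1 : ∑ z, r z * netStar c0 u z ≤ 2 * (netCap c0 E G + 2 * Δ) := by
    have e1 : ∑ z, r z * netStar c0 u z ≤ ∑ z, netStar c0 u z :=
      Finset.sum_le_sum fun z _ => by
        have := mul_le_mul_of_nonneg_right (hr1 z) (netStar_nonneg h0 u z)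
        linarith
    rw [sum_netStar] at e1
    have e2 := (abs_le.mp (netK_sub_abs_le c0 c1 hu.1)).2
    have e3 : ∑ x, ∑ y, |c0 x y - c1 x y| = Δ := by
      rw [hΔ, netDist_comm]; rfl
    have e4 := netCap_sub_le (c := c0) (d := c1) h1 hEG
    rw [e3] at e2
    linarith
  have hstar2 : ∑ z, r z * netStar c0 u z ≤ ∑ z, r z * netV c0 z :=
    Finset.sum_le_sum fun z _ =>
      mul_le_mul_of_nonneg_left (netStar_le_netV h0 hu.1 z) (hr0 z)
  have hsum : ∑ z, r z * ((netQ c0 u z) ^ 2 / netV c0 z + 2 * ε * netStar c0 u z)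
      ≤ (∑ z, (netV c0 z)⁻¹) * Δ ^ 2
        + 2 * ε * min (2 * (netCap c0 E G + 2 * Δ)) (∑ z, r z * netV c0 z) := by
    have e1 : ∑ z, r z * ((netQ c0 u z) ^ 2 / netV c0 z + 2 * ε * netStar c0 u z)
        = ∑ z, r z * ((netQ c0 u z) ^ 2 / netV c0 z) + 2 * ε * ∑ z, r z * netStar c0 u z := by
      rw [Finset.mul_sum, ← Finset.sum_add_distrib]
      exact Finset.sum_congr rfl fun z _ => by ring
    rw [e1]
    have e2 : ∑ z, r z * ((netQ c0 u z) ^ 2 / netV c0 z) ≤ (∑ z, (netV c0 z)⁻¹) * Δ ^ 2 := by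
      rw [Finset.sum_mul]
      exact Finset.sum_le_sum fun z _ => hq z
    have e3 : 2 * ε * ∑ z, r z * netStar c0 u z
        ≤ 2 * ε * min (2 * (netCap c0 E G + 2 * Δ)) (∑ z, r z * netV c0 z) :=
      mul_le_mul_of_nonneg_left (le_min hstar1 hstar2) (by positivity)
    linarith
  calc δ⁻¹ * (netCap c0 E G - netCap c1 E G) ≤ δ⁻¹ * (netK c0 u - netK c1 u) :=
        mul_le_mul_of_nonneg_left hstep (by positivity)
    _ = - netK (fun x y => δ⁻¹ * (c1 x y - c0 x y)) u := hlin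
    _ ≤ _ := by linarith

omit [DecidableEq V] in
theorem tendsto_netDist {c : ℝ → V → V → ℝ} {d : V → V → ℝ} {l : Filter ℝ}
    (h : ∀ x y, Tendsto (fun t => c t x y) l (𝓝 (d x y))) :
    Tendsto (fun t => netDist (c t) d) l (𝓝 0) := by
  unfold netDist
  have : (0 : ℝ) = ∑ x : V, ∑ y : V, (0 : ℝ) := by simp
  rw [this]
  refine tendsto_finsetSum _ fun x _ => tendsto_finsetSum _ fun y _ => ?_
  have h1 : Tendsto (fun t => c t x y - d x y) l (𝓝 (d x y - d x y)) :=
    (h x y).sub tendsto_const_nhds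
  rw [sub_self] at h1
  simpa using h1.abs

/-- The hypotheses of the network ODE. -/
structure NetFlow (c c' : ℝ → V → V → ℝ) (r : ℝ → V → ℝ) (E G : Set V) (ε : ℝ) : Prop where
  disj : Disjoint E G
  nn : ∀ s, 0 ≤ s → ∀ x y, 0 ≤ c s x y
  symm : ∀ s, 0 ≤ s → ∀ x y, c s x y = c s y x
  cont : ∀ x y, ContinuousOn (fun s => c s x y) (Set.Ici 0)
  der : ∀ s, 0 ≤ s → ∀ x y, HasDerivWithinAt (fun t => c t x y) (c' s x y) (Set.Ici s) s
  r0 : ∀ s, 0 ≤ s → ∀ z, 0 ≤ r s z
  r1 : ∀ s, 0 ≤ s → ∀ z, r s z ≤ 1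
  rE : ∀ s, 0 ≤ s → ∀ z ∈ E, r s z = 0
  rG : ∀ s, 0 ≤ s → ∀ z ∈ G, r s z = 0
  eps : 0 ≤ ε
  bound : ∀ s, 0 ≤ s → ∀ a : V → ℝ,
    - ∑ z, r s z * ((netQ (c s) a z) ^ 2 / netV (c s) z + 2 * ε * netStar (c s) a z)
      ≤ netK (c' s) a

theorem NetFlow.dini {c c' : ℝ → V → V → ℝ} {r : ℝ → V → ℝ} {E G : Set V} {ε : ℝ}
    (H : NetFlow c c' r E G ε) {s : ℝ} (hs : 0 ≤ s) {b : ℝ}
    (hb : 2 * ε * min (2 * netCap (c s) E G) (∑ z, r s z * netV (c s) z) < b) :
    ∀ᶠ z in 𝓝[>] s, (z - s)⁻¹ * (netCap (c s) E G - netCap (c z) E G) < b := by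
  have hslope : ∀ x y, Tendsto (fun z => (z - s)⁻¹ * (c z x y - c s x y)) (𝓝[>] s)
      (𝓝 (c' s x y)) := by
    intro x y
    have h := hasDerivWithinAt_iff_tendsto_slope.mp (H.der s hs x y)
    rw [Set.Ici_sdiff_left] at h
    refine h.congr fun z => ?_
    simp [slope_def_field, div_eq_inv_mul]
  have hval : ∀ x y, Tendsto (fun z => c z x y) (𝓝[>] s) (𝓝 (c s x y)) := by
    intro x y
    exact (H.der s hs x y).continuousWithinAt.tendsto.mono_left
      (nhdsWithin_mono _ Set.Ioi_subset_Ici_self)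
  have h1 := tendsto_netDist hslope
  have h2 := tendsto_netDist hval
  have hlim : Tendsto (fun z => netDist (fun x y => (z - s)⁻¹ * (c z x y - c s x y)) (c' s)
        + (∑ w, (netV (c s) w)⁻¹) * (netDist (c z) (c s)) ^ 2
        + 2 * ε * min (2 * (netCap (c s) E G + 2 * netDist (c z) (c s)))
            (∑ w, r s w * netV (c s) w)) (𝓝[>] s)
      (𝓝 (0 + (∑ w, (netV (c s) w)⁻¹) * 0 ^ 2
        + 2 * ε * min (2 * (netCap (c s) E G + 2 * 0)) (∑ w, r s w * netV (c s) w))) := by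
    refine (h1.add ((h2.pow 2).const_mul _)).add (Tendsto.const_mul _ ?_)
    exact Tendsto.min (((h2.const_mul 2).const_add _).const_mul 2) tendsto_const_nhds
  have hlt : 0 + (∑ w, (netV (c s) w)⁻¹) * 0 ^ 2
        + 2 * ε * min (2 * (netCap (c s) E G + 2 * 0)) (∑ w, r s w * netV (c s) w) < b := by
    simpa using hb
  have hev := hlim.eventually (gt_mem_nhds hlt)
  filter_upwards [hev, self_mem_nhdsWithin] with z hz hzs
  have hzs' : (0 : ℝ) < z - s := sub_pos.mpr hzs
  have hz0 : 0 ≤ z := hs.trans (le_of_lt hzs)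
  exact lt_of_le_of_lt (one_step H.disj (H.nn s hs) (H.nn z hz0) (H.symm z hz0) (H.r0 s hs)
    (H.r1 s hs) (H.rE s hs) (H.rG s hs) H.eps (H.bound s hs) hzs') hz

omit [DecidableEq V] in
theorem NetFlow.continuousOn_cap {c c' : ℝ → V → V → ℝ} {r : ℝ → V → ℝ} {E G : Set V} {ε : ℝ}
    (H : NetFlow c c' r E G ε) : ContinuousOn (fun s => netCap (c s) E G) (Set.Ici 0) := by
  intro s hs
  have hval : ∀ x y, Tendsto (fun z => c z x y) (𝓝[Set.Ici 0] s) (𝓝 (c s x y)) :=
    fun x y => H.cont x y s hs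
  have h2 := tendsto_netDist hval
  rw [ContinuousWithinAt, tendsto_iff_dist_tendsto_zero]
  refine squeeze_zero' (Eventually.of_forall fun _ => dist_nonneg) ?_ h2
  filter_upwards [self_mem_nhdsWithin] with z hz
  rw [Real.dist_eq]
  exact netCap_abs_sub_le (H.nn s hs) (H.nn z hz) H.disj

/-- Exponential loss. -/
theorem NetFlow.cap_exp {c c' : ℝ → V → V → ℝ} {r : ℝ → V → ℝ} {E G : Set V} {ε : ℝ}
    (H : NetFlow c c' r E G ε) {T : ℝ} (hT : 0 ≤ T) :
    Real.exp (-(4 * ε * T)) * netCap (c 0) E G ≤ netCap (c T) E G := by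
  have hf : ContinuousOn (fun s => - netCap (c s) E G) (Set.Icc 0 T) :=
    (H.continuousOn_cap.mono Set.Icc_subset_Ici_self).neg
  have key := le_gronwallBound_of_liminf_deriv_right_le (f := fun s => - netCap (c s) E G)
    (f' := fun s => 4 * ε * netCap (c s) E G) (δ := - netCap (c 0) E G) (K := -(4 * ε)) (ε := 0)
    (a := 0) (b := T) hf ?_ le_rfl ?_ T ⟨hT, le_rfl⟩
  · rw [gronwallBound_ε0, sub_zero] at key
    have : -(4 * ε) * T = -(4 * ε * T) := by ring
    rw [this] at key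
    linarith
  · intro s hs b hb
    have hb' : 2 * ε * min (2 * netCap (c s) E G) (∑ z, r s z * netV (c s) z) < b := by
      refine lt_of_le_of_lt ?_ hb
      calc 2 * ε * min (2 * netCap (c s) E G) (∑ z, r s z * netV (c s) z)
          ≤ 2 * ε * (2 * netCap (c s) E G) :=
            mul_le_mul_of_nonneg_left (min_le_left _ _) (by have := H.eps; positivity)
        _ = 4 * ε * netCap (c s) E G := by ring
    have := H.dini hs.1 hb'
    refine Eventually.frequently (this.mono fun z hz => ?_)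
    have e : -netCap (c z) E G - -netCap (c s) E G = netCap (c s) E G - netCap (c z) E G := by ring
    rw [e]; exact hz
  · intro s _
    have : -(4 * ε) * (-netCap (c s) E G) + 0 = 4 * ε * netCap (c s) E G := by ring
    rw [this]

/-- Additive loss. -/
theorem NetFlow.cap_add {c c' : ℝ → V → V → ℝ} {r : ℝ → V → ℝ} {E G : Set V} {ε : ℝ}
    (H : NetFlow c c' r E G ε) {B : ℝ}
    (hB : ∀ s, 0 ≤ s → ∑ z, r s z * netV (c s) z ≤ B * Real.exp (-s)) {S T : ℝ} (hS : 0 ≤ S)
    (hT : S ≤ T) :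
    netCap (c S) E G - 2 * ε * B * (Real.exp (-S) - Real.exp (-T)) ≤ netCap (c T) E G := by
  have hf : ContinuousOn (fun s => - netCap (c s) E G) (Set.Icc S T) :=
    (H.continuousOn_cap.mono fun s hs => hS.trans hs.1).neg
  have key := image_le_of_liminf_slope_right_le_deriv_boundary (f := fun s => - netCap (c s) E G)
    (a := S) (b := T) hf
    (B := fun s => - netCap (c S) E G + 2 * ε * B * (Real.exp (-S) - Real.exp (-s)))
    (B' := fun s => 2 * ε * B * Real.exp (-s)) ?_ ?_ ?_ ?_ (x := T) ⟨hT, le_rfl⟩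
  · linarith
  · simp
  · fun_prop
  · intro s _
    have h1 : HasDerivAt (fun s : ℝ => Real.exp (-s)) (-Real.exp (-s)) s := by
      have := (hasDerivAt_id s).neg.exp
      simpa using this
    have h2 := ((h1.const_sub (Real.exp (-S))).const_mul (2 * ε * B)).const_add
      (- netCap (c S) E G)
    simp only [neg_neg] at h2
    exact h2.hasDerivWithinAt
  · intro s hs b hb
    have hs0 : 0 ≤ s := hS.trans hs.1
    have hb' : 2 * ε * min (2 * netCap (c s) E G) (∑ z, r s z * netV (c s) z) < b := by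
      refine lt_of_le_of_lt ?_ hb
      calc 2 * ε * min (2 * netCap (c s) E G) (∑ z, r s z * netV (c s) z)
          ≤ 2 * ε * (B * Real.exp (-s)) :=
            mul_le_mul_of_nonneg_left ((min_le_right _ _).trans (hB s hs0))
              (by have := H.eps; positivity)
        _ = 2 * ε * B * Real.exp (-s) := by ring
    have := H.dini hs0 hb'
    refine Eventually.frequently (this.mono fun z hz => ?_)
    rw [slope_def_field, div_eq_inv_mul]
    have e : -netCap (c z) E G - -netCap (c s) E G = netCap (c s) E G - netCap (c z) E G := by ring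
    rw [e]; exact hz

/-- **Network ODE, primal form** (note 9886, step (3)). -/
theorem NetFlow.cap_lower {c c' : ℝ → V → V → ℝ} {r : ℝ → V → ℝ} {E G : Set V} {ε : ℝ}
    (H : NetFlow c c' r E G ε) {B : ℝ} (hB0 : 0 ≤ B)
    (hB : ∀ s, 0 ≤ s → ∑ z, r s z * netV (c s) z ≤ B * Real.exp (-s)) {S T : ℝ} (hS : 0 ≤ S)
    (hT : 0 ≤ T) :
    Real.exp (-(4 * ε * S)) * netCap (c 0) E G - 2 * ε * B * Real.exp (-S) ≤ netCap (c T) E G := by
  have hε := H.eps
  have hc0 : 0 ≤ netCap (c 0) E G := netCap_nonneg (H.nn 0 le_rfl) H.disj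
  rcases le_total S T with hST | hTS
  · have h1 := H.cap_exp hS
    have h2 := H.cap_add hB hS hST
    have h3 : 0 ≤ 2 * ε * B * Real.exp (-T) := by positivity
    nlinarith
  · have h1 := H.cap_exp hT
    have h2 : Real.exp (-(4 * ε * S)) ≤ Real.exp (-(4 * ε * T)) := by
      apply Real.exp_le_exp.mpr
      have : 4 * ε * T ≤ 4 * ε * S := mul_le_mul_of_nonneg_left hTS (by positivity)
      linarith
    have h3 := mul_le_mul_of_nonneg_right h2 hc0
    have h4 : 0 ≤ 2 * ε * B * Real.exp (-S) := by positivity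
    linarith

end P361.LRO
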