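import Vale.Agent.P361.LRO.NetODEDual

/-!
# Network ODE (note 9886, step (3)): the forms `LB` and `RB`
-/

namespace P361.LRO

open Finset Set Filter Topology

variable {V : Type*} [Fintype V] [DecidableEq V]

omit [DecidableEq V] in
theorem le_netCap_iff {c : V → V → ℝ} (hc : ∀ x y, 0 ≤ c x y) {E G : Set V} (hEG : Disjoint E G)
    {C : ℝ} : C ≤ netCap c E G ↔
      ∀ a : V → ℝ, (∀ x ∈ E, a x = 1) → (∀ x ∈ G, a x = 0) → C ≤ netK c a := by
  constructor
  · intro h a hE hG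
    exact h.trans (netCap_le' hc hE hG)
  · intro h
    obtain ⟨u, hu, huc, _⟩ := exists_min c hEG
    rw [← huc]
    exact h u hu.2.1 hu.2.2

/-- Primal ODE for lower bounds of the effective conductance. -/
theorem NetFlow.LB_lower {c c' : ℝ → V → V → ℝ} {r : ℝ → V → ℝ} {E G : Set V} {ε : ℝ}
    (H : NetFlow c c' r E G ε) {B : ℝ} (hB0 : 0 ≤ B)
    (hB : ∀ s, 0 ≤ s → ∑ z, r s z * netV (c s) z ≤ B * Real.exp (-s)) {S T : ℝ} (hS : 0 ≤ S)
    (hT : 0 ≤ T) {C : ℝ}
    (h : ∀ a : V → ℝ, (∀ x ∈ E, a x = 1) → (∀ x ∈ G, a x = 0) → C ≤ netK (c 0) a)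
    {a : V → ℝ} (haE : ∀ x ∈ E, a x = 1) (haG : ∀ x ∈ G, a x = 0) :
    Real.exp (-(4 * ε * S)) * C - 2 * ε * B * Real.exp (-S) ≤ netK (c T) a := by
  have h1 := (le_netCap_iff (H.nn 0 le_rfl) H.disj).mpr h
  have h2 := H.cap_lower hB0 hB hS hT
  have h3 := netCap_le' (H.nn T hT) haE haG
  have h4 := mul_le_mul_of_nonneg_left h1 (Real.exp_nonneg (-(4 * ε * S)))
  linarith

omit [DecidableEq V] in
theorem sq_le_iff_quad {E : Set V} {c : V → V → ℝ} (hc : ∀ x y, 0 ≤ c x y) {q : V → ℝ} {R : ℝ}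
    (hR : 0 ≤ R) :
    (∀ u : V → ℝ, (∀ x ∈ E, u x = 0) → (∑ x, q x * u x) ^ 2 ≤ R * netK c u) ↔
    (∀ u : V → ℝ, (∀ x ∈ E, u x = 0) → 2 * ∑ x, q x * u x - netK c u ≤ R) := by
  constructor
  · intro h u hu
    have h1 := h u hu
    have hK := netK_nonneg hc u
    nlinarith [sq_nonneg (R - netK c u), sq_nonneg (∑ x, q x * u x - (R + netK c u) / 2),
      abs_le_of_sq_le_sq' (show (∑ x, q x * u x) ^ 2 ≤ ((R + netK c u) / 2) ^ 2 by
        nlinarith [sq_nonneg (R - netK c u)]) (by linarith)]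
  · intro h u hu
    have hK := netK_nonneg hc u
    have hs : ∀ t : ℝ, 2 * t * ∑ x, q x * u x - t ^ 2 * netK c u ≤ R := by
      intro t
      have h1 := h (fun x => t * u x) (fun x hx => by rw [hu x hx, mul_zero])
      have h2 : ∑ x, q x * (t * u x) = t * ∑ x, q x * u x := by
        rw [Finset.mul_sum]
        exact Finset.sum_congr rfl fun x _ => by ring
      have h3 : netK c (fun x => t * u x) = t ^ 2 * netK c u := by
        unfold netK
        have : ∀ x y, c x y * (t * u x - t * u y) ^ 2 = t ^ 2 * (c x y * (u x - u y) ^ 2) :=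
          fun x y => by ring
        simp only [this, ← Finset.mul_sum]
        ring
      rw [h2, h3] at h1
      linarith
    set S := ∑ x, q x * u x with hS
    rcases hK.lt_or_eq with hK0 | hK0
    · have h1 := hs (S / netK c u)
      have h2 : 2 * (S / netK c u) * S - (S / netK c u) ^ 2 * netK c u = S ^ 2 / netK c u := by
        field_simp
        ring
      rw [h2, div_le_iff₀ hK0] at h1
      exact h1
    · rw [← hK0, mul_zero]
      by_contra hcon
      have hS2 : 0 < S ^ 2 := not_le.mp hcon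
      have hS0 : S ≠ 0 := fun h => by rw [h] at hS2; simp at hS2
      have h1 := hs ((R + 1) / (2 * S))
      rw [← hK0] at h1
      have h2 : 2 * ((R + 1) / (2 * S)) * S - ((R + 1) / (2 * S)) ^ 2 * 0 = R + 1 := by
        field_simp
        ring
      rw [h2] at h1
      linarith

/-- Dual ODE for upper bounds of the resistance, `u = 0` on the electrode. -/
theorem NetFlow.RB_lower0 {c c' : ℝ → V → V → ℝ} {r : ℝ → V → ℝ} {E G : Set V} {ε : ℝ}
    (H : NetFlow c c' r E G ε) (q : V → ℝ) {T D W R : ℝ} (hT : 0 ≤ T) (hD : 0 ≤ D) (hR : 0 ≤ R)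
    (hq : ∀ s, 0 ≤ s → s ≤ T → ∑ z, r s z * (q z ^ 2 / netV (c s) z) ≤ D * Real.exp s)
    (hW : ∀ s, 0 ≤ s → s ≤ T → ∑ z, r s z * (netV (c s) z)⁻¹ ≤ W)
    (hR0 : ∀ u : V → ℝ, (∀ x ∈ E, u x = 0) → (∑ x, q x * u x) ^ 2 ≤ R * netK (c 0) u)
    {u : V → ℝ} (hu : ∀ x ∈ E, u x = 0) :
    (∑ x, q x * u x) ^ 2 ≤
      (Real.exp (4 * ε * T) * (R + D * (Real.exp T - 1))) * netK (c T) u := by
  have hRT : 0 ≤ Real.exp (4 * ε * T) * (R + D * (Real.exp T - 1)) := by
    have : 0 ≤ Real.exp T - 1 := by linarith [Real.one_le_exp hT]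
    positivity
  refine (sq_le_iff_quad (H.nn T hT) hRT).mpr ?_ u hu
  intro u hu
  exact H.dual_upper q hT hD hq hW ((sq_le_iff_quad (H.nn 0 le_rfl) hR).mp hR0) hu

omit [DecidableEq V] in
theorem netK_one_sub (c : V → V → ℝ) (a : V → ℝ) : netK c (fun x => 1 - a x) = netK c a := by
  unfold netK
  congr 1
  exact Finset.sum_congr rfl fun x _ => Finset.sum_congr rfl fun y _ => by ring

/-- Dual ODE for upper bounds of the resistance, `a = 1` on the electrode, unit charge `q`. -/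
theorem NetFlow.RB_lower {c c' : ℝ → V → V → ℝ} {r : ℝ → V → ℝ} {E G : Set V} {ε : ℝ}
    (H : NetFlow c c' r E G ε) (q : V → ℝ) (hq1 : ∑ x, q x = 1)
    {T D W R : ℝ} (hT : 0 ≤ T) (hD : 0 ≤ D) (hR : 0 ≤ R)
    (hq : ∀ s, 0 ≤ s → s ≤ T → ∑ z, r s z * (q z ^ 2 / netV (c s) z) ≤ D * Real.exp s)
    (hW : ∀ s, 0 ≤ s → s ≤ T → ∑ z, r s z * (netV (c s) z)⁻¹ ≤ W)
    (hR0 : ∀ a : V → ℝ, (∀ x ∈ E, a x = 1) → (1 - ∑ x, q x * a x) ^ 2 ≤ R * netK (c 0) a)
    {a : V → ℝ} (ha : ∀ x ∈ E, a x = 1) :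
    (1 - ∑ x, q x * a x) ^ 2 ≤
      (Real.exp (4 * ε * T) * (R + D * (Real.exp T - 1))) * netK (c T) a := by
  have hconv : ∀ a : V → ℝ, ∑ x, q x * (1 - a x) = 1 - ∑ x, q x * a x := by
    intro a
    have h1 : ∑ x, q x * (1 - a x) = ∑ x, q x - ∑ x, q x * a x := by
      rw [← Finset.sum_sub_distrib]
      exact Finset.sum_congr rfl fun x _ => by ring
    rw [h1, hq1]
  have h := H.RB_lower0 q hT hD hR hq hW (fun u hu => by
    have h1 := hR0 (fun x => 1 - u x) (fun x hx => by simp [hu x hx])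
    rw [netK_one_sub] at h1
    have h2 := hconv (fun x => 1 - u x)
    simp only [sub_sub_cancel] at h2
    rw [h2]
    exact h1) (u := fun x => 1 - a x) (fun x hx => by simp [ha x hx])
  rw [netK_one_sub, hconv] at h
  exact h

end P361.LRO
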