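import Mathlib.Algebra.BigOperators.Field
import Mathlib.Algebra.Order.Chebyshev
import Mathlib.Data.Fintype.Pi
import Mathlib.Analysis.Real.Sqrt
import Mathlib.Tactic

/-!
# P361, block GEO, part 1: block averages in one direction

Everything here is finite combinatorics: `pav s g a` is the average of `g` over the block of
length `s` containing `a`, and tripling the block length costs at most `9 s ^ 2` times the
Dirichlet energy of the line.
-/

namespace Vale.Agent.P361.LRO.Geo

open Finset

/-- average of `g` over the block of length `s` containing `a` -/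
noncomputable def pav (s : ℕ) (g : ℕ → ℝ) (a : ℕ) : ℝ :=
  (∑ j ∈ range s, g (s * (a / s) + j)) / s

/-- energy of the line `0, .., n - 1` -/
noncomputable def len (n : ℕ) (g : ℕ → ℝ) : ℝ :=
  ∑ a ∈ range n, if a + 1 < n then (g (a + 1) - g a) ^ 2 else 0

/-- oscillation on a segment is controlled by its energy -/
lemma osc_le (g : ℕ → ℝ) (c m i j : ℕ) (hij : i ≤ j) (hj : j < m) :
    (g (c + j) - g (c + i)) ^ 2 ≤
      m * ∑ r ∈ range m, if r + 1 < m then (g (c + r + 1) - g (c + r)) ^ 2 else 0 := by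
  have h1 : g (c + j) - g (c + i) = ∑ r ∈ Ico i j, (g (c + r + 1) - g (c + r)) := by
    have := Finset.sum_Ico_consecutive (fun r => (g (c + r + 1) - g (c + r)))
      (Nat.zero_le i) hij
    have h2 : ∀ k, ∑ r ∈ Ico 0 k, (g (c + r + 1) - g (c + r)) = g (c + k) - g c := by
      intro k
      rw [← Finset.range_eq_Ico]
      have := Finset.sum_range_sub (fun r => g (c + r)) k
      simpa [add_assoc] using this
    rw [h2, h2] at this
    linarith
  rw [h1]
  have hcard : ((Ico i j).card : ℝ) ≤ m := by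
    rw [Nat.card_Ico]
    exact_mod_cast (Nat.sub_le j i).trans hj.le
  calc (∑ r ∈ Ico i j, (g (c + r + 1) - g (c + r))) ^ 2
      ≤ (Ico i j).card * ∑ r ∈ Ico i j, (g (c + r + 1) - g (c + r)) ^ 2 :=
        sq_sum_le_card_mul_sum_sq
    _ ≤ m * ∑ r ∈ range m, if r + 1 < m then (g (c + r + 1) - g (c + r)) ^ 2 else 0 := by
        refine mul_le_mul hcard ?_ (Finset.sum_nonneg fun _ _ => sq_nonneg _) (Nat.cast_nonneg _)
        have h3 : ∑ r ∈ Ico i j, (g (c + r + 1) - g (c + r)) ^ 2
            = ∑ r ∈ Ico i j, if r + 1 < m then (g (c + r + 1) - g (c + r)) ^ 2 else 0 := by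
          refine Finset.sum_congr rfl fun r hr => ?_
          rw [Finset.mem_Ico] at hr
          rw [if_pos (by omega)]
        rw [h3]
        refine Finset.sum_le_sum_of_subset_of_nonneg ?_ fun r _ _ => ?_
        · intro r hr
          rw [Finset.mem_Ico] at hr
          rw [Finset.mem_range]
          omega
        · split_ifs
          · exact sq_nonneg _
          · exact le_rfl

lemma avg_sub_sq_le {m n : ℕ} (hm : 0 < m) (hn : 0 < n) (u v : ℕ → ℝ) (B : ℝ)
    (h : ∀ i < m, ∀ j < n, (u i - v j) ^ 2 ≤ B) :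
    ((∑ i ∈ range m, u i) / m - (∑ j ∈ range n, v j) / n) ^ 2 ≤ B := by
  have hB : 0 ≤ B := le_trans (sq_nonneg _) (h 0 hm 0 hn)
  have hm' : (0 : ℝ) < m := by exact_mod_cast hm
  have hn' : (0 : ℝ) < n := by exact_mod_cast hn
  have key : (∑ i ∈ range m, u i) / m - (∑ j ∈ range n, v j) / n
      = (∑ i ∈ range m, ∑ j ∈ range n, (u i - v j)) / (m * n) := by
    have : ∑ i ∈ range m, ∑ j ∈ range n, (u i - v j)
        = n * ∑ i ∈ range m, u i - m * ∑ j ∈ range n, v j := by
      simp only [Finset.sum_sub_distrib, Finset.sum_const, card_range, nsmul_eq_mul,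
        Finset.mul_sum]
    rw [this]
    field_simp
  rw [key]
  have habs : |(∑ i ∈ range m, ∑ j ∈ range n, (u i - v j)) / ((m : ℝ) * n)| ≤ √B := by
    rw [abs_div, abs_of_pos (mul_pos hm' hn'), div_le_iff₀ (mul_pos hm' hn')]
    calc |∑ i ∈ range m, ∑ j ∈ range n, (u i - v j)|
        ≤ ∑ i ∈ range m, |∑ j ∈ range n, (u i - v j)| := Finset.abs_sum_le_sum_abs _ _
      _ ≤ ∑ i ∈ range m, ∑ j ∈ range n, |u i - v j| :=
          Finset.sum_le_sum fun i _ => Finset.abs_sum_le_sum_abs _ _
      _ ≤ ∑ i ∈ range m, ∑ j ∈ range n, √B := by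
          refine Finset.sum_le_sum fun i hi => Finset.sum_le_sum fun j hj => ?_
          rw [Finset.mem_range] at hi hj
          exact Real.abs_le_sqrt (h i hi j hj)
      _ = √B * (m * n) := by
          simp only [Finset.sum_const, card_range, nsmul_eq_mul]
          ring
  calc ((∑ i ∈ range m, ∑ j ∈ range n, (u i - v j)) / ((m : ℝ) * n)) ^ 2
      = |(∑ i ∈ range m, ∑ j ∈ range n, (u i - v j)) / ((m : ℝ) * n)| ^ 2 := (sq_abs _).symm
    _ ≤ (√B) ^ 2 := pow_le_pow_left₀ (abs_nonneg _) habs 2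
    _ = B := Real.sq_sqrt hB

/-- pointwise bound for tripling a block -/
lemma pav_step_pt {s : ℕ} (hs : 0 < s) (g : ℕ → ℝ) (a : ℕ) :
    (pav (3 * s) g a - pav s g a) ^ 2 ≤
      (3 * s : ℕ) * ∑ r ∈ range (3 * s), if r + 1 < 3 * s then
        (g (3 * s * (a / (3 * s)) + r + 1) - g (3 * s * (a / (3 * s)) + r)) ^ 2 else 0 := by
  unfold pav
  set c := 3 * s * (a / (3 * s)) with hc
  have h3s : 0 < 3 * s := by omega
  -- the small block starts at `c + k`
  obtain ⟨k, hk, hk2⟩ : ∃ k, s * (a / s) = c + k ∧ k + s ≤ 3 * s := by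
    have h1 : a / (3 * s) = a / s / 3 := by
      rw [mul_comm, Nat.div_div_eq_div_mul]
    have h2 : a / s = 3 * (a / s / 3) + (a / s) % 3 := (Nat.div_add_mod _ _).symm
    have h4 : (a / s) % 3 < 3 := Nat.mod_lt _ (by norm_num)
    refine ⟨s * ((a / s) % 3), ?_, ?_⟩
    · rw [hc, h1]
      conv_lhs => rw [h2]
      ring
    · have : s * (a / s % 3) ≤ s * 2 := Nat.mul_le_mul_left _ (by omega)
      omega
  rw [hk]
  refine avg_sub_sq_le h3s hs (fun i => g (c + i)) (fun j => g (c + k + j)) _ ?_
  intro i hi j hj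
  rw [add_assoc c k j]
  rcases le_total i (k + j) with h | h
  · have := osc_le g c (3 * s) i (k + j) h (by omega)
    rw [← neg_sq, neg_sub]
    exact this
  · exact osc_le g c (3 * s) (k + j) i h hi

/-- sum over a range of a block function -/
lemma sum_range_blocks (m q : ℕ) (F : ℕ → ℝ) :
    ∑ a ∈ range (m * q), F a = ∑ t ∈ range q, ∑ r ∈ range m, F (m * t + r) := by
  induction q with
  | zero => simp
  | succ q ih =>
      rw [Nat.mul_succ, Finset.sum_range_succ, ← ih, Finset.sum_range_add]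

lemma sum_pav {s : ℕ} (hs : 0 < s) (q : ℕ) (g : ℕ → ℝ) :
    ∑ a ∈ range (s * q), pav s g a = ∑ a ∈ range (s * q), g a := by
  rw [sum_range_blocks, sum_range_blocks]
  refine Finset.sum_congr rfl fun t _ => ?_
  have hs' : (0 : ℝ) < s := by exact_mod_cast hs
  have : ∀ r ∈ range s, pav s g (s * t + r) = (∑ j ∈ range s, g (s * t + j)) / s := by
    intro r hr
    rw [Finset.mem_range] at hr
    unfold pav
    have : (s * t + r) / s = t := by
      rw [Nat.mul_add_div hs, Nat.div_eq_of_lt hr, add_zero]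
    rw [this]
  rw [Finset.sum_congr rfl this, Finset.sum_const, card_range, nsmul_eq_mul]
  field_simp

lemma pav_sq_le {s : ℕ} (hs : 0 < s) (g : ℕ → ℝ) (a : ℕ) :
    (pav s g a) ^ 2 ≤ pav s (fun x => g x ^ 2) a := by
  unfold pav
  have hs' : (0 : ℝ) < s := by exact_mod_cast hs
  rw [div_pow, div_le_div_iff₀ (by positivity) hs']
  have := sq_sum_le_card_mul_sum_sq (s := range s) (f := fun j => g (s * (a / s) + j))
  rw [card_range] at this
  nlinarith [this, hs']

/-- tripling the block length: the one dimensional estimate -/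
lemma pav_step_sum {s : ℕ} (hs : 0 < s) (q : ℕ) (g : ℕ → ℝ) :
    ∑ a ∈ range (3 * s * q), (pav (3 * s) g a - pav s g a) ^ 2 ≤
      9 * (s : ℝ) ^ 2 * len (3 * s * q) g := by
  set m := 3 * s with hm
  have hm0 : 0 < m := by omega
  have h1 : ∑ a ∈ range (m * q), (pav m g a - pav s g a) ^ 2 ≤
      ∑ a ∈ range (m * q), (m : ℝ) * ∑ r ∈ range m, (if r + 1 < m then
        (g (m * (a / m) + r + 1) - g (m * (a / m) + r)) ^ 2 else 0) := by
    refine Finset.sum_le_sum fun a _ => ?_
    have := pav_step_pt hs g a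
    simpa [hm] using this
  refine h1.trans ?_
  rw [sum_range_blocks]
  have h2 : ∀ t ∈ range q, ∑ r' ∈ range m, (m : ℝ) * ∑ r ∈ range m, (if r + 1 < m then
        (g (m * ((m * t + r') / m) + r + 1) - g (m * ((m * t + r') / m) + r)) ^ 2 else 0)
      = (m : ℝ) * m * ∑ r ∈ range m, (if r + 1 < m then
        (g (m * t + r + 1) - g (m * t + r)) ^ 2 else 0) := by
    intro t _
    have : ∀ r' ∈ range m, (m : ℝ) * ∑ r ∈ range m, (if r + 1 < m then
        (g (m * ((m * t + r') / m) + r + 1) - g (m * ((m * t + r') / m) + r)) ^ 2 else 0)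
        = (m : ℝ) * ∑ r ∈ range m, (if r + 1 < m then
        (g (m * t + r + 1) - g (m * t + r)) ^ 2 else 0) := by
      intro r' hr'
      rw [Finset.mem_range] at hr'
      have : (m * t + r') / m = t := by
        rw [Nat.mul_add_div hm0, Nat.div_eq_of_lt hr', add_zero]
      rw [this]
    rw [Finset.sum_congr rfl this, Finset.sum_const, card_range, nsmul_eq_mul]
    ring
  rw [Finset.sum_congr rfl h2, ← Finset.mul_sum]
  have h3 : ∑ t ∈ range q, ∑ r ∈ range m, (if r + 1 < m then
        (g (m * t + r + 1) - g (m * t + r)) ^ 2 else 0) ≤ len (m * q) g := by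
    unfold len
    rw [sum_range_blocks]
    refine Finset.sum_le_sum fun t ht => Finset.sum_le_sum fun r hr => ?_
    rw [Finset.mem_range] at ht hr
    by_cases h : r + 1 < m
    · rw [if_pos h]
      have : m * t + r + 1 < m * q := by
        have : m * (t + 1) ≤ m * q := Nat.mul_le_mul_left _ ht
        rw [Nat.mul_succ] at this
        omega
      rw [if_pos this]
    · rw [if_neg h]
      split_ifs
      · exact sq_nonneg _
      · exact le_rfl
  have h4 : (m : ℝ) * m = 9 * (s : ℝ) ^ 2 := by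
    rw [hm]; push_cast; ring
  rw [h4]
  exact mul_le_mul_of_nonneg_left h3 (by positivity)

end Vale.Agent.P361.LRO.Geo
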