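import Vale.Agent.P361.LRO.Geo1

/-!
# P361, block GEO, part 2: block averages in four directions
-/

namespace Vale.Agent.P361.LRO.Geo

open Finset Function

/-- space-time points: coordinates `0, 1, 2` space, `3` the number of the time window -/
abbrev Pt := Fin 4 → ℕ

/-- the box with side vector `N` -/
def box (N : Fin 4 → ℕ) : Finset Pt := Fintype.piFinset fun i => range (N i)

lemma mem_box {N : Fin 4 → ℕ} {x : Pt} : x ∈ box N ↔ ∀ i, x i < N i := by
  simp [box, Fintype.mem_piFinset]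

lemma update_mem_box {N : Fin 4 → ℕ} {x : Pt} (hx : x ∈ box N) {i : Fin 4} {a : ℕ}
    (ha : a < N i) : update x i a ∈ box N := by
  rw [mem_box] at hx ⊢
  intro j
  by_cases h : j = i
  · subst h; simpa using ha
  · simpa [update_of_ne h] using hx j

/-- block average in direction `i` -/
noncomputable def P (i : Fin 4) (s : ℕ) (f : Pt → ℝ) : Pt → ℝ :=
  fun x => pav s (fun a => f (update x i a)) (x i)

/-- Dirichlet energy in direction `i` -/
noncomputable def en (i : Fin 4) (N : Fin 4 → ℕ) (f : Pt → ℝ) : ℝ :=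
  ∑ x ∈ box N, if x i + 1 < N i then (f (update x i (x i + 1)) - f x) ^ 2 else 0

lemma en_nonneg (i : Fin 4) (N : Fin 4 → ℕ) (f : Pt → ℝ) : 0 ≤ en i N f := by
  refine Finset.sum_nonneg fun x _ => ?_
  split_ifs
  · exact sq_nonneg _
  · exact le_rfl

lemma sum_lines (N : Fin 4 → ℕ) (i : Fin 4) (F : Pt → ℝ) :
    (N i : ℝ) * ∑ x ∈ box N, F x = ∑ x ∈ box N, ∑ a ∈ range (N i), F (update x i a) := by
  rw [← Finset.sum_product']
  have h1 : (N i : ℝ) * ∑ x ∈ box N, F x = ∑ p ∈ box N ×ˢ range (N i), F p.1 := by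
    rw [Finset.sum_product]
    simp only [Finset.sum_const, card_range, nsmul_eq_mul, Finset.mul_sum]
  rw [h1]
  refine Finset.sum_bij' (fun p _ => (update p.1 i p.2, p.1 i))
    (fun p _ => (update p.1 i p.2, p.1 i)) ?_ ?_ ?_ ?_ ?_
  · intro p hp
    rw [Finset.mem_product, Finset.mem_range] at hp ⊢
    exact ⟨update_mem_box hp.1 hp.2, (mem_box.1 hp.1) i⟩
  · intro p hp
    rw [Finset.mem_product, Finset.mem_range] at hp ⊢
    exact ⟨update_mem_box hp.1 hp.2, (mem_box.1 hp.1) i⟩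
  · intro p hp
    simp
  · intro p hp
    simp
  · intro p hp
    simp

lemma sum_le_of_lines (N : Fin 4 → ℕ) (i : Fin 4) (F G : Pt → ℝ)
    (h : ∀ x ∈ box N, ∑ a ∈ range (N i), F (update x i a) ≤
      ∑ a ∈ range (N i), G (update x i a)) :
    ∑ x ∈ box N, F x ≤ ∑ x ∈ box N, G x := by
  rcases Nat.eq_zero_or_pos (N i) with h0 | h0
  · have : box N = ∅ := by
      rw [Finset.eq_empty_iff_forall_notMem]
      intro x hx
      have := (mem_box.1 hx) i
      omega
    rw [this]; simp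
  · have h1 : (0 : ℝ) < N i := by exact_mod_cast h0
    have h2 := Finset.sum_le_sum h
    rw [← sum_lines, ← sum_lines] at h2
    exact le_of_mul_le_mul_left h2 h1

lemma P_update (i : Fin 4) (s : ℕ) (f : Pt → ℝ) (x : Pt) (a : ℕ) :
    P i s f (update x i a) = pav s (fun b => f (update x i b)) a := by
  simp [P]

lemma P_step_sum (N : Fin 4 → ℕ) (i : Fin 4) {s : ℕ} (hs : 0 < s) (hN : 3 * s ∣ N i)
    (g : Pt → ℝ) :
    ∑ x ∈ box N, (P i (3 * s) g x - P i s g x) ^ 2 ≤ 9 * (s : ℝ) ^ 2 * en i N g := by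
  unfold en
  rw [Finset.mul_sum]
  refine sum_le_of_lines N i _ _ fun x _ => ?_
  simp only [P_update, update_self, update_idem]
  obtain ⟨q, hq⟩ := hN
  have := pav_step_sum hs q (fun b => g (update x i b))
  rw [hq, ← Finset.mul_sum]
  unfold len at this
  exact this

lemma P_diff (i j : Fin 4) (hij : i ≠ j) (s : ℕ) (f : Pt → ℝ) (x : Pt) :
    P j s f (update x i (x i + 1)) - P j s f x =
      P j s (fun y => f (update y i (y i + 1)) - f y) x := by
  unfold P pav
  simp only [update_of_ne hij, update_of_ne hij.symm, ← sub_div, ← Finset.sum_sub_distrib]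
  congr 1
  refine Finset.sum_congr rfl fun a _ => ?_
  rw [update_comm hij]

lemma P_sq_le (j : Fin 4) {s : ℕ} (hs : 0 < s) (g : Pt → ℝ) (x : Pt) :
    (P j s g x) ^ 2 ≤ P j s (fun y => g y ^ 2) x :=
  pav_sq_le hs _ _

/-- averaging in another direction does not increase the energy -/
lemma en_P_le (N : Fin 4 → ℕ) (i j : Fin 4) (hij : i ≠ j) {s : ℕ} (hs : 0 < s)
    (hN : s ∣ N j) (f : Pt → ℝ) : en i N (P j s f) ≤ en i N f := by
  unfold en
  have h1 : ∀ x ∈ box N, (if x i + 1 < N i then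
        (P j s f (update x i (x i + 1)) - P j s f x) ^ 2 else 0) ≤
      if x i + 1 < N i then P j s (fun y => (f (update y i (y i + 1)) - f y) ^ 2) x else 0 := by
    intro x _
    split_ifs
    · rw [P_diff i j hij]
      exact P_sq_le j hs _ x
    · exact le_rfl
  refine (Finset.sum_le_sum h1).trans ?_
  refine sum_le_of_lines N j _ _ fun x _ => ?_
  simp only [P_update, update_of_ne hij]
  obtain ⟨q, hq⟩ := hN
  by_cases h : x i + 1 < N i
  · simp only [if_pos h]
    rw [hq, sum_pav hs q (fun b => (f (update (update x j b) i (x i + 1))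
      - f (update x j b)) ^ 2)]
  · simp only [if_neg h]
    exact le_rfl

lemma P_comm (i j : Fin 4) (hij : i ≠ j) (s t : ℕ) (f : Pt → ℝ) :
    P i s (P j t f) = P j t (P i s f) := by
  funext x
  unfold P pav
  simp only [update_of_ne hij, update_of_ne hij.symm, Finset.sum_div]
  rw [Finset.sum_comm]
  refine Finset.sum_congr rfl fun a _ => Finset.sum_congr rfl fun b _ => ?_
  rw [update_comm hij, div_right_comm]

/-- invariance of `f` under changes of coordinate `i` inside blocks of length `s` -/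
def Inv (i : Fin 4) (s : ℕ) (f : Pt → ℝ) : Prop :=
  ∀ x c, c / s = x i / s → f (update x i c) = f x

lemma Inv_P (i : Fin 4) (s : ℕ) (f : Pt → ℝ) : Inv i s (P i s f) := by
  intro x c h
  unfold P pav
  simp only [update_self, update_idem, h]

lemma Inv_P_other {i j : Fin 4} (hij : i ≠ j) {s : ℕ} (t : ℕ) {f : Pt → ℝ} (h : Inv i s f) :
    Inv i s (P j t f) := by
  intro x c hc
  unfold P pav
  simp only [update_of_ne hij.symm]
  congr 1
  refine Finset.sum_congr rfl fun a _ => ?_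
  rw [update_comm hij]
  exact h _ _ (by rw [update_of_ne hij]; exact hc)

lemma Inv_sub {i : Fin 4} {s : ℕ} {f g : Pt → ℝ} (hf : Inv i s f) (hg : Inv i s g) :
    Inv i s (fun x => f x - g x) := by
  intro x c hc
  simp only
  rw [hf x c hc, hg x c hc]

lemma Inv_mono {i : Fin 4} {s t : ℕ} {f : Pt → ℝ} (hf : Inv i (t * s) f) :
    Inv i s f := by
  intro x c hc
  refine hf x c ?_
  rw [mul_comm, ← Nat.div_div_eq_div_mul, ← Nat.div_div_eq_div_mul, hc]

lemma Inv_all {κ : Fin 4 → ℕ} {f : Pt → ℝ} (h : ∀ i, Inv i (κ i) f) {x y : Pt}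
    (hxy : ∀ i, y i / κ i = x i / κ i) : f y = f x := by
  have h1 : y = update (update (update (update x 0 (y 0)) 1 (y 1)) 2 (y 2)) 3 (y 3) := by
    funext j
    fin_cases j <;> simp [update]
  rw [h1, h 3 _ _ (by simpa [update] using hxy 3), h 2 _ _ (by simpa [update] using hxy 2),
    h 1 _ _ (by simpa [update] using hxy 1), h 0 _ _ (by simpa [update] using hxy 0)]

/-- sup bound for a function which is constant on the blocks -/
lemma sq_le_of_Inv {N κ : Fin 4 → ℕ} (hκ : ∀ i, 0 < κ i) (hN : ∀ i, κ i ∣ N i) {D : Pt → ℝ}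
    (h : ∀ i, Inv i (κ i) D) {x : Pt} (hx : x ∈ box N) :
    (D x) ^ 2 * (∏ i, (κ i : ℝ)) ≤ ∑ y ∈ box N, (D y) ^ 2 := by
  set B : Finset Pt := Fintype.piFinset fun i => Ico (κ i * (x i / κ i)) (κ i * (x i / κ i) + κ i)
    with hB
  have hcard : (B.card : ℝ) = ∏ i, (κ i : ℝ) := by
    rw [hB, Fintype.card_piFinset]
    simp
  have hsub : B ⊆ box N := by
    intro y hy
    rw [hB, Fintype.mem_piFinset] at hy
    rw [mem_box]
    intro i
    have h1 := hy i
    rw [Finset.mem_Ico] at h1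
    obtain ⟨q, hq⟩ := hN i
    have h2 := (mem_box.1 hx) i
    have h3 : x i / κ i < q := by
      rw [Nat.div_lt_iff_lt_mul (hκ i), mul_comm, ← hq]
      exact h2
    have h4 : κ i * (x i / κ i) + κ i ≤ N i := by
      rw [hq, ← Nat.mul_succ]
      exact Nat.mul_le_mul_left _ h3
    omega
  have hval : ∀ y ∈ B, (D y) ^ 2 = (D x) ^ 2 := by
    intro y hy
    rw [hB, Fintype.mem_piFinset] at hy
    rw [Inv_all h (x := x) (y := y)]
    intro i
    have h1 := hy i
    rw [Finset.mem_Ico] at h1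
    rw [Nat.div_eq_iff (hκ i)]
    have := hκ i
    constructor
    · rw [mul_comm]; exact h1.1
    · rw [mul_comm (x i / κ i)]; omega
  calc (D x) ^ 2 * (∏ i, (κ i : ℝ)) = ∑ y ∈ B, (D y) ^ 2 := by
        rw [Finset.sum_congr rfl hval, Finset.sum_const, nsmul_eq_mul, hcard, mul_comm]
    _ ≤ ∑ y ∈ box N, (D y) ^ 2 :=
        Finset.sum_le_sum_of_subset_of_nonneg hsub fun _ _ _ => sq_nonneg _

/-- block average with side vector `κ` -/
noncomputable def A (κ : Fin 4 → ℕ) (f : Pt → ℝ) : Pt → ℝ :=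
  P 0 (κ 0) (P 1 (κ 1) (P 2 (κ 2) (P 3 (κ 3) f)))

lemma A_split (κ : Fin 4 → ℕ) (f : Pt → ℝ) (i : Fin 4) :
    ∃ g : Pt → ℝ, (∀ t, A (update κ i t) f = P i t g) ∧
      (∀ N : Fin 4 → ℕ, (∀ j, 0 < κ j) → (∀ j, j ≠ i → κ j ∣ N j) → en i N g ≤ en i N f) := by
  fin_cases i
  · refine ⟨P 1 (κ 1) (P 2 (κ 2) (P 3 (κ 3) f)), fun t => ?_, fun N h0 h => ?_⟩
    · simp [A, update]
    · refine (en_P_le N 0 1 (by decide) (h0 1) (h 1 (by decide)) _).trans ?_
      refine (en_P_le N 0 2 (by decide) (h0 2) (h 2 (by decide)) _).trans ?_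
      exact en_P_le N 0 3 (by decide) (h0 3) (h 3 (by decide)) _
  · refine ⟨P 0 (κ 0) (P 2 (κ 2) (P 3 (κ 3) f)), fun t => ?_, fun N h0 h => ?_⟩
    · simp only [A]
      simp only [update, Fin.reduceEq, Fin.isValue, Fin.mk_one, dite_true, dite_false,
        eq_rec_constant]
      rw [P_comm 0 1 (by decide)]
    · refine (en_P_le N 1 0 (by decide) (h0 0) (h 0 (by decide)) _).trans ?_
      refine (en_P_le N 1 2 (by decide) (h0 2) (h 2 (by decide)) _).trans ?_
      exact en_P_le N 1 3 (by decide) (h0 3) (h 3 (by decide)) _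
  · refine ⟨P 0 (κ 0) (P 1 (κ 1) (P 3 (κ 3) f)), fun t => ?_, fun N h0 h => ?_⟩
    · simp only [A]
      simp only [update, Fin.reduceEq, Fin.isValue, Fin.reduceFinMk, dite_true, dite_false,
        eq_rec_constant]
      rw [P_comm 1 2 (by decide), P_comm 0 2 (by decide)]
    · refine (en_P_le N 2 0 (by decide) (h0 0) (h 0 (by decide)) _).trans ?_
      refine (en_P_le N 2 1 (by decide) (h0 1) (h 1 (by decide)) _).trans ?_
      exact en_P_le N 2 3 (by decide) (h0 3) (h 3 (by decide)) _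
  · refine ⟨P 0 (κ 0) (P 1 (κ 1) (P 2 (κ 2) f)), fun t => ?_, fun N h0 h => ?_⟩
    · simp only [A]
      simp only [update, Fin.reduceEq, Fin.isValue, Fin.reduceFinMk, dite_true, dite_false,
        eq_rec_constant]
      rw [P_comm 2 3 (by decide), P_comm 1 3 (by decide), P_comm 0 3 (by decide)]
    · refine (en_P_le N 3 0 (by decide) (h0 0) (h 0 (by decide)) _).trans ?_
      refine (en_P_le N 3 1 (by decide) (h0 1) (h 1 (by decide)) _).trans ?_
      exact en_P_le N 3 2 (by decide) (h0 2) (h 2 (by decide)) _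

lemma A_Inv (κ : Fin 4 → ℕ) (f : Pt → ℝ) (i : Fin 4) : Inv i (κ i) (A κ f) := by
  obtain ⟨g, hg, -⟩ := A_split κ f i
  have := hg (κ i)
  rw [update_eq_self] at this
  rw [this]
  exact Inv_P i (κ i) g

/-- one tripling step, `L²` bound -/
lemma A_step_sum (N κ : Fin 4 → ℕ) (i : Fin 4) (h0 : ∀ j, 0 < κ j)
    (hN : ∀ j, j ≠ i → κ j ∣ N j) (hi : 3 * κ i ∣ N i) (f : Pt → ℝ) :
    ∑ x ∈ box N, (A (update κ i (3 * κ i)) f x - A κ f x) ^ 2 ≤
      9 * (κ i : ℝ) ^ 2 * en i N f := by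
  obtain ⟨g, hg, hen⟩ := A_split κ f i
  have h1 := hg (3 * κ i)
  have h2 := hg (κ i)
  rw [update_eq_self] at h2
  rw [h1, h2]
  refine (P_step_sum N i (h0 i) hi g).trans ?_
  exact mul_le_mul_of_nonneg_left (hen N h0 hN) (by positivity)

/-- one tripling step, pointwise bound -/
lemma A_step_pt (N κ : Fin 4 → ℕ) (i : Fin 4) (h0 : ∀ j, 0 < κ j)
    (hN : ∀ j, j ≠ i → κ j ∣ N j) (hi : 3 * κ i ∣ N i) (f : Pt → ℝ) {x : Pt} (hx : x ∈ box N) :
    (A (update κ i (3 * κ i)) f x - A κ f x) ^ 2 * (∏ j, (κ j : ℝ)) ≤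
      9 * (κ i : ℝ) ^ 2 * en i N f := by
  have h1 : ∀ j, Inv j (κ j) (fun x => A (update κ i (3 * κ i)) f x - A κ f x) := by
    intro j
    refine Inv_sub ?_ (A_Inv κ f j)
    have := A_Inv (update κ i (3 * κ i)) f j
    by_cases h : j = i
    · subst h
      rw [update_self] at this
      exact Inv_mono this
    · rwa [update_of_ne h] at this
  have h2 : ∀ j, κ j ∣ N j := by
    intro j
    by_cases h : j = i
    · subst h
      exact (Dvd.intro_left 3 rfl).trans hi
    · exact hN j h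
  exact (sq_le_of_Inv h0 h2 h1 hx).trans (A_step_sum N κ i h0 hN hi f)

end Vale.Agent.P361.LRO.Geo
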