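import Vale.Agent.P361.LRO.Geo2

/-!
# P361, block GEO, part 3: Poincaré inequality on boxes, chaining of block averages, and the
count of points where a function of small energy exceeds its mean.
-/

namespace Vale.Agent.P361.LRO.Geo

open Finset Function

/-! ## One dimensional Poincaré inequality -/

lemma pav_sub_pt {s : ℕ} (hs : 0 < s) (g : ℕ → ℝ) (a : ℕ) :
    (pav s g a - g a) ^ 2 ≤ s * ∑ r ∈ range s, if r + 1 < s then
        (g (s * (a / s) + r + 1) - g (s * (a / s) + r)) ^ 2 else 0 := by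
  unfold pav
  set c := s * (a / s) with hc
  have ha : a = c + a % s := (Nat.div_add_mod a s).symm
  have hmod := Nat.mod_lt a hs
  have key : ∀ i < s, ∀ j < 1, (g (c + i) - (fun _ : ℕ => g a) j) ^ 2 ≤
      s * ∑ r ∈ range s, if r + 1 < s then (g (c + r + 1) - g (c + r)) ^ 2 else 0 := by
    intro i hi j _
    rcases le_total i (a % s) with h | h
    · have := osc_le g c s i (a % s) h hmod
      rw [← ha] at this
      rw [← neg_sq, neg_sub]
      exact this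
    · have := osc_le g c s (a % s) i h hi
      rw [← ha] at this
      exact this
  have := avg_sub_sq_le hs (n := 1) one_pos (fun i => g (c + i)) (fun _ => g a) _ key
  simpa using this

lemma sum_block_energy {m : ℕ} (hm0 : 0 < m) (q : ℕ) (g : ℕ → ℝ) :
    ∑ a ∈ range (m * q), ((m : ℝ) * ∑ r ∈ range m, if r + 1 < m then
        (g (m * (a / m) + r + 1) - g (m * (a / m) + r)) ^ 2 else 0) ≤
      (m : ℝ) ^ 2 * len (m * q) g := by
  rw [sum_range_blocks]
  have h2 : ∀ t ∈ range q, ∑ r' ∈ range m, ((m : ℝ) * ∑ r ∈ range m, if r + 1 < m then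
        (g (m * ((m * t + r') / m) + r + 1) - g (m * ((m * t + r') / m) + r)) ^ 2 else 0)
      = (m : ℝ) ^ 2 * ∑ r ∈ range m, (if r + 1 < m then
        (g (m * t + r + 1) - g (m * t + r)) ^ 2 else 0) := by
    intro t _
    have : ∀ r' ∈ range m, ((m : ℝ) * ∑ r ∈ range m, if r + 1 < m then
        (g (m * ((m * t + r') / m) + r + 1) - g (m * ((m * t + r') / m) + r)) ^ 2 else 0)
        = (m : ℝ) * ∑ r ∈ range m, (if r + 1 < m then
        (g (m * t + r + 1) - g (m * t + r)) ^ 2 else 0) := by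
      intro r' hr'
      rw [Finset.mem_range] at hr'
      have : (m * t + r') / m = t := by
        rw [Nat.mul_add_div hm0, Nat.div_eq_of_lt hr', add_zero]
      rw [this]
    rw [Finset.sum_congr rfl this, Finset.sum_const, card_range, nsmul_eq_mul]
    ring
  rw [Finset.sum_congr rfl h2, ← Finset.mul_sum]
  refine mul_le_mul_of_nonneg_left ?_ (by positivity)
  unfold len
  rw [sum_range_blocks]
  refine Finset.sum_le_sum fun t ht => Finset.sum_le_sum fun r hr => ?_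
  rw [Finset.mem_range] at ht hr
  by_cases h : r + 1 < m
  · rw [if_pos h]
    have : m * t + r + 1 < m * q := by
      have : m * (t + 1) ≤ m * q := Nat.mul_le_mul_left _ ht
      rw [Nat.mul_succ] at this
      omega
    rw [if_pos this]
  · rw [if_neg h]
    split_ifs
    · exact sq_nonneg _
    · exact le_rfl

lemma pav_sub_sum {s : ℕ} (hs : 0 < s) (q : ℕ) (g : ℕ → ℝ) :
    ∑ a ∈ range (s * q), (pav s g a - g a) ^ 2 ≤ (s : ℝ) ^ 2 * len (s * q) g :=
  (Finset.sum_le_sum fun a _ => pav_sub_pt hs g a).trans (sum_block_energy hs q g)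

/-! ## Four directions -/

lemma P_sub_sum (N : Fin 4 → ℕ) (i : Fin 4) {s : ℕ} (hs : 0 < s) (hN : s ∣ N i)
    (g : Pt → ℝ) :
    ∑ x ∈ box N, (P i s g x - g x) ^ 2 ≤ (s : ℝ) ^ 2 * en i N g := by
  unfold en
  rw [Finset.mul_sum]
  refine sum_le_of_lines N i _ _ fun x _ => ?_
  simp only [P_update, update_self, update_idem]
  obtain ⟨q, hq⟩ := hN
  have := pav_sub_sum hs q (fun b => g (update x i b))
  rw [hq, ← Finset.mul_sum]
  unfold len at this
  exact this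

/-- total Dirichlet energy of `f` on the box with side vector `N` -/
noncomputable def En (N : Fin 4 → ℕ) (f : Pt → ℝ) : ℝ := ∑ i, en i N f

lemma En_nonneg (N : Fin 4 → ℕ) (f : Pt → ℝ) : 0 ≤ En N f :=
  Finset.sum_nonneg fun i _ => en_nonneg i N f

lemma four_sq (a b c d : ℝ) :
    (a + b + c + d) ^ 2 ≤ 4 * (a ^ 2 + b ^ 2 + c ^ 2 + d ^ 2) := by
  nlinarith [sq_nonneg (a - b), sq_nonneg (a - c), sq_nonneg (a - d), sq_nonneg (b - c),
    sq_nonneg (b - d), sq_nonneg (c - d)]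

/-- Poincaré inequality: replacing `f` by its block averages -/
lemma A_sub_sum (N κ : Fin 4 → ℕ) (s : ℕ) (h0 : ∀ j, 0 < κ j) (hN : ∀ j, κ j ∣ N j)
    (hs : ∀ j, κ j ≤ s) (f : Pt → ℝ) :
    ∑ x ∈ box N, (A κ f x - f x) ^ 2 ≤ 4 * (s : ℝ) ^ 2 * En N f := by
  set g3 := P 3 (κ 3) f with hg3
  set g2 := P 2 (κ 2) g3 with hg2
  set g1 := P 1 (κ 1) g2 with hg1
  have hA : A κ f = P 0 (κ 0) g1 := rfl
  have e3 : ∑ x ∈ box N, (g3 x - f x) ^ 2 ≤ (s : ℝ) ^ 2 * en 3 N f := by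
    refine (P_sub_sum N 3 (h0 3) (hN 3) f).trans ?_
    have := en_nonneg 3 N f
    have := hs 3
    gcongr
  have e2 : ∑ x ∈ box N, (g2 x - g3 x) ^ 2 ≤ (s : ℝ) ^ 2 * en 2 N f := by
    refine (P_sub_sum N 2 (h0 2) (hN 2) g3).trans ?_
    have h1 : en 2 N g3 ≤ en 2 N f := en_P_le N 2 3 (by decide) (h0 3) (hN 3) f
    have := en_nonneg 2 N g3
    have := hs 2
    gcongr
  have e1 : ∑ x ∈ box N, (g1 x - g2 x) ^ 2 ≤ (s : ℝ) ^ 2 * en 1 N f := by
    refine (P_sub_sum N 1 (h0 1) (hN 1) g2).trans ?_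
    have h1 : en 1 N g2 ≤ en 1 N f :=
      (en_P_le N 1 2 (by decide) (h0 2) (hN 2) g3).trans
        (en_P_le N 1 3 (by decide) (h0 3) (hN 3) f)
    have := en_nonneg 1 N g2
    have := hs 1
    gcongr
  have e0 : ∑ x ∈ box N, (A κ f x - g1 x) ^ 2 ≤ (s : ℝ) ^ 2 * en 0 N f := by
    rw [hA]
    refine (P_sub_sum N 0 (h0 0) (hN 0) g1).trans ?_
    have h1 : en 0 N g1 ≤ en 0 N f :=
      (en_P_le N 0 1 (by decide) (h0 1) (hN 1) g2).trans
        ((en_P_le N 0 2 (by decide) (h0 2) (hN 2) g3).trans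
          (en_P_le N 0 3 (by decide) (h0 3) (hN 3) f))
    have := en_nonneg 0 N g1
    have := hs 0
    gcongr
  have hpt : ∀ x ∈ box N, (A κ f x - f x) ^ 2 ≤
      4 * ((A κ f x - g1 x) ^ 2 + (g1 x - g2 x) ^ 2 + (g2 x - g3 x) ^ 2 + (g3 x - f x) ^ 2) := by
    intro x _
    have := four_sq (A κ f x - g1 x) (g1 x - g2 x) (g2 x - g3 x) (g3 x - f x)
    have e : A κ f x - f x = (A κ f x - g1 x) + (g1 x - g2 x) + (g2 x - g3 x) + (g3 x - f x) := by
      ring
    rw [e]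
    exact this
  refine (Finset.sum_le_sum hpt).trans ?_
  rw [← Finset.mul_sum, Finset.sum_add_distrib, Finset.sum_add_distrib, Finset.sum_add_distrib]
  unfold En
  rw [Fin.sum_univ_four]
  nlinarith

lemma A_step_one (N κ : Fin 4 → ℕ) (i : Fin 4) (s t : ℕ) (h0 : ∀ j, 0 < κ j)
    (hN : ∀ j, κ j ∣ N j) (ht : t = κ i ∨ (t = 3 * κ i ∧ κ i ≤ s)) (htN : t ∣ N i)
    (f : Pt → ℝ) :
    ∑ x ∈ box N, (A (update κ i t) f x - A κ f x) ^ 2 ≤ 9 * (s : ℝ) ^ 2 * en i N f := by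
  have hen := en_nonneg i N f
  rcases ht with ht | ⟨ht, hs⟩
  · rw [ht, update_eq_self]
    simp only [sub_self]
    simp only [ne_eq, OfNat.ofNat_ne_zero, not_false_eq_true, zero_pow, sum_const_zero]
    positivity
  · subst ht
    refine (A_step_sum N κ i h0 (fun j _ => hN j) htN f).trans ?_
    gcongr

/-- one step of the chain: some sides are tripled -/
lemma A_quad (N κ κ' : Fin 4 → ℕ) (s : ℕ) (h0 : ∀ j, 0 < κ j) (hN : ∀ j, κ j ∣ N j)
    (h : ∀ j, κ' j = κ j ∨ (κ' j = 3 * κ j ∧ κ j ≤ s)) (hN' : ∀ j, κ' j ∣ N j)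
    (f : Pt → ℝ) :
    ∑ x ∈ box N, (A κ' f x - A κ f x) ^ 2 ≤ 36 * (s : ℝ) ^ 2 * En N f := by
  have h0' : ∀ j, 0 < κ' j := by
    intro j
    have := h0 j
    rcases h j with h1 | ⟨h1, -⟩ <;> omega
  set κ1 := update κ 0 (κ' 0) with hκ1
  set κ2 := update κ1 1 (κ' 1) with hκ2
  set κ3 := update κ2 2 (κ' 2) with hκ3
  have hκ4 : κ' = update κ3 3 (κ' 3) := by
    funext j
    fin_cases j <;> simp [hκ1, hκ2, hκ3, update]
  have u1 : ∀ (g : Fin 4 → ℕ) (i : Fin 4), (∀ j, 0 < g j) → ∀ j, 0 < update g i (κ' i) j := by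
    intro g i hg j
    by_cases hj : j = i
    · subst hj; simpa using h0' j
    · rw [update_of_ne hj]; exact hg j
  have u2 : ∀ (g : Fin 4 → ℕ) (i : Fin 4), (∀ j, g j ∣ N j) → ∀ j, update g i (κ' i) j ∣ N j := by
    intro g i hg j
    by_cases hj : j = i
    · subst hj; simpa using hN' j
    · rw [update_of_ne hj]; exact hg j
  have s1 := A_step_one N κ 0 s (κ' 0) h0 hN (h 0) (hN' 0) f
  have s2 := A_step_one N κ1 1 s (κ' 1) (u1 κ 0 h0) (u2 κ 0 hN)
    (by have := h 1; simpa [hκ1, update] using this) (hN' 1) f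
  have s3 := A_step_one N κ2 2 s (κ' 2) (u1 κ1 1 (u1 κ 0 h0)) (u2 κ1 1 (u2 κ 0 hN))
    (by have := h 2; simpa [hκ1, hκ2, update] using this) (hN' 2) f
  have s4 := A_step_one N κ3 3 s (κ' 3) (u1 κ2 2 (u1 κ1 1 (u1 κ 0 h0)))
    (u2 κ2 2 (u2 κ1 1 (u2 κ 0 hN)))
    (by have := h 3; simpa [hκ1, hκ2, hκ3, update] using this) (hN' 3) f
  rw [← hκ1] at s1
  rw [← hκ2] at s2
  rw [← hκ3] at s3
  rw [← hκ4] at s4
  have hpt : ∀ x ∈ box N, (A κ' f x - A κ f x) ^ 2 ≤
      4 * ((A κ' f x - A κ3 f x) ^ 2 + (A κ3 f x - A κ2 f x) ^ 2 + (A κ2 f x - A κ1 f x) ^ 2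
        + (A κ1 f x - A κ f x) ^ 2) := by
    intro x _
    have := four_sq (A κ' f x - A κ3 f x) (A κ3 f x - A κ2 f x) (A κ2 f x - A κ1 f x)
      (A κ1 f x - A κ f x)
    have e : A κ' f x - A κ f x = (A κ' f x - A κ3 f x) + (A κ3 f x - A κ2 f x)
        + (A κ2 f x - A κ1 f x) + (A κ1 f x - A κ f x) := by
      ring
    rw [e]
    exact this
  refine (Finset.sum_le_sum hpt).trans ?_
  rw [← Finset.mul_sum, Finset.sum_add_distrib, Finset.sum_add_distrib, Finset.sum_add_distrib]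
  unfold En
  rw [Fin.sum_univ_four]
  nlinarith

/-- one step of the chain, pointwise bound -/
lemma A_pt (N κ κ' : Fin 4 → ℕ) (s : ℕ) (h0 : ∀ j, 0 < κ j) (hN : ∀ j, κ j ∣ N j)
    (h : ∀ j, κ' j = κ j ∨ (κ' j = 3 * κ j ∧ κ j ≤ s)) (hN' : ∀ j, κ' j ∣ N j)
    (f : Pt → ℝ) {x : Pt} (hx : x ∈ box N) :
    (A κ' f x - A κ f x) ^ 2 * (∏ j, (κ j : ℝ)) ≤ 36 * (s : ℝ) ^ 2 * En N f := by
  have h1 : ∀ j, Inv j (κ j) (fun x => A κ' f x - A κ f x) := by
    intro j
    refine Inv_sub ?_ (A_Inv κ f j)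
    have := A_Inv κ' f j
    rcases h j with h2 | ⟨h2, -⟩
    · rwa [h2] at this
    · rw [h2] at this
      exact Inv_mono this
  exact (sq_le_of_Inv h0 hN h1 hx).trans (A_quad N κ κ' s h0 hN h hN' f)

/-! ## Telescoping -/

lemma abs_tele (F φ : ℕ → ℝ) (m n : ℕ) (hmn : m ≤ n)
    (h : ∀ k, m ≤ k → k < n → |F (k + 1) - F k| ≤ φ k - φ (k + 1)) :
    |F n - F m| ≤ φ m - φ n := by
  induction n, hmn using Nat.le_induction with
  | base => simp
  | succ n hmn ih =>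
      have h1 := ih fun k hk hkn => h k hk (by omega)
      have h2 := h n hmn (by omega)
      have h3 : F (n + 1) - F m = (F (n + 1) - F n) + (F n - F m) := by ring
      rw [h3]
      refine (abs_add_le _ _).trans ?_
      linarith

/-- chaining over space cubes, time side `T` fixed -/
lemma chain3 (N : Fin 4 → ℕ) (f : Pt → ℝ) (m n T : ℕ) (hmn : m ≤ n) (hT : 0 < T)
    (hn : ∀ i, i ≠ 3 → 3 ^ n ∣ N i) (hTN : T ∣ N 3) {x : Pt} (hx : x ∈ box N) :
    |A ![3 ^ n, 3 ^ n, 3 ^ n, T] f x - A ![3 ^ m, 3 ^ m, 3 ^ m, T] f x| ≤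
      15 * √(En N f / (3 ^ m * T)) := by
  set S := √(En N f / T) with hS
  have hS0 : 0 ≤ S := Real.sqrt_nonneg _
  set q := √(1 / 3 : ℝ) with hq
  have hq0 : 0 ≤ q := Real.sqrt_nonneg _
  have hq2 : q ^ 2 = 1 / 3 := Real.sq_sqrt (by norm_num)
  have hq1 : q ≤ 3 / 5 := by nlinarith
  have hTr : (0 : ℝ) < T := by exact_mod_cast hT
  have hE := En_nonneg N f
  have hS2 : S ^ 2 = En N f / T := Real.sq_sqrt (by positivity)
  have key := abs_tele (fun k => A ![3 ^ k, 3 ^ k, 3 ^ k, T] f x) (fun k => 15 * S * q ^ k) m n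
    hmn ?_
  · refine key.trans ?_
    have h1 : √(En N f / (3 ^ m * T)) = S * q ^ m := by
      have h2 : En N f / (3 ^ m * T) = (S * q ^ m) ^ 2 := by
        rw [mul_pow, hS2, ← pow_mul, mul_comm m 2, pow_mul, hq2, div_pow, one_pow]
        field_simp
      rw [h2]
      exact Real.sqrt_sq (by positivity)
    rw [h1]
    have : 0 ≤ 15 * S * q ^ n := by positivity
    linarith
  · intro k hk hkn
    have hdiv : ∀ i, i ≠ 3 → 3 ^ (k + 1) ∣ N i := fun i hi =>
      (pow_dvd_pow 3 hkn).trans (hn i hi)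
    have hdiv' : ∀ i, i ≠ 3 → 3 ^ k ∣ N i := fun i hi =>
      (pow_dvd_pow 3 hkn.le).trans (hn i hi)
    have h1 := A_pt N ![3 ^ k, 3 ^ k, 3 ^ k, T] ![3 ^ (k + 1), 3 ^ (k + 1), 3 ^ (k + 1), T] (3 ^ k)
      (by intro j; fin_cases j <;> simp [hT])
      (by
        intro j
        fin_cases j
        · exact hdiv' 0 (by decide)
        · exact hdiv' 1 (by decide)
        · exact hdiv' 2 (by decide)
        · exact hTN)
      (by
        intro j
        fin_cases j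
        · right; simp [pow_succ, mul_comm]
        · right; simp [pow_succ, mul_comm]
        · right; simp [pow_succ, mul_comm]
        · left; simp)
      (by
        intro j
        fin_cases j
        · exact hdiv 0 (by decide)
        · exact hdiv 1 (by decide)
        · exact hdiv 2 (by decide)
        · exact hTN) f hx
    set D := A ![3 ^ (k + 1), 3 ^ (k + 1), 3 ^ (k + 1), T] f x
      - A ![3 ^ k, 3 ^ k, 3 ^ k, T] f x with hD
    have h2 : (∏ j, (((![3 ^ k, 3 ^ k, 3 ^ k, T] : Fin 4 → ℕ) j : ℕ) : ℝ))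
        = (3 ^ k) ^ 3 * T := by
      rw [Fin.prod_univ_four]
      change ((3 ^ k : ℕ) : ℝ) * ((3 ^ k : ℕ) : ℝ) * ((3 ^ k : ℕ) : ℝ) * (T : ℝ) = _
      push_cast
      ring
    rw [h2] at h1
    have h3 : D ^ 2 ≤ (6 * S * q ^ k) ^ 2 := by
      have h4 : (6 * S * q ^ k) ^ 2 = 36 * (En N f / T) / 3 ^ k := by
        rw [mul_pow, mul_pow, hS2, ← pow_mul, mul_comm k 2, pow_mul, hq2, div_pow, one_pow]
        ring
      rw [h4, le_div_iff₀ (by positivity)]
      have h5 : (0 : ℝ) < (3 ^ k) ^ 2 * T := by positivity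
      have h6 : D ^ 2 * 3 ^ k * ((3 ^ k) ^ 2 * T) ≤ 36 * (En N f / T) * ((3 ^ k) ^ 2 * T) := by
        have : 36 * (En N f / T) * ((3 ^ k) ^ 2 * T) = 36 * (3 ^ k) ^ 2 * En N f := by
          field_simp
        rw [this]
        push_cast at h1
        calc D ^ 2 * 3 ^ k * ((3 ^ k) ^ 2 * T) = D ^ 2 * ((3 ^ k) ^ 3 * T) := by ring
          _ ≤ _ := h1
      exact le_of_mul_le_mul_right h6 h5
    have h7 : |D| ≤ 6 * S * q ^ k := abs_le_of_sq_le_sq h3 (by positivity)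
    refine h7.trans ?_
    have h8 : 15 * S * q ^ k - 15 * S * q ^ (k + 1) = 15 * (S * q ^ k) * (1 - q) := by ring
    rw [h8]
    have h9 : 0 ≤ S * q ^ k := by positivity
    nlinarith

/-- chaining over space-time cubes -/
lemma chain4 (N : Fin 4 → ℕ) (f : Pt → ℝ) (m n : ℕ) (hmn : m ≤ n)
    (hn : ∀ i, 3 ^ n ∣ N i) {x : Pt} (hx : x ∈ box N) :
    |A ![3 ^ n, 3 ^ n, 3 ^ n, 3 ^ n] f x - A ![3 ^ m, 3 ^ m, 3 ^ m, 3 ^ m] f x| ≤
      9 * √(En N f) / 3 ^ m := by
  set S := √(En N f) with hS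
  have hS0 : 0 ≤ S := Real.sqrt_nonneg _
  have hE := En_nonneg N f
  have hS2 : S ^ 2 = En N f := Real.sq_sqrt hE
  have key := abs_tele (fun k => A ![3 ^ k, 3 ^ k, 3 ^ k, 3 ^ k] f x) (fun k => 9 * S / 3 ^ k) m n
    hmn ?_
  · refine key.trans ?_
    have : 0 ≤ 9 * S / 3 ^ n := by positivity
    linarith
  · intro k hk hkn
    have hdiv : ∀ i, 3 ^ (k + 1) ∣ N i := fun i => (pow_dvd_pow 3 hkn).trans (hn i)
    have hdiv' : ∀ i, 3 ^ k ∣ N i := fun i => (pow_dvd_pow 3 hkn.le).trans (hn i)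
    have h1 := A_pt N ![3 ^ k, 3 ^ k, 3 ^ k, 3 ^ k]
      ![3 ^ (k + 1), 3 ^ (k + 1), 3 ^ (k + 1), 3 ^ (k + 1)] (3 ^ k)
      (by intro j; fin_cases j <;> simp)
      (by
        intro j
        fin_cases j
        · exact hdiv' 0
        · exact hdiv' 1
        · exact hdiv' 2
        · exact hdiv' 3)
      (by
        intro j
        fin_cases j
        · right; simp [pow_succ, mul_comm]
        · right; simp [pow_succ, mul_comm]
        · right; simp [pow_succ, mul_comm]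
        · right; simp [pow_succ, mul_comm])
      (by
        intro j
        fin_cases j
        · exact hdiv 0
        · exact hdiv 1
        · exact hdiv 2
        · exact hdiv 3) f hx
    set D := A ![3 ^ (k + 1), 3 ^ (k + 1), 3 ^ (k + 1), 3 ^ (k + 1)] f x
      - A ![3 ^ k, 3 ^ k, 3 ^ k, 3 ^ k] f x with hD
    have h2 : (∏ j, (((![3 ^ k, 3 ^ k, 3 ^ k, 3 ^ k] : Fin 4 → ℕ) j : ℕ) : ℝ))
        = (3 ^ k) ^ 4 := by
      rw [Fin.prod_univ_four]
      simp
      ring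
    rw [h2] at h1
    have h3 : D ^ 2 ≤ (6 * S / 3 ^ k) ^ 2 := by
      rw [div_pow, mul_pow, hS2, le_div_iff₀ (by positivity)]
      have h5 : (0 : ℝ) < (3 ^ k) ^ 2 := by positivity
      have h6 : D ^ 2 * (3 ^ k) ^ 2 * (3 ^ k) ^ 2 ≤ 6 ^ 2 * En N f * (3 ^ k) ^ 2 := by
        push_cast at h1
        calc D ^ 2 * (3 ^ k) ^ 2 * (3 ^ k) ^ 2 = D ^ 2 * (3 ^ k) ^ 4 := by ring
          _ ≤ 36 * (3 ^ k) ^ 2 * En N f := h1
          _ = 6 ^ 2 * En N f * (3 ^ k) ^ 2 := by ring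
      exact le_of_mul_le_mul_right h6 h5
    have h7 : |D| ≤ 6 * S / 3 ^ k := abs_le_of_sq_le_sq h3 (by positivity)
    refine h7.trans (le_of_eq ?_)
    rw [pow_succ]
    field_simp
    ring

/-- chaining in time only, space side `3 ^ a` fixed -/
lemma chainT (N : Fin 4 → ℕ) (f : Pt → ℝ) (a n : ℕ)
    (ha : ∀ i, i ≠ 3 → 3 ^ a ∣ N i) (hn : 3 ^ n ∣ N 3) {x : Pt} (hx : x ∈ box N) :
    |A ![3 ^ a, 3 ^ a, 3 ^ a, 3 ^ n] f x - A ![3 ^ a, 3 ^ a, 3 ^ a, 1] f x| ≤
      9 * √(3 ^ n * En N f / 27 ^ a) := by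
  set S := √(En N f / 27 ^ a) with hS
  have hS0 : 0 ≤ S := Real.sqrt_nonneg _
  set q := √(3 : ℝ) with hq
  have hq0 : 0 ≤ q := Real.sqrt_nonneg _
  have hq2 : q ^ 2 = 3 := Real.sq_sqrt (by norm_num)
  have hq1 : 5 / 3 ≤ q := by nlinarith
  have hE := En_nonneg N f
  have hS2 : S ^ 2 = En N f / 27 ^ a := Real.sq_sqrt (by positivity)
  have key := abs_tele (fun k => A ![3 ^ a, 3 ^ a, 3 ^ a, 3 ^ k] f x)
    (fun k => - (9 * S * q ^ k)) 0 n (Nat.zero_le n) ?_
  · simp only [pow_zero] at key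
    refine key.trans ?_
    have h1 : √(3 ^ n * En N f / 27 ^ a) = S * q ^ n := by
      have h2 : 3 ^ n * En N f / 27 ^ a = (S * q ^ n) ^ 2 := by
        rw [mul_pow, hS2, ← pow_mul, mul_comm n 2, pow_mul, hq2]
        ring
      rw [h2]
      exact Real.sqrt_sq (by positivity)
    rw [h1]
    linarith
  · intro k _ hkn
    have hdiv : 3 ^ (k + 1) ∣ N 3 := (pow_dvd_pow 3 hkn).trans hn
    have hdiv' : 3 ^ k ∣ N 3 := (pow_dvd_pow 3 hkn.le).trans hn
    have h1 := A_pt N ![3 ^ a, 3 ^ a, 3 ^ a, 3 ^ k]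
      ![3 ^ a, 3 ^ a, 3 ^ a, 3 ^ (k + 1)] (3 ^ k)
      (by intro j; fin_cases j <;> simp)
      (by
        intro j
        fin_cases j
        · exact ha 0 (by decide)
        · exact ha 1 (by decide)
        · exact ha 2 (by decide)
        · exact hdiv')
      (by
        intro j
        fin_cases j
        · left; simp
        · left; simp
        · left; simp
        · right; simp [pow_succ, mul_comm])
      (by
        intro j
        fin_cases j
        · exact ha 0 (by decide)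
        · exact ha 1 (by decide)
        · exact ha 2 (by decide)
        · exact hdiv) f hx
    set D := A ![3 ^ a, 3 ^ a, 3 ^ a, 3 ^ (k + 1)] f x
      - A ![3 ^ a, 3 ^ a, 3 ^ a, 3 ^ k] f x with hD
    have h27 : ((27 : ℝ) ^ a) = (3 ^ a) ^ 3 := by
      rw [← pow_mul, mul_comm, pow_mul]; norm_num
    have h2 : (∏ j, (((![3 ^ a, 3 ^ a, 3 ^ a, 3 ^ k] : Fin 4 → ℕ) j : ℕ) : ℝ))
        = 27 ^ a * 3 ^ k := by
      rw [Fin.prod_univ_four, h27]
      simp
      ring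
    rw [h2] at h1
    have h3 : D ^ 2 ≤ (6 * S * q ^ k) ^ 2 := by
      have h4 : (6 * S * q ^ k) ^ 2 = 36 * 3 ^ k * En N f / 27 ^ a := by
        rw [mul_pow, mul_pow, hS2, ← pow_mul, mul_comm k 2, pow_mul, hq2]
        ring
      rw [h4, le_div_iff₀ (by positivity)]
      have h5 : (0 : ℝ) < 3 ^ k := by positivity
      have h6 : D ^ 2 * 27 ^ a * 3 ^ k ≤ 36 * 3 ^ k * En N f * 3 ^ k := by
        push_cast at h1
        calc D ^ 2 * 27 ^ a * 3 ^ k = D ^ 2 * (27 ^ a * 3 ^ k) := by ring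
          _ ≤ 36 * (3 ^ k) ^ 2 * En N f := h1
          _ = 36 * 3 ^ k * En N f * 3 ^ k := by ring
      exact le_of_mul_le_mul_right h6 h5
    have h7 : |D| ≤ 6 * S * q ^ k := abs_le_of_sq_le_sq h3 (by positivity)
    refine h7.trans ?_
    have h8 : -(9 * S * q ^ k) - -(9 * S * q ^ (k + 1)) = 9 * (S * q ^ k) * (q - 1) := by ring
    rw [h8]
    have h9 : 0 ≤ S * q ^ k := by positivity
    nlinarith

end Vale.Agent.P361.LRO.Geo
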