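import Vale.Agent.P361.LRO.Geo3

/-!
# P361, block GEO, part 4: the block average as a sum over a box, and the count of points where a
function exceeds its mean by `1 / 8`.
-/

namespace Vale.Agent.P361.LRO.Geo

open Finset Function

/-- the block average, written out -/
lemma A_eq (κ : Fin 4 → ℕ) (f : Pt → ℝ) (x : Pt) :
    A κ f x = (∑ a ∈ range (κ 0), ∑ b ∈ range (κ 1), ∑ c ∈ range (κ 2), ∑ d ∈ range (κ 3),
      f ![κ 0 * (x 0 / κ 0) + a, κ 1 * (x 1 / κ 1) + b, κ 2 * (x 2 / κ 2) + c,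
        κ 3 * (x 3 / κ 3) + d]) / (κ 0 * κ 1 * κ 2 * κ 3) := by
  have hup : ∀ a b c d : ℕ, update (update (update (update x 0 a) 1 b) 2 c) 3 d
      = ![a, b, c, d] := by
    intro a b c d
    funext j
    fin_cases j <;> simp [update]
  have h1 : ∀ y : Pt, ∀ a, update y 0 a 1 = y 1 := fun y a => by simp [update]
  have h2 : ∀ y : Pt, ∀ a, update y 0 a 2 = y 2 := fun y a => by simp [update]
  have h3 : ∀ y : Pt, ∀ a, update y 0 a 3 = y 3 := fun y a => by simp [update]
  have h4 : ∀ y : Pt, ∀ a, update y 1 a 2 = y 2 := fun y a => by simp [update]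
  have h5 : ∀ y : Pt, ∀ a, update y 1 a 3 = y 3 := fun y a => by simp [update]
  have h6 : ∀ y : Pt, ∀ a, update y 2 a 3 = y 3 := fun y a => by simp [update]
  unfold A P pav
  simp only [h1, h2, h3, h4, h5, h6, hup, Finset.sum_div]
  refine Finset.sum_congr rfl fun a _ => Finset.sum_congr rfl fun b _ =>
    Finset.sum_congr rfl fun c _ => Finset.sum_congr rfl fun d _ => ?_
  simp only [div_div]
  congr 1
  ring

lemma A_congr (κ : Fin 4 → ℕ) (f : Pt → ℝ) {x y : Pt} (h : ∀ i, y i / κ i = x i / κ i) :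
    A κ f y = A κ f x := Inv_all (A_Inv κ f) h

/-- count of the points where `f` exceeds a number close to its averages on blocks of side
at most `s` -/
lemma count_block (N κ : Fin 4 → ℕ) (s : ℕ) (h0 : ∀ j, 0 < κ j) (hN : ∀ j, κ j ∣ N j)
    (hs : ∀ j, κ j ≤ s) (f : Pt → ℝ) (v : ℝ)
    (hv : ∀ x ∈ box N, |A κ f x - v| ≤ 1 / 16) :
    (((box N).filter fun x => v + 1 / 8 ≤ f x).card : ℝ) ≤ 1024 * (s : ℝ) ^ 2 * En N f := by
  have h1 := A_sub_sum N κ s h0 hN hs f
  have h2 : ∑ x ∈ (box N).filter (fun x => v + 1 / 8 ≤ f x), (1 / 256 : ℝ) ≤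
      ∑ x ∈ box N, (A κ f x - f x) ^ 2 := by
    refine (Finset.sum_le_sum fun x hx => ?_).trans
      (Finset.sum_le_sum_of_subset_of_nonneg (Finset.filter_subset _ _)
        fun _ _ _ => sq_nonneg _)
    rw [Finset.mem_filter] at hx
    have h3 := (abs_le.1 (hv x hx.1)).2
    nlinarith [hx.2]
  rw [Finset.sum_const, nsmul_eq_mul] at h2
  nlinarith

end Vale.Agent.P361.LRO.Geo
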