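import Vale.Agent.P361.LRO.Geo4

/-!
# P361, block GEO, part 5: the two chaining lemmas in three dimensions

* `vol3`: if the mean of `f` over one `3`-adic subcube of side `3 ^ m` is at most `1 / 16` and the
  Dirichlet energy `E` of `f` on the cube of side `3 ^ M` is at most `3 ^ m / 57600`, then `f` is at
  least `1 / 4` on at most `1024 * E * (1 + 9 * (57600 * E) ^ 2)` points.
* `mean3_sub`: the means over two `3`-adic subcubes of side `3 ^ m` differ by at most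
  `30 * √(E / 3 ^ m)`.
-/

namespace Vale.Agent.P361.LRO.Geo

open Finset Function

/-- Dirichlet energy on the cube `{0, .., n - 1} ^ 3` -/
noncomputable def E3 (n : ℕ) (f : ℕ → ℕ → ℕ → ℝ) : ℝ :=
  ∑ x ∈ range n, ∑ y ∈ range n, ∑ z ∈ range n,
    ((if x + 1 < n then (f (x + 1) y z - f x y z) ^ 2 else 0) +
      (if y + 1 < n then (f x (y + 1) z - f x y z) ^ 2 else 0) +
      (if z + 1 < n then (f x y (z + 1) - f x y z) ^ 2 else 0))

/-- mean over the `3`-adic cube of side `3 ^ m` with corner `3 ^ m * (a, b, c)` -/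
noncomputable def mean3 (m : ℕ) (f : ℕ → ℕ → ℕ → ℝ) (a b c : ℕ) : ℝ :=
  (∑ x ∈ range (3 ^ m), ∑ y ∈ range (3 ^ m), ∑ z ∈ range (3 ^ m),
    f (3 ^ m * a + x) (3 ^ m * b + y) (3 ^ m * c + z)) / 27 ^ m

/-- `f` as a function on space-time points -/
def lift3 (f : ℕ → ℕ → ℕ → ℝ) : Pt → ℝ := fun p => f (p 0) (p 1) (p 2)

lemma sum_box (N : Fin 4 → ℕ) (G : Pt → ℝ) :
    ∑ p ∈ box N, G p = ∑ a ∈ range (N 0), ∑ b ∈ range (N 1), ∑ c ∈ range (N 2),
      ∑ d ∈ range (N 3), G ![a, b, c, d] := by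
  have h1 : ∑ p ∈ box N, G p = ∑ q ∈ range (N 0) ×ˢ range (N 1) ×ˢ range (N 2) ×ˢ range (N 3),
      G ![q.1, q.2.1, q.2.2.1, q.2.2.2] := by
    refine Finset.sum_bij' (fun p _ => (p 0, p 1, p 2, p 3))
      (fun q _ => ![q.1, q.2.1, q.2.2.1, q.2.2.2]) ?_ ?_ ?_ ?_ ?_
    · intro p hp
      rw [mem_box] at hp
      simp only [Finset.mem_product, Finset.mem_range]
      exact ⟨hp 0, hp 1, hp 2, hp 3⟩
    · intro q hq
      simp only [Finset.mem_product, Finset.mem_range] at hq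
      rw [mem_box]
      intro i
      fin_cases i
      · exact hq.1
      · exact hq.2.1
      · exact hq.2.2.1
      · exact hq.2.2.2
    · intro p _
      funext i
      fin_cases i <;> rfl
    · intro q _
      rfl
    · intro p _
      congr 1
      funext i
      fin_cases i <;> rfl
  rw [h1, Finset.sum_product]
  refine Finset.sum_congr rfl fun a _ => ?_
  rw [Finset.sum_product]
  refine Finset.sum_congr rfl fun b _ => ?_
  rw [Finset.sum_product]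

lemma En_lift3 (n : ℕ) (f : ℕ → ℕ → ℕ → ℝ) : En ![n, n, n, 1] (lift3 f) = E3 n f := by
  unfold En en
  rw [Fin.sum_univ_four, ← Finset.sum_add_distrib, ← Finset.sum_add_distrib,
    ← Finset.sum_add_distrib, sum_box]
  unfold E3
  refine Finset.sum_congr rfl fun a _ => Finset.sum_congr rfl fun b _ =>
    Finset.sum_congr rfl fun c _ => ?_
  have hr : range ((![n, n, n, 1] : Fin 4 → ℕ) 3) = {0} := rfl
  rw [hr, Finset.sum_singleton]
  simp [lift3, update]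

lemma A_mean3 (m : ℕ) (f : ℕ → ℕ → ℕ → ℝ) (x : Pt) (a b c : ℕ)
    (ha : x 0 / 3 ^ m = a) (hb : x 1 / 3 ^ m = b) (hc : x 2 / 3 ^ m = c) :
    A ![3 ^ m, 3 ^ m, 3 ^ m, 1] (lift3 f) x = mean3 m f a b c := by
  rw [A_eq]
  unfold mean3
  have e0 : (![3 ^ m, 3 ^ m, 3 ^ m, 1] : Fin 4 → ℕ) 0 = 3 ^ m := rfl
  have e1 : (![3 ^ m, 3 ^ m, 3 ^ m, 1] : Fin 4 → ℕ) 1 = 3 ^ m := rfl
  have e2 : (![3 ^ m, 3 ^ m, 3 ^ m, 1] : Fin 4 → ℕ) 2 = 3 ^ m := rfl
  have e3 : (![3 ^ m, 3 ^ m, 3 ^ m, 1] : Fin 4 → ℕ) 3 = 1 := rfl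
  rw [e0, e1, e2, e3, ha, hb, hc]
  have h27 : ((27 : ℝ) ^ m) = (3 ^ m) ^ 3 := by
    rw [← pow_mul, mul_comm, pow_mul]; norm_num
  rw [h27]
  push_cast
  congr 1
  · refine Finset.sum_congr rfl fun i _ => Finset.sum_congr rfl fun j _ =>
      Finset.sum_congr rfl fun k _ => ?_
    rw [Finset.range_one, Finset.sum_singleton]
    rfl
  · ring

lemma E3_nonneg (n : ℕ) (f : ℕ → ℕ → ℕ → ℝ) : 0 ≤ E3 n f := by
  rw [← En_lift3]
  exact En_nonneg _ _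

lemma cube_dvd (M k : ℕ) (hk : k ≤ M) :
    ∀ i : Fin 4, i ≠ 3 → 3 ^ k ∣ (![3 ^ M, 3 ^ M, 3 ^ M, 1] : Fin 4 → ℕ) i := by
  intro i hi
  fin_cases i
  · exact pow_dvd_pow 3 hk
  · exact pow_dvd_pow 3 hk
  · exact pow_dvd_pow 3 hk
  · exact absurd rfl hi

/-- chaining in three dimensions: from a subcube to the whole cube -/
lemma mean3_sub_top (M m : ℕ) (hm : m ≤ M) (f : ℕ → ℕ → ℕ → ℝ) (a b c : ℕ)
    (ha : 3 ^ m * a < 3 ^ M) (hb : 3 ^ m * b < 3 ^ M) (hc : 3 ^ m * c < 3 ^ M) :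
    |mean3 M f 0 0 0 - mean3 m f a b c| ≤ 15 * √(E3 (3 ^ M) f / 3 ^ m) := by
  set x : Pt := ![3 ^ m * a, 3 ^ m * b, 3 ^ m * c, 0] with hx
  have h3 : 0 < 3 ^ m := by positivity
  have hxb : x ∈ box ![3 ^ M, 3 ^ M, 3 ^ M, 1] := by
    rw [mem_box]
    intro i
    fin_cases i
    · exact ha
    · exact hb
    · exact hc
    · exact one_pos
  have h1 := chain3 ![3 ^ M, 3 ^ M, 3 ^ M, 1] (lift3 f) m M 1 hm one_pos
    (cube_dvd M M le_rfl) (one_dvd _) hxb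
  rw [A_mean3 m f x a b c (Nat.mul_div_cancel_left a h3) (Nat.mul_div_cancel_left b h3)
    (Nat.mul_div_cancel_left c h3),
    A_mean3 M f x 0 0 0 (Nat.div_eq_of_lt ha) (Nat.div_eq_of_lt hb) (Nat.div_eq_of_lt hc),
    En_lift3] at h1
  simpa using h1

/-- means over two `3`-adic subcubes of the same side -/
theorem mean3_sub (M m : ℕ) (hm : m ≤ M) (f : ℕ → ℕ → ℕ → ℝ) (a b c a' b' c' : ℕ)
    (ha : 3 ^ m * a < 3 ^ M) (hb : 3 ^ m * b < 3 ^ M) (hc : 3 ^ m * c < 3 ^ M)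
    (ha' : 3 ^ m * a' < 3 ^ M) (hb' : 3 ^ m * b' < 3 ^ M) (hc' : 3 ^ m * c' < 3 ^ M) :
    |mean3 m f a b c - mean3 m f a' b' c'| ≤ 30 * √(E3 (3 ^ M) f / 3 ^ m) := by
  have h1 := mean3_sub_top M m hm f a b c ha hb hc
  have h2 := mean3_sub_top M m hm f a' b' c' ha' hb' hc'
  rw [abs_le] at *
  constructor <;> linarith [h1.1, h1.2, h2.1, h2.2]

/-- there is a good scale -/
lemma exists_scale (M : ℕ) (t : ℝ) :
    ∃ k ≤ M, (t ≤ 3 ^ k ∨ k = M) ∧ (k = 0 ∨ (3 : ℝ) ^ k ≤ 3 * t) := by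
  classical
  have hex : ∃ k, t ≤ 3 ^ k ∨ k = M := ⟨M, Or.inr rfl⟩
  refine ⟨Nat.find hex, Nat.find_min' hex (Or.inr rfl), Nat.find_spec hex, ?_⟩
  rcases Nat.eq_zero_or_pos (Nat.find hex) with h | h
  · exact Or.inl h
  · right
    have h1 := Nat.find_min hex (m := Nat.find hex - 1) (by omega)
    rw [not_or, not_le] at h1
    have h2 : (3 : ℝ) ^ Nat.find hex = 3 * 3 ^ (Nat.find hex - 1) := by
      conv_lhs => rw [show Nat.find hex = (Nat.find hex - 1) + 1 by omega]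
      rw [pow_succ]
      ring
    rw [h2]
    linarith [h1.1]

/-- the volume lemma, relative to the mean over the whole cube -/
theorem vol3_mean (M : ℕ) (f : ℕ → ℕ → ℕ → ℝ) :
    (((range (3 ^ M) ×ˢ range (3 ^ M) ×ˢ range (3 ^ M)).filter
        fun p => mean3 M f 0 0 0 + 1 / 8 ≤ f p.1 p.2.1 p.2.2).card : ℝ) ≤
      1024 * E3 (3 ^ M) f * (1 + 9 * (57600 * E3 (3 ^ M) f) ^ 2) := by
  set E := E3 (3 ^ M) f with hE
  have hE0 : 0 ≤ E := E3_nonneg _ _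
  set v := mean3 M f 0 0 0 with hv
  obtain ⟨k, hkM, hk1, hk2⟩ := exists_scale M (57600 * E)
  have hN : ∀ j, (![3 ^ k, 3 ^ k, 3 ^ k, 1] : Fin 4 → ℕ) j ∣
      (![3 ^ M, 3 ^ M, 3 ^ M, 1] : Fin 4 → ℕ) j := by
    intro j
    fin_cases j
    · exact pow_dvd_pow 3 hkM
    · exact pow_dvd_pow 3 hkM
    · exact pow_dvd_pow 3 hkM
    · exact one_dvd _
  have h3k : 0 < 3 ^ k := by positivity
  have hs : ∀ j, (![3 ^ k, 3 ^ k, 3 ^ k, 1] : Fin 4 → ℕ) j ≤ 3 ^ k := by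
    intro j
    fin_cases j
    · exact le_rfl
    · exact le_rfl
    · exact le_rfl
    · exact h3k
  have hpos : ∀ j, 0 < (![3 ^ k, 3 ^ k, 3 ^ k, 1] : Fin 4 → ℕ) j := by
    intro j
    fin_cases j
    · exact h3k
    · exact h3k
    · exact h3k
    · exact one_pos
  have hdist : ∀ x ∈ box ![3 ^ M, 3 ^ M, 3 ^ M, 1],
      |A ![3 ^ k, 3 ^ k, 3 ^ k, 1] (lift3 f) x - v| ≤ 1 / 16 := by
    intro x hx
    have h0 := (mem_box.1 hx) 0
    have h1 := (mem_box.1 hx) 1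
    have h2 := (mem_box.1 hx) 2
    have hvx : A ![3 ^ M, 3 ^ M, 3 ^ M, 1] (lift3 f) x = v :=
      A_mean3 M f x 0 0 0 (Nat.div_eq_of_lt h0) (Nat.div_eq_of_lt h1) (Nat.div_eq_of_lt h2)
    rcases hk1 with hk1 | hk1
    · have hc := chain3 ![3 ^ M, 3 ^ M, 3 ^ M, 1] (lift3 f) k M 1 hkM one_pos
        (cube_dvd M M le_rfl) (one_dvd _) hx
      rw [hvx, En_lift3, ← hE, abs_sub_comm] at hc
      refine hc.trans ?_
      have h4 : √(E / (3 ^ k * ((1 : ℕ) : ℝ))) ≤ 1 / 240 := by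
        rw [Real.sqrt_le_left (by norm_num)]
        rw [div_le_iff₀ (by positivity)]
        push_cast
        linarith
      linarith
    · rw [hk1, hvx]
      norm_num
  have hcount := count_block ![3 ^ M, 3 ^ M, 3 ^ M, 1] ![3 ^ k, 3 ^ k, 3 ^ k, 1] (3 ^ k)
    hpos hN hs (lift3 f) v hdist
  rw [En_lift3, ← hE] at hcount
  have hcard : ((range (3 ^ M) ×ˢ range (3 ^ M) ×ˢ range (3 ^ M)).filter
        fun p => v + 1 / 8 ≤ f p.1 p.2.1 p.2.2).card ≤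
      ((box ![3 ^ M, 3 ^ M, 3 ^ M, 1]).filter fun x => v + 1 / 8 ≤ lift3 f x).card := by
    refine Finset.card_le_card_of_injOn (fun p => ![p.1, p.2.1, p.2.2, 0]) ?_ ?_
    · intro p hp
      rw [Finset.mem_coe, Finset.mem_filter] at hp ⊢
      simp only [Finset.mem_product, Finset.mem_range] at hp
      refine ⟨?_, hp.2⟩
      rw [mem_box]
      intro i
      fin_cases i
      · exact hp.1.1
      · exact hp.1.2.1
      · exact hp.1.2.2
      · exact one_pos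
    · intro p _ q _ hpq
      have e0 := congrFun hpq 0
      have e1 := congrFun hpq 1
      have e2 := congrFun hpq 2
      exact Prod.ext e0 (Prod.ext e1 e2)
  have hcard' : (((range (3 ^ M) ×ˢ range (3 ^ M) ×ˢ range (3 ^ M)).filter
        fun p => v + 1 / 8 ≤ f p.1 p.2.1 p.2.2).card : ℝ) ≤
      (((box ![3 ^ M, 3 ^ M, 3 ^ M, 1]).filter fun x => v + 1 / 8 ≤ lift3 f x).card : ℝ) := by
    exact_mod_cast hcard
  refine hcard'.trans (hcount.trans ?_)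
  have hsq : (((3 ^ k : ℕ) : ℝ)) ^ 2 ≤ 1 + 9 * (57600 * E) ^ 2 := by
    push_cast
    rcases hk2 with hk2 | hk2
    · rw [hk2]
      have : 0 ≤ (57600 * E) ^ 2 := sq_nonneg _
      norm_num
      positivity
    · have h5 : (0 : ℝ) < 3 ^ k := by positivity
      have h6 : ((3 : ℝ) ^ k) ^ 2 ≤ (3 * (57600 * E)) ^ 2 := pow_le_pow_left₀ h5.le hk2 2
      nlinarith
  calc 1024 * (((3 ^ k : ℕ) : ℝ)) ^ 2 * E = 1024 * E * (((3 ^ k : ℕ) : ℝ)) ^ 2 := by ring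
    _ ≤ 1024 * E * (1 + 9 * (57600 * E) ^ 2) :=
      mul_le_mul_of_nonneg_left hsq (by positivity)

/-- the volume lemma -/
theorem vol3 (M m : ℕ) (hm : m ≤ M) (f : ℕ → ℕ → ℕ → ℝ) (a b c : ℕ)
    (ha : 3 ^ m * a < 3 ^ M) (hb : 3 ^ m * b < 3 ^ M) (hc : 3 ^ m * c < 3 ^ M)
    (hmean : mean3 m f a b c ≤ 1 / 16) (hE : 57600 * E3 (3 ^ M) f ≤ 3 ^ m) :
    (((range (3 ^ M) ×ˢ range (3 ^ M) ×ˢ range (3 ^ M)).filter
        fun p => 1 / 4 ≤ f p.1 p.2.1 p.2.2).card : ℝ) ≤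
      1024 * E3 (3 ^ M) f * (1 + 9 * (57600 * E3 (3 ^ M) f) ^ 2) := by
  have h1 := mean3_sub_top M m hm f a b c ha hb hc
  have h2 : √(E3 (3 ^ M) f / 3 ^ m) ≤ 1 / 240 := by
    rw [Real.sqrt_le_left (by norm_num), div_le_iff₀ (by positivity)]
    linarith
  have h3 : mean3 M f 0 0 0 ≤ 1 / 8 := by
    have := (abs_le.1 h1).2
    linarith
  refine le_trans ?_ (vol3_mean M f)
  have h4 : ((range (3 ^ M) ×ˢ range (3 ^ M) ×ˢ range (3 ^ M)).filter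
        fun p => 1 / 4 ≤ f p.1 p.2.1 p.2.2) ⊆
      ((range (3 ^ M) ×ˢ range (3 ^ M) ×ˢ range (3 ^ M)).filter
        fun p => mean3 M f 0 0 0 + 1 / 8 ≤ f p.1 p.2.1 p.2.2) := by
    intro p hp
    rw [Finset.mem_filter] at hp ⊢
    exact ⟨hp.1, by linarith [hp.2]⟩
  exact_mod_cast Finset.card_le_card h4

/-- Cauchy-Schwarz for the mean -/
lemma mean3_sq_le (m : ℕ) (f : ℕ → ℕ → ℕ → ℝ) (a b c : ℕ) :
    (mean3 m f a b c) ^ 2 ≤ mean3 m (fun x y z => f x y z ^ 2) a b c := by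
  unfold mean3
  have h27 : (0 : ℝ) < 27 ^ m := by positivity
  have h3 : ((27 : ℝ) ^ m) = (3 ^ m) * (3 ^ m) * (3 ^ m) := by
    rw [show (27 : ℝ) = 3 * 3 * 3 by norm_num, mul_pow, mul_pow]
  have hcs : (∑ x ∈ range (3 ^ m), ∑ y ∈ range (3 ^ m), ∑ z ∈ range (3 ^ m),
      f (3 ^ m * a + x) (3 ^ m * b + y) (3 ^ m * c + z)) ^ 2 ≤
      27 ^ m * ∑ x ∈ range (3 ^ m), ∑ y ∈ range (3 ^ m), ∑ z ∈ range (3 ^ m),
      f (3 ^ m * a + x) (3 ^ m * b + y) (3 ^ m * c + z) ^ 2 := by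
    have h4 := sq_sum_le_card_mul_sum_sq
      (s := range (3 ^ m) ×ˢ range (3 ^ m) ×ˢ range (3 ^ m))
      (f := fun p => f (3 ^ m * a + p.1) (3 ^ m * b + p.2.1) (3 ^ m * c + p.2.2))
    rw [Finset.sum_product, Finset.sum_product] at h4
    simp only [Finset.sum_product] at h4
    rw [Finset.card_product, Finset.card_product, Finset.card_range] at h4
    push_cast at h4
    rw [h3, mul_assoc (3 ^ m : ℝ)]
    exact h4
  rw [div_pow, div_le_div_iff₀ (by positivity) h27]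
  nlinarith

end Vale.Agent.P361.LRO.Geo
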