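import Vale.Agent.P361.LRO.LY.Reg

/-!
P361, step (8): the name `reg` for `LY.regStmt`.
-/

namespace Vale.Agent.P361.LRO

/-- Step (8): the Lee-Yang regularity. -/
theorem reg : RegStmt := LY.regStmt

end Vale.Agent.P361.LRO
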