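import Vale.Agent.P361.LRO.NetODEConv

/-!
# Network ODE (note 9886, step (3)): dual form, general time dependent contact term
-/

namespace P361.LRO

open Finset Set Filter Topology

variable {V : Type*} [Fintype V] [DecidableEq V]

theorem NetFlow.dual_upper_regG {c c' : ℝ → V → V → ℝ} {r : ℝ → V → ℝ} {E G : Set V} {ε : ℝ}
    (H : NetFlow c c' r E G ε) (q : V → ℝ) {T W R0 : ℝ} {g g' : ℝ → ℝ} (hT : 0 ≤ T)
    (hg0 : g 0 = 0) (hg : ∀ s, 0 ≤ s → 0 ≤ g s) (hg' : ∀ s, 0 ≤ s → 0 ≤ g' s)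
    (hgc : ContinuousOn g (Set.Ici 0))
    (hgd : ∀ s, 0 ≤ s → HasDerivWithinAt g (g' s) (Set.Ici s) s)
    (hW0 : 0 ≤ W) (hR00 : 0 ≤ R0)
    (hq : ∀ s, 0 ≤ s → s ≤ T → ∑ z, r s z * (q z ^ 2 / netV (c s) z) ≤ g' s)
    (hW : ∀ s, 0 ≤ s → s ≤ T → ∑ z, r s z * (netV (c s) z)⁻¹ ≤ W)
    (hR0 : ∀ u : V → ℝ, (∀ x ∈ E, u x = 0) → 2 * ∑ x, q x * u x - netK (c 0) u ≤ R0)
    {l : ℝ} (hl : 0 < l) {η : ℝ} (hη : 0 < η) :
    dualR E (c T) q l ≤ Real.exp ((4 * ε + (1 + η⁻¹) * l * W + η) * T)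
      * (R0 + η + (1 + η) * g T) := by
  set K := 4 * ε + (1 + η⁻¹) * l * W with hK
  have hε := H.eps
  have hK0 : 0 ≤ K := by rw [hK]; positivity
  have hf : ContinuousOn (fun s => dualR E (c s) q l) (Set.Icc 0 T) :=
    (H.continuousOn_dualR q hl).mono Set.Icc_subset_Ici_self
  have hRnn : ∀ s, 0 ≤ s → 0 ≤ dualR E (c s) q l := by
    intro s hs
    have h0E : (0 : V → ℝ) ∈ dualAdm E := fun x _ => rfl
    have := dualJ_le_dualR (H.nn s hs) q hl h0E
    simpa [dualJ, netK] using this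
  refine image_le_of_liminf_slope_right_lt_deriv_boundary' (f := fun s => dualR E (c s) q l)
    (f' := fun s => (1 + η) * g' s + K * dualR E (c s) q l)
    (a := 0) (b := T) hf
    (B := fun s => Real.exp ((K + η) * s) * (R0 + η + (1 + η) * g s))
    (B' := fun s => (K + η) * (Real.exp ((K + η) * s) * (R0 + η + (1 + η) * g s))
      + Real.exp ((K + η) * s) * ((1 + η) * g' s)) ?_ ?_ ?_ ?_ ?_ (x := T) ⟨hT, le_rfl⟩
  · -- slope
    intro s hs b hb
    have hb' : ((1 + η) * ∑ z, r s z * (q z ^ 2 / netV (c s) z)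
         + (1 + η⁻¹) * (l * dualR E (c s) q l) * ∑ z, r s z * (netV (c s) z)⁻¹)
      + 4 * ε * dualR E (c s) q l < b := by
      refine lt_of_le_of_lt ?_ hb
      have e1 := mul_le_mul_of_nonneg_left (hq s hs.1 hs.2.le) (by positivity : 0 ≤ 1 + η)
      have hRs := hRnn s hs.1
      have e2 := mul_le_mul_of_nonneg_left (hW s hs.1 hs.2.le)
        (by positivity : 0 ≤ (1 + η⁻¹) * (l * dualR E (c s) q l))
      rw [hK]
      have e3 : (4 * ε + (1 + η⁻¹) * l * W) * dualR E (c s) q l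
          = 4 * ε * dualR E (c s) q l + (1 + η⁻¹) * (l * dualR E (c s) q l) * W := by ring
      rw [e3]
      linarith
    have := H.dual_dini q hl hη hs.1 hb'
    refine Eventually.frequently (this.mono fun z hz => ?_)
    rw [slope_def_field, div_eq_inv_mul]
    exact hz
  · -- initial value
    obtain ⟨u, huE, hu, _, _⟩ := exists_max E (H.nn 0 le_rfl) q hl
    have e1 := hR0 u huE
    have e2 : 0 ≤ l * ∑ x, u x ^ 2 := mul_nonneg hl.le (Finset.sum_nonneg fun _ _ => sq_nonneg _)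
    simp only [mul_zero, Real.exp_zero, one_mul, hg0, add_zero]
    rw [← hu]
    unfold dualJ
    linarith
  · refine ContinuousOn.mul (by fun_prop) ?_
    exact ((hgc.mono Set.Icc_subset_Ici_self).const_mul _).const_add _
  · intro s hs
    have h1 : HasDerivAt (fun s : ℝ => Real.exp ((K + η) * s)) (Real.exp ((K + η) * s) * (K + η)) s := by
      have := ((hasDerivAt_id s).const_mul (K + η)).exp
      simpa using this
    have h2 : HasDerivWithinAt (fun s : ℝ => R0 + η + (1 + η) * g s)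
        ((1 + η) * g' s) (Set.Ici s) s :=
      ((hgd s hs.1).const_mul _).const_add _
    have h3 := h1.hasDerivWithinAt.mul h2
    refine h3.congr_deriv ?_
    ring
  · intro s hs heq
    have hs0 := hs.1

    rw [heq]
    have hgs := hg s hs0
    have hgs' := hg' s hs0
    have hBpos : 0 < Real.exp ((K + η) * s) * (R0 + η + (1 + η) * g s) := by
      have h2 : 0 < R0 + η + (1 + η) * g s := by positivity
      positivity
    have h1 : (1 + η) * g' s ≤ Real.exp ((K + η) * s) * ((1 + η) * g' s) := by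
      have h2 : 1 ≤ Real.exp ((K + η) * s) := Real.one_le_exp (by positivity)
      have h3 : 0 ≤ (1 + η) * g' s := by positivity
      nlinarith
    nlinarith [mul_pos hη hBpos]

/-- **Network ODE, dual form** (note 9886, step (3)). -/
theorem NetFlow.dual_upperG {c c' : ℝ → V → V → ℝ} {r : ℝ → V → ℝ} {E G : Set V} {ε : ℝ}
    (H : NetFlow c c' r E G ε) (q : V → ℝ) {T W R0 : ℝ} {g g' : ℝ → ℝ} (hT : 0 ≤ T)
    (hg0 : g 0 = 0) (hg : ∀ s, 0 ≤ s → 0 ≤ g s) (hg' : ∀ s, 0 ≤ s → 0 ≤ g' s)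
    (hgc : ContinuousOn g (Set.Ici 0))
    (hgd : ∀ s, 0 ≤ s → HasDerivWithinAt g (g' s) (Set.Ici s) s)
    (hq : ∀ s, 0 ≤ s → s ≤ T → ∑ z, r s z * (q z ^ 2 / netV (c s) z) ≤ g' s)
    (hW : ∀ s, 0 ≤ s → s ≤ T → ∑ z, r s z * (netV (c s) z)⁻¹ ≤ W)
    (hR0 : ∀ u : V → ℝ, (∀ x ∈ E, u x = 0) → 2 * ∑ x, q x * u x - netK (c 0) u ≤ R0)
    {u : V → ℝ} (hu : ∀ x ∈ E, u x = 0) :
    2 * ∑ x, q x * u x - netK (c T) u ≤ Real.exp (4 * ε * T) * (R0 + g T) := by
  have hR00 : 0 ≤ R0 := by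
    have := hR0 0 (fun _ _ => rfl)
    simpa [netK] using this
  have hW' : ∀ s, 0 ≤ s → s ≤ T → ∑ z, r s z * (netV (c s) z)⁻¹ ≤ max W 0 :=
    fun s h1 h2 => (hW s h1 h2).trans (le_max_left _ _)
  have hreg : ∀ t : ℝ, 0 < t → 2 * ∑ x, q x * u x - netK (c T) u - t ^ 2 * ∑ x, u x ^ 2 ≤
      Real.exp ((4 * ε + (t ^ 2 + t) * max W 0 + t) * T)
      * (R0 + t + (1 + t) * g T) := by
    intro t ht
    have h1 := H.dual_upper_regG q hT hg0 hg hg' hgc hgd (le_max_right W 0) hR00 hq hW' hR0 (l := t ^ 2)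
      (by positivity) ht
    have h2 := dualJ_le_dualR (H.nn T hT) q (l := t ^ 2) (by positivity) hu
    have h3 : (1 + t⁻¹) * t ^ 2 = t ^ 2 + t := by field_simp
    rw [h3] at h1
    unfold dualJ at h2
    exact h2.trans h1
  have hl1 : Tendsto (fun t : ℝ => 2 * ∑ x, q x * u x - netK (c T) u - t ^ 2 * ∑ x, u x ^ 2)
      (𝓝[>] 0) (𝓝 (2 * ∑ x, q x * u x - netK (c T) u - 0 ^ 2 * ∑ x, u x ^ 2)) := by
    refine Tendsto.mono_left ?_ nhdsWithin_le_nhds
    exact (Continuous.tendsto (by fun_prop) 0)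
  have hl2 : Tendsto (fun t : ℝ => Real.exp ((4 * ε + (t ^ 2 + t) * max W 0 + t) * T)
      * (R0 + t + (1 + t) * g T)) (𝓝[>] 0)
      (𝓝 (Real.exp ((4 * ε + (0 ^ 2 + 0) * max W 0 + 0) * T)
      * (R0 + 0 + (1 + 0) * g T))) := by
    refine Tendsto.mono_left ?_ nhdsWithin_le_nhds
    have hc : Continuous (fun t : ℝ => Real.exp ((4 * ε + (t ^ 2 + t) * max W 0 + t) * T)
      * (R0 + t + (1 + t) * g T)) := by fun_prop
    exact hc.tendsto 0
  have hle := le_of_tendsto_of_tendsto hl1 hl2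
    (by filter_upwards [self_mem_nhdsWithin] with t ht using hreg t ht)
  simpa using hle


/-- Dual ODE for upper bounds of the resistance, `u = 0` on the electrode, general contact term. -/
theorem NetFlow.RB_lower0G {c c' : ℝ → V → V → ℝ} {r : ℝ → V → ℝ} {E G : Set V} {ε : ℝ}
    (H : NetFlow c c' r E G ε) (q : V → ℝ) {T W R : ℝ} {g g' : ℝ → ℝ} (hT : 0 ≤ T)
    (hg0 : g 0 = 0) (hg : ∀ s, 0 ≤ s → 0 ≤ g s) (hg' : ∀ s, 0 ≤ s → 0 ≤ g' s)
    (hgc : ContinuousOn g (Set.Ici 0))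
    (hgd : ∀ s, 0 ≤ s → HasDerivWithinAt g (g' s) (Set.Ici s) s) (hR : 0 ≤ R)
    (hq : ∀ s, 0 ≤ s → s ≤ T → ∑ z, r s z * (q z ^ 2 / netV (c s) z) ≤ g' s)
    (hW : ∀ s, 0 ≤ s → s ≤ T → ∑ z, r s z * (netV (c s) z)⁻¹ ≤ W)
    (hR0 : ∀ u : V → ℝ, (∀ x ∈ E, u x = 0) → (∑ x, q x * u x) ^ 2 ≤ R * netK (c 0) u)
    {u : V → ℝ} (hu : ∀ x ∈ E, u x = 0) :
    (∑ x, q x * u x) ^ 2 ≤ (Real.exp (4 * ε * T) * (R + g T)) * netK (c T) u := by
  have hRT : 0 ≤ Real.exp (4 * ε * T) * (R + g T) := by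
    have := hg T hT
    positivity
  refine (sq_le_iff_quad (H.nn T hT) hRT).mpr ?_ u hu
  intro u hu
  exact H.dual_upperG q hT hg0 hg hg' hgc hgd hq hW
    ((sq_le_iff_quad (H.nn 0 le_rfl) hR).mp hR0) hu

/-- Dual ODE for upper bounds of the resistance, `a = 1` on the electrode, unit charge `q`,
general contact term. -/
theorem NetFlow.RB_lowerG {c c' : ℝ → V → V → ℝ} {r : ℝ → V → ℝ} {E G : Set V} {ε : ℝ}
    (H : NetFlow c c' r E G ε) (q : V → ℝ) (hq1 : ∑ x, q x = 1)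
    {T W R : ℝ} {g g' : ℝ → ℝ} (hT : 0 ≤ T)
    (hg0 : g 0 = 0) (hg : ∀ s, 0 ≤ s → 0 ≤ g s) (hg' : ∀ s, 0 ≤ s → 0 ≤ g' s)
    (hgc : ContinuousOn g (Set.Ici 0))
    (hgd : ∀ s, 0 ≤ s → HasDerivWithinAt g (g' s) (Set.Ici s) s) (hR : 0 ≤ R)
    (hq : ∀ s, 0 ≤ s → s ≤ T → ∑ z, r s z * (q z ^ 2 / netV (c s) z) ≤ g' s)
    (hW : ∀ s, 0 ≤ s → s ≤ T → ∑ z, r s z * (netV (c s) z)⁻¹ ≤ W)
    (hR0 : ∀ a : V → ℝ, (∀ x ∈ E, a x = 1) → (1 - ∑ x, q x * a x) ^ 2 ≤ R * netK (c 0) a)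
    {a : V → ℝ} (ha : ∀ x ∈ E, a x = 1) :
    (1 - ∑ x, q x * a x) ^ 2 ≤ (Real.exp (4 * ε * T) * (R + g T)) * netK (c T) a := by
  have hconv : ∀ a : V → ℝ, ∑ x, q x * (1 - a x) = 1 - ∑ x, q x * a x := by
    intro a
    have h1 : ∑ x, q x * (1 - a x) = ∑ x, q x - ∑ x, q x * a x := by
      rw [← Finset.sum_sub_distrib]
      exact Finset.sum_congr rfl fun x _ => by ring
    rw [h1, hq1]
  have h := H.RB_lower0G q hT hg0 hg hg' hgc hgd hR hq hW (fun u hu => by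
    have h1 := hR0 (fun x => 1 - u x) (fun x hx => by simp [hu x hx])
    rw [netK_one_sub] at h1
    have h2 := hconv (fun x => 1 - u x)
    simp only [sub_sub_cancel] at h2
    rw [h2]
    exact h1) (u := fun x => 1 - a x) (fun x hx => by simp [ha x hx])
  rw [netK_one_sub, hconv] at h
  exact h

/-- The contact function `4 q² (min (e^s / a) (1 / b) - 1 / a)` of one node, `0 < b ≤ a`. -/
noncomputable def gNode (C a b s : ℝ) : ℝ := C * (min (Real.exp s / a) (1 / b) - 1 / a)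

/-- Its right derivative. -/
noncomputable def gNode' (C a b s : ℝ) : ℝ :=
  if Real.exp s / a < 1 / b then C * (Real.exp s / a) else 0

theorem gNode_zero {C a b : ℝ} (hb : 0 < b) (hba : b ≤ a) : gNode C a b 0 = 0 := by
  unfold gNode
  rw [Real.exp_zero, min_eq_left (one_div_le_one_div_of_le hb hba)]
  ring

theorem gNode_nonneg {C a b : ℝ} (hC : 0 ≤ C) (hb : 0 < b) (hba : b ≤ a) {s : ℝ} (hs : 0 ≤ s) :
    0 ≤ gNode C a b s := by
  unfold gNode
  have ha : 0 < a := hb.trans_le hba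
  have h1 : 1 / a ≤ Real.exp s / a := div_le_div_of_nonneg_right (Real.one_le_exp hs) ha.le
  have h2 : 1 / a ≤ 1 / b := one_div_le_one_div_of_le hb hba
  have h3 := le_min h1 h2
  have : 0 ≤ min (Real.exp s / a) (1 / b) - 1 / a := by linarith
  positivity

theorem gNode_le {C a b : ℝ} (hC : 0 ≤ C) (ha : 0 < a) {s : ℝ} :
    gNode C a b s ≤ C * (1 / b) := by
  unfold gNode
  have h1 : 0 ≤ 1 / a := by positivity
  exact mul_le_mul_of_nonneg_left (by linarith [min_le_right (Real.exp s / a) (1 / b)]) hC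

theorem gNode'_nonneg {C a b : ℝ} (hC : 0 ≤ C) (ha : 0 < a) (s : ℝ) : 0 ≤ gNode' C a b s := by
  unfold gNode'
  split_ifs
  · positivity
  · exact le_rfl

theorem continuous_gNode (C a b : ℝ) : Continuous (gNode C a b) := by
  unfold gNode
  have h1 : Continuous fun s : ℝ => Real.exp s / a := by fun_prop
  exact continuous_const.mul ((h1.min continuous_const).sub continuous_const)

theorem gNode_deriv {C a b : ℝ} (ha : 0 < a) (s : ℝ) :
    HasDerivWithinAt (gNode C a b) (gNode' C a b s) (Set.Ici s) s := by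
  unfold gNode'
  split_ifs with h
  · have hd : HasDerivAt (fun s : ℝ => C * (Real.exp s / a - 1 / a)) (C * (Real.exp s / a)) s :=
      (((Real.hasDerivAt_exp s).div_const a).sub_const _).const_mul C
    refine HasDerivAt.hasDerivWithinAt (hd.congr_of_eventuallyEq ?_)
    have hcont : Continuous fun s : ℝ => Real.exp s / a := by fun_prop
    filter_upwards [hcont.continuousAt.eventually (gt_mem_nhds h)] with t ht
    simp only [gNode]
    rw [min_eq_left (le_of_lt ht)]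
  · have hd : HasDerivWithinAt (fun _ : ℝ => C * (1 / b - 1 / a)) 0 (Set.Ici s) s :=
      hasDerivWithinAt_const _ _ _
    refine hd.congr_of_mem ?_ Set.self_mem_Ici
    intro t ht
    simp only [gNode]
    have h1 : Real.exp s / a ≤ Real.exp t / a :=
      div_le_div_of_nonneg_right (Real.exp_le_exp.mpr ht) ha.le
    rw [min_eq_right ((not_lt.mp h).trans h1)]

end P361.LRO
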