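import Vale.Agent.P361.LRO.NetODE

/-!
# Network ODE (note 9886, step (3)): dual form with a fixed charge
-/

namespace P361.LRO

open Finset Set Filter Topology

variable {V : Type*} [Fintype V] [DecidableEq V]

omit [DecidableEq V] in
theorem netK_sub_abs_le_of_osc (c d : V → V → ℝ) {a : V → ℝ} {L : ℝ}
    (ha : ∀ x y, |a x - a y| ≤ L) : |netK c a - netK d a| ≤ L ^ 2 * netDist c d := by
  have h : netK c a - netK d a = (1 / 2) * ∑ x, ∑ y, (c x y - d x y) * (a x - a y) ^ 2 := by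
    unfold netK
    rw [← mul_sub, ← Finset.sum_sub_distrib]
    congr 1
    refine Finset.sum_congr rfl fun x _ => ?_
    rw [← Finset.sum_sub_distrib]
    exact Finset.sum_congr rfl fun y _ => by ring
  rw [h, abs_mul]
  have h2 : |∑ x, ∑ y, (c x y - d x y) * (a x - a y) ^ 2| ≤ L ^ 2 * netDist c d := by
    unfold netDist
    rw [Finset.mul_sum]
    refine (Finset.abs_sum_le_sum_abs _ _).trans (Finset.sum_le_sum fun x _ => ?_)
    rw [Finset.mul_sum]
    refine (Finset.abs_sum_le_sum_abs _ _).trans (Finset.sum_le_sum fun y _ => ?_)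
    rw [abs_mul, mul_comm]
    refine mul_le_mul_of_nonneg_right ?_ (abs_nonneg _)
    rw [abs_of_nonneg (sq_nonneg _), ← sq_abs]
    exact pow_le_pow_left₀ (abs_nonneg _) (ha x y) 2
  have h3 : |(1 / 2 : ℝ)| = 1 / 2 := abs_of_pos (by norm_num)
  rw [h3]
  have h4 := mul_nonneg (sq_nonneg L) (netDist_nonneg c d)
  linarith

omit [DecidableEq V] in
theorem netQ_sub_abs_le_of_osc (c d : V → V → ℝ) {a : V → ℝ} {L : ℝ} (hL : 0 ≤ L)
    (ha : ∀ x y, |a x - a y| ≤ L) (z : V) :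
    |netQ c a z - netQ d a z| ≤ L * netDist c d := by
  have h : netQ c a z - netQ d a z = ∑ x, (c z x - d z x) * (a z - a x) := by
    unfold netQ
    rw [← Finset.sum_sub_distrib]
    exact Finset.sum_congr rfl fun x _ => by ring
  rw [h]
  have h2 : |∑ x, (c z x - d z x) * (a z - a x)| ≤ L * ∑ x, |c z x - d z x| := by
    rw [Finset.mul_sum]
    refine (Finset.abs_sum_le_sum_abs _ _).trans (Finset.sum_le_sum fun x _ => ?_)
    rw [abs_mul, mul_comm]
    exact mul_le_mul_of_nonneg_right (ha z x) (abs_nonneg _)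
  refine h2.trans (mul_le_mul_of_nonneg_left ?_ hL)
  exact Finset.single_le_sum (f := fun x => ∑ y, |c x y - d x y|)
    (fun x _ => Finset.sum_nonneg fun y _ => abs_nonneg _) (Finset.mem_univ z)

omit [DecidableEq V] in
theorem sum_mul_netQ {c : V → V → ℝ} (hsymm : ∀ x y, c x y = c y x) (a : V → ℝ) :
    ∑ z, a z * netQ c a z = netK c a := by
  unfold netQ netK
  have h1 : ∑ z, a z * ∑ x, c z x * (a z - a x) = ∑ z, ∑ x, c z x * (a z * (a z - a x)) := by
    refine Finset.sum_congr rfl fun z _ => ?_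
    rw [Finset.mul_sum]
    exact Finset.sum_congr rfl fun x _ => by ring
  have h2 : ∑ z, ∑ x, c z x * (a z * (a z - a x)) = ∑ z, ∑ x, c z x * (a x * (a x - a z)) := by
    rw [Finset.sum_comm]
    refine Finset.sum_congr rfl fun x _ => Finset.sum_congr rfl fun z _ => ?_
    rw [hsymm z x]
  have h3 : ∑ x, ∑ y, c x y * (a x - a y) ^ 2 =
      ∑ z, ∑ x, c z x * (a z * (a z - a x)) + ∑ z, ∑ x, c z x * (a x * (a x - a z)) := by
    rw [← Finset.sum_add_distrib]
    refine Finset.sum_congr rfl fun x _ => ?_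
    rw [← Finset.sum_add_distrib]
    exact Finset.sum_congr rfl fun y _ => by ring
  rw [h1, h3, ← h2]; ring

/-- Regularised dual functional. -/
noncomputable def dualJ (c : V → V → ℝ) (q : V → ℝ) (l : ℝ) (u : V → ℝ) : ℝ :=
  2 * ∑ x, q x * u x - netK c u - l * ∑ x, u x ^ 2

/-- Potentials vanishing on the electrode. -/
def dualAdm (E : Set V) : Set (V → ℝ) := {u | ∀ x ∈ E, u x = 0}

/-- Regularised resistance of the charge `q` to the electrode `E`. -/
noncomputable def dualR (E : Set V) (c : V → V → ℝ) (q : V → ℝ) (l : ℝ) : ℝ :=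
  sSup (dualJ c q l '' dualAdm E)

/-- A bound for the maximiser. -/
noncomputable def dualM (q : V → ℝ) (l : ℝ) : ℝ := 2 * (√(∑ x, q x ^ 2) / l)

omit [DecidableEq V] in
theorem dualJ_le {c : V → V → ℝ} (hc : ∀ x y, 0 ≤ c x y) (q : V → ℝ) {l : ℝ} (hl : 0 < l)
    (u : V → ℝ) : dualJ c q l u ≤ (∑ x, q x ^ 2) / l - l * ∑ x, (u x - q x / l) ^ 2 := by
  have h : (∑ x, q x ^ 2) / l - l * ∑ x, (u x - q x / l) ^ 2
      = 2 * ∑ x, q x * u x - l * ∑ x, u x ^ 2 := by
    rw [Finset.sum_div, Finset.mul_sum, Finset.mul_sum, Finset.mul_sum, ← Finset.sum_sub_distrib,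
      ← Finset.sum_sub_distrib]
    refine Finset.sum_congr rfl fun x _ => ?_
    field_simp
    ring
  rw [h]
  unfold dualJ
  have := netK_nonneg hc u
  linarith

omit [DecidableEq V] in
theorem exists_max (E : Set V) {c : V → V → ℝ} (hc : ∀ x y, 0 ≤ c x y) (q : V → ℝ) {l : ℝ}
    (hl : 0 < l) :
    ∃ u ∈ dualAdm E, dualJ c q l u = dualR E c q l ∧
      (∀ w ∈ dualAdm E, dualJ c q l w ≤ dualJ c q l u) ∧
      ∀ x, |u x| ≤ dualM q l := by
  set Q := ∑ x, q x ^ 2 with hQ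
  have hQ0 : 0 ≤ Q := Finset.sum_nonneg fun _ _ => sq_nonneg _
  have hbox : ∀ u : V → ℝ, 0 ≤ dualJ c q l u → ∀ x, |u x| ≤ dualM q l := by
    intro u hu x
    have h1 := dualJ_le hc q hl u
    have h2 : l * ∑ x, (u x - q x / l) ^ 2 ≤ Q / l := by linarith
    have h3 : (u x - q x / l) ^ 2 ≤ ∑ x, (u x - q x / l) ^ 2 :=
      Finset.single_le_sum (f := fun x => (u x - q x / l) ^ 2) (fun _ _ => sq_nonneg _)
        (Finset.mem_univ x)
    have h4 : (u x - q x / l) ^ 2 ≤ Q / l / l := by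
      rw [le_div_iff₀ hl]
      calc (u x - q x / l) ^ 2 * l ≤ (∑ x, (u x - q x / l) ^ 2) * l :=
            mul_le_mul_of_nonneg_right h3 hl.le
        _ ≤ Q / l := by linarith
    have h5 : |u x - q x / l| ≤ √Q / l := by
      rw [← Real.sqrt_sq_eq_abs]
      calc √((u x - q x / l) ^ 2) ≤ √(Q / l / l) := Real.sqrt_le_sqrt h4
        _ = √Q / l := by
            rw [div_div, ← sq, Real.sqrt_div hQ0, Real.sqrt_sq hl.le]
    have h6 : |q x / l| ≤ √Q / l := by
      rw [abs_div, abs_of_pos hl]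
      refine div_le_div_of_nonneg_right ?_ hl.le
      rw [← Real.sqrt_sq_eq_abs]
      refine Real.sqrt_le_sqrt ?_
      exact Finset.single_le_sum (f := fun x => q x ^ 2) (fun _ _ => sq_nonneg _)
        (Finset.mem_univ x)
    have h7 : |u x| ≤ |u x - q x / l| + |q x / l| := by
      have := abs_add_le (u x - q x / l) (q x / l)
      simpa using this
    unfold dualM
    linarith
  have hcont : Continuous (dualJ c q l) := by
    unfold dualJ
    have := continuous_netK c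
    fun_prop
  have hcl : IsClosed (dualAdm E : Set (V → ℝ)) := by
    have : (dualAdm E : Set (V → ℝ)) = ⋂ x ∈ E, {u : V → ℝ | u x = 0} := by
      ext u; simp [dualAdm]
    rw [this]
    exact isClosed_iInter fun x => isClosed_iInter fun _ =>
      isClosed_eq (continuous_apply x) continuous_const
  have hcomp : IsCompact ((Set.pi Set.univ fun _ : V => Set.Icc (-dualM q l) (dualM q l)) ∩
      dualAdm E) :=
    (isCompact_univ_pi fun _ => isCompact_Icc).inter_right hcl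
  have hM : 0 ≤ dualM q l := by unfold dualM; positivity
  have hJ0 : dualJ c q l 0 = 0 := by simp [dualJ, netK]
  have hmem0 : (0 : V → ℝ) ∈ (Set.pi Set.univ fun _ : V => Set.Icc (-dualM q l) (dualM q l)) ∩
      dualAdm E := by
    refine ⟨fun x _ => ?_, fun x _ => rfl⟩
    simp [hM]
  obtain ⟨u, hu, hmax⟩ := hcomp.exists_isMaxOn ⟨0, hmem0⟩ hcont.continuousOn
  have hall : ∀ w ∈ dualAdm E, dualJ c q l w ≤ dualJ c q l u := by
    intro w hwE
    have h0 : 0 ≤ dualJ c q l u := by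
      have := hmax hmem0
      simp only [Set.mem_ofPred_eq, hJ0] at this
      exact this
    by_cases hw : 0 ≤ dualJ c q l w
    · have hwm : w ∈ (Set.pi Set.univ fun _ : V => Set.Icc (-dualM q l) (dualM q l)) ∩
          dualAdm E := by
        refine ⟨fun x _ => ?_, hwE⟩
        exact abs_le.mp (hbox w hw x)
      exact hmax hwm
    · linarith [not_le.mp hw]
  refine ⟨u, hu.2, ?_, hall, ?_⟩
  · unfold dualR
    refine le_antisymm ?_ ?_
    · refine le_csSup ⟨dualJ c q l u, ?_⟩ ⟨u, hu.2, rfl⟩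
      rintro _ ⟨w, hw, rfl⟩
      exact hall w hw
    · refine csSup_le ⟨_, ⟨u, hu.2, rfl⟩⟩ ?_
      rintro _ ⟨w, hw, rfl⟩
      exact hall w hw
  · intro x
    exact abs_le.mpr (hu.1 x (Set.mem_univ x))

omit [DecidableEq V] in
theorem dualJ_le_dualR {E : Set V} {c : V → V → ℝ} (hc : ∀ x y, 0 ≤ c x y) (q : V → ℝ) {l : ℝ}
    (hl : 0 < l) {w : V → ℝ} (hw : w ∈ dualAdm E) : dualJ c q l w ≤ dualR E c q l := by
  obtain ⟨u, _, hu, hmax, _⟩ := exists_max E hc q hl
  rw [← hu]; exact hmax w hw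

theorem dual_stationary {E : Set V} {c : V → V → ℝ} (hc : ∀ x y, 0 ≤ c x y)
    (hsymm : ∀ x y, c x y = c y x)
    {q : V → ℝ} {l : ℝ} (hl : 0 < l) {u : V → ℝ} (hu : u ∈ dualAdm E)
    (hmax : ∀ w ∈ dualAdm E, dualJ c q l w ≤ dualJ c q l u)
    {z : V} (hz : z ∉ E) : netQ c u z + l * u z = q z := by
  have hsq : ∀ t : ℝ, ∑ x, (u + (Pi.single z t : V → ℝ)) x ^ 2 = ∑ x, u x ^ 2 + 2 * t * u z + t ^ 2 := by
    intro t
    have h1 : ∀ x, (u + (Pi.single z t : V → ℝ)) x ^ 2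
        = u x ^ 2 + (if x = z then 2 * t * u z + t ^ 2 else 0) := by
      intro x
      by_cases hx : x = z
      · subst hx; simp; ring
      · simp [hx]
    simp only [h1, Finset.sum_add_distrib]
    simp
    ring
  have hlin : ∀ t : ℝ, ∑ x, q x * (u + (Pi.single z t : V → ℝ)) x = ∑ x, q x * u x + t * q z := by
    intro t
    have h1 : ∀ x, q x * (u + (Pi.single z t : V → ℝ)) x
        = q x * u x + (if x = z then t * q z else 0) := by
      intro x
      by_cases hx : x = z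
      · subst hx; simp; ring
      · simp [hx]
    simp only [h1, Finset.sum_add_distrib]
    simp
  set g := q z - netQ c u z - l * u z with hg
  set k := netK c (Pi.single z 1) + l with hk
  have hk0 : 0 < k := by
    have := netK_nonneg hc (Pi.single z (1:ℝ) : V → ℝ)
    rw [hk]; linarith
  have h : ∀ t : ℝ, 2 * t * g - t ^ 2 * k ≤ 0 := by
    intro t
    have hm : u + (Pi.single z t : V → ℝ) ∈ dualAdm E := by
      intro x hx
      have hxz : x ≠ z := fun h => hz (h ▸ hx)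
      simp [Pi.single_eq_of_ne hxz, hu x hx]
    have h1 := hmax _ hm
    unfold dualJ at h1
    rw [hsq, hlin, netK_add_single hsymm] at h1
    rw [hg, hk]
    linarith
  have h2 := h (g / k)
  have h3 : 2 * (g / k) * g - (g / k) ^ 2 * k = g ^ 2 / k := by
    field_simp
    ring
  rw [h3] at h2
  have h4 : g ^ 2 ≤ 0 := by
    by_contra hcon
    have : 0 < g ^ 2 / k := div_pos (not_le.mp hcon) hk0
    linarith
  have h5 : g = 0 := pow_eq_zero_iff (two_ne_zero) |>.mp (le_antisymm h4 (sq_nonneg g))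
  rw [hg] at h5
  linarith

theorem dual_value {E : Set V} {c : V → V → ℝ} (hc : ∀ x y, 0 ≤ c x y)
    (hsymm : ∀ x y, c x y = c y x)
    {q : V → ℝ} {l : ℝ} (hl : 0 < l) {u : V → ℝ} (hu : u ∈ dualAdm E)
    (hmax : ∀ w ∈ dualAdm E, dualJ c q l w ≤ dualJ c q l u) :
    dualJ c q l u = netK c u + l * ∑ x, u x ^ 2 := by
  have h1 : ∑ z, q z * u z = netK c u + l * ∑ x, u x ^ 2 := by
    rw [← sum_mul_netQ hsymm u, Finset.mul_sum, ← Finset.sum_add_distrib]
    refine Finset.sum_congr rfl fun z _ => ?_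
    by_cases hz : z ∈ E
    · rw [hu z hz]; ring
    · rw [← dual_stationary hc hsymm hl hu hmax hz]; ring
  unfold dualJ
  rw [h1]; ring


omit [DecidableEq V] in
theorem dualR_sub_le (E : Set V) {c0 c1 : V → V → ℝ} (h0 : ∀ x y, 0 ≤ c0 x y)
    (h1 : ∀ x y, 0 ≤ c1 x y) (q : V → ℝ) {l : ℝ} (hl : 0 < l) :
    dualR E c1 q l - dualR E c0 q l ≤ (2 * dualM q l) ^ 2 * netDist c1 c0 := by
  obtain ⟨u, huE, hu, _, hM⟩ := exists_max E h1 q hl
  have hosc : ∀ x y, |u x - u y| ≤ 2 * dualM q l := by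
    intro x y
    have := abs_sub (u x) (u y)
    linarith [hM x, hM y]
  have e1 := dualJ_le_dualR h0 q hl huE
  have e2 := (abs_le.mp (netK_sub_abs_le_of_osc c1 c0 hosc)).1
  rw [← hu]
  unfold dualJ at *
  linarith

theorem dual_one_step {E : Set V} {c0 c1 c' : V → V → ℝ}
    (h0 : ∀ x y, 0 ≤ c0 x y) (h1 : ∀ x y, 0 ≤ c1 x y) (hs1 : ∀ x y, c1 x y = c1 y x)
    {r : V → ℝ} (hr0 : ∀ z, 0 ≤ r z) (hr1 : ∀ z, r z ≤ 1) (hrE : ∀ z ∈ E, r z = 0)
    {ε : ℝ} (hε : 0 ≤ ε)
    (hbound : ∀ a : V → ℝ, - ∑ z, r z * ((netQ c0 a z) ^ 2 / netV c0 z + 2 * ε * netStar c0 a z)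
      ≤ netK c' a) (q : V → ℝ) {l : ℝ} (hl : 0 < l) {η : ℝ} (hη : 0 < η) {δ : ℝ} (hδ : 0 < δ)
    {L : ℝ} (hL : L = 2 * dualM q l) :
    δ⁻¹ * (dualR E c1 q l - dualR E c0 q l) ≤
      L ^ 2 * netDist (fun x y => δ⁻¹ * (c1 x y - c0 x y)) c'
      + ((1 + η) * ∑ z, r z * (q z ^ 2 / netV c0 z)
         + (1 + η⁻¹) * (l * (dualR E c0 q l + L ^ 2 * netDist c1 c0) + l * L ^ 2 * netDist c1 c0
            + L ^ 2 * netDist c1 c0 ^ 2) * ∑ z, r z * (netV c0 z)⁻¹)
      + 4 * ε * (dualR E c0 q l + 2 * L ^ 2 * netDist c1 c0) := by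
  obtain ⟨u, huE, hu, hmax, hM⟩ := exists_max E h1 q hl
  set Δ := netDist c1 c0 with hΔ
  have hΔ0 : 0 ≤ Δ := netDist_nonneg _ _
  have hM0 : 0 ≤ dualM q l := by unfold dualM; positivity
  have hL0 : 0 ≤ L := by rw [hL]; positivity
  have hosc : ∀ x y, |u x - u y| ≤ L := by
    intro x y
    have := abs_sub (u x) (u y)
    rw [hL]
    linarith [hM x, hM y]
  -- value comparison
  have hR1 : dualR E c1 q l ≤ dualR E c0 q l + L ^ 2 * Δ := by
    have := dualR_sub_le E h0 h1 q hl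
    rw [← hL] at this
    linarith
  have hval := dual_value h1 hs1 hl huE hmax
  rw [hu] at hval
  have hK0 : 0 ≤ netK c1 u := netK_nonneg h1 u
  have hS0 : 0 ≤ ∑ x, u x ^ 2 := Finset.sum_nonneg fun _ _ => sq_nonneg _
  have hK1 : netK c1 u ≤ dualR E c1 q l := by nlinarith
  have hlu : ∀ z, l ^ 2 * u z ^ 2 ≤ l * (dualR E c0 q l + L ^ 2 * Δ) := by
    intro z
    have e1 : u z ^ 2 ≤ ∑ x, u x ^ 2 :=
      Finset.single_le_sum (f := fun x => u x ^ 2) (fun _ _ => sq_nonneg _) (Finset.mem_univ z)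
    have e2 : l * u z ^ 2 ≤ dualR E c1 q l := by nlinarith
    have e3 : l * (l * u z ^ 2) ≤ l * (dualR E c0 q l + L ^ 2 * Δ) :=
      mul_le_mul_of_nonneg_left (e2.trans hR1) hl.le
    linarith
  have hstep : dualR E c1 q l - dualR E c0 q l ≤ netK c0 u - netK c1 u := by
    have e1 := dualJ_le_dualR h0 q hl huE
    rw [← hu]
    unfold dualJ at *
    linarith
  have hlin : δ⁻¹ * (netK c0 u - netK c1 u) = - netK (fun x y => δ⁻¹ * (c1 x y - c0 x y)) u := by
    unfold netK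
    have : ∑ x, ∑ y, δ⁻¹ * (c1 x y - c0 x y) * (u x - u y) ^ 2
        = δ⁻¹ * (∑ x, ∑ y, c1 x y * (u x - u y) ^ 2 - ∑ x, ∑ y, c0 x y * (u x - u y) ^ 2) := by
      rw [← Finset.sum_sub_distrib, Finset.mul_sum]
      refine Finset.sum_congr rfl fun x _ => ?_
      rw [← Finset.sum_sub_distrib, Finset.mul_sum]
      exact Finset.sum_congr rfl fun y _ => by ring
    rw [this]; ring
  have hd := netK_sub_abs_le_of_osc (fun x y => δ⁻¹ * (c1 x y - c0 x y)) c' hosc
  have hd' := (abs_le.mp hd).1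
  have hb := hbound u
  set P := l * (dualR E c0 q l + L ^ 2 * Δ) + l * L ^ 2 * Δ + L ^ 2 * Δ ^ 2 with hP
  have hq : ∀ z ∉ E, (netQ c0 u z) ^ 2 ≤ (1 + η) * q z ^ 2 + (1 + η⁻¹) * P := by
    intro z hz
    have hst := dual_stationary h1 hs1 hl huE hmax hz
    set e := netQ c0 u z - netQ c1 u z with he
    have he1 : |e| ≤ L * Δ := by
      rw [he, hΔ, netDist_comm]
      exact netQ_sub_abs_le_of_osc c0 c1 hL0 hosc z
    have hqz : netQ c0 u z = q z + (e - l * u z) := by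
      rw [he]; linarith
    have hb2 : (e - l * u z) ^ 2 ≤ P := by
      have e1 : (e - l * u z) ^ 2 ≤ (|e| + l * |u z|) ^ 2 := by
        rw [← sq_abs (e - l * u z)]
        refine pow_le_pow_left₀ (abs_nonneg _) ?_ 2
        have := abs_sub e (l * u z)
        rwa [abs_mul, abs_of_pos hl] at this
      have e2 : |u z| ≤ L / 2 := by rw [hL]; linarith [hM z]
      have e3 := hlu z
      have e4 : |e| * (l * |u z|) ≤ (L * Δ) * (l * (L / 2)) :=
        mul_le_mul he1 (mul_le_mul_of_nonneg_left e2 hl.le) (by positivity) (by positivity)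
      have e5 : |e| ^ 2 ≤ (L * Δ) ^ 2 := pow_le_pow_left₀ (abs_nonneg _) he1 2
      have e6 : (l * |u z|) ^ 2 = l ^ 2 * u z ^ 2 := by rw [mul_pow, sq_abs]
      rw [hP]
      nlinarith
    have hy : 2 * (q z * (e - l * u z)) ≤ η * q z ^ 2 + η⁻¹ * (e - l * u z) ^ 2 := by
      have h1 : 0 ≤ η⁻¹ * (η * q z - (e - l * u z)) ^ 2 := by positivity
      have h2 : η⁻¹ * (η * q z - (e - l * u z)) ^ 2
          = η * q z ^ 2 - 2 * (q z * (e - l * u z)) + η⁻¹ * (e - l * u z) ^ 2 := by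
        field_simp
        ring
      linarith
    have hη' : 0 < 1 + η⁻¹ := by positivity
    have hfin := mul_le_mul_of_nonneg_left hb2 hη'.le
    rw [hqz]
    nlinarith
  have hrq : ∑ z, r z * ((netQ c0 u z) ^ 2 / netV c0 z) ≤
      (1 + η) * ∑ z, r z * (q z ^ 2 / netV c0 z) + (1 + η⁻¹) * P * ∑ z, r z * (netV c0 z)⁻¹ := by
    rw [Finset.mul_sum, Finset.mul_sum, ← Finset.sum_add_distrib]
    refine Finset.sum_le_sum fun z _ => ?_
    have hv : 0 ≤ (netV c0 z)⁻¹ := inv_nonneg.mpr (Finset.sum_nonneg fun x _ => h0 z x)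
    by_cases hz : z ∈ E
    · rw [hrE z hz]; simp
    have h2 := mul_le_mul_of_nonneg_right (hq z hz) (mul_nonneg (hr0 z) hv)
    rw [div_eq_mul_inv, div_eq_mul_inv]
    linarith
  have hstar : ∑ z, r z * netStar c0 u z ≤ 2 * (dualR E c0 q l + 2 * L ^ 2 * Δ) := by
    have e1 : ∑ z, r z * netStar c0 u z ≤ ∑ z, netStar c0 u z :=
      Finset.sum_le_sum fun z _ => by
        have := mul_le_mul_of_nonneg_right (hr1 z) (netStar_nonneg h0 u z)
        linarith
    rw [sum_netStar] at e1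
    have e2 := (abs_le.mp (netK_sub_abs_le_of_osc c0 c1 hosc)).2
    rw [netDist_comm, ← hΔ] at e2
    linarith
  have hsum : ∑ z, r z * ((netQ c0 u z) ^ 2 / netV c0 z + 2 * ε * netStar c0 u z)
      = ∑ z, r z * ((netQ c0 u z) ^ 2 / netV c0 z) + 2 * ε * ∑ z, r z * netStar c0 u z := by
    rw [Finset.mul_sum, ← Finset.sum_add_distrib]
    exact Finset.sum_congr rfl fun z _ => by ring
  have hstar2 : 2 * ε * ∑ z, r z * netStar c0 u z ≤ 2 * ε * (2 * (dualR E c0 q l + 2 * L ^ 2 * Δ)) :=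
    mul_le_mul_of_nonneg_left hstar (by positivity)
  have hfin := mul_le_mul_of_nonneg_left hstep (inv_nonneg.mpr hδ.le)
  rw [hlin] at hfin
  linarith

theorem NetFlow.dual_dini {c c' : ℝ → V → V → ℝ} {r : ℝ → V → ℝ} {E G : Set V} {ε : ℝ}
    (H : NetFlow c c' r E G ε) (q : V → ℝ) {l : ℝ} (hl : 0 < l) {η : ℝ} (hη : 0 < η)
    {s : ℝ} (hs : 0 ≤ s) {b : ℝ}
    (hb : ((1 + η) * ∑ z, r s z * (q z ^ 2 / netV (c s) z)
         + (1 + η⁻¹) * (l * dualR E (c s) q l) * ∑ z, r s z * (netV (c s) z)⁻¹)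
      + 4 * ε * dualR E (c s) q l < b) :
    ∀ᶠ z in 𝓝[>] s, (z - s)⁻¹ * (dualR E (c z) q l - dualR E (c s) q l) < b := by
  have hslope : ∀ x y, Tendsto (fun z => (z - s)⁻¹ * (c z x y - c s x y)) (𝓝[>] s)
      (𝓝 (c' s x y)) := by
    intro x y
    have h := hasDerivWithinAt_iff_tendsto_slope.mp (H.der s hs x y)
    rw [Set.Ici_sdiff_left] at h
    refine h.congr fun z => ?_
    simp [slope_def_field, div_eq_inv_mul]
  have hval : ∀ x y, Tendsto (fun z => c z x y) (𝓝[>] s) (𝓝 (c s x y)) := by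
    intro x y
    exact (H.der s hs x y).continuousWithinAt.tendsto.mono_left
      (nhdsWithin_mono _ Set.Ioi_subset_Ici_self)
  have h1 := tendsto_netDist hslope
  have h2 := tendsto_netDist hval
  set L := 2 * dualM q l with hL
  set R := dualR E (c s) q l with hR
  have hlim : Tendsto (fun z =>
      L ^ 2 * netDist (fun x y => (z - s)⁻¹ * (c z x y - c s x y)) (c' s)
      + ((1 + η) * ∑ w, r s w * (q w ^ 2 / netV (c s) w)
         + (1 + η⁻¹) * (l * (R + L ^ 2 * netDist (c z) (c s)) + l * L ^ 2 * netDist (c z) (c s)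
            + L ^ 2 * netDist (c z) (c s) ^ 2) * ∑ w, r s w * (netV (c s) w)⁻¹)
      + 4 * ε * (R + 2 * L ^ 2 * netDist (c z) (c s))) (𝓝[>] s)
      (𝓝 (L ^ 2 * 0
      + ((1 + η) * ∑ w, r s w * (q w ^ 2 / netV (c s) w)
         + (1 + η⁻¹) * (l * (R + L ^ 2 * 0) + l * L ^ 2 * 0
            + L ^ 2 * 0 ^ 2) * ∑ w, r s w * (netV (c s) w)⁻¹)
      + 4 * ε * (R + 2 * L ^ 2 * 0))) := by
    refine ((h1.const_mul _).add ?_).add (Tendsto.const_mul _ ?_)
    · refine Tendsto.const_add _ (Tendsto.mul_const _ (Tendsto.const_mul _ ?_))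
      refine ((Tendsto.const_mul _ ((h2.const_mul _).const_add _)).add (h2.const_mul _)).add ?_
      exact (h2.pow 2).const_mul _
    · exact (h2.const_mul _).const_add _
  have hlt : (L ^ 2 * 0
      + ((1 + η) * ∑ w, r s w * (q w ^ 2 / netV (c s) w)
         + (1 + η⁻¹) * (l * (R + L ^ 2 * 0) + l * L ^ 2 * 0
            + L ^ 2 * 0 ^ 2) * ∑ w, r s w * (netV (c s) w)⁻¹)
      + 4 * ε * (R + 2 * L ^ 2 * 0)) < b := by
    simpa using hb
  have hev := hlim.eventually (gt_mem_nhds hlt)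
  filter_upwards [hev, self_mem_nhdsWithin] with z hz hzs
  have hzs' : (0 : ℝ) < z - s := sub_pos.mpr hzs
  have hz0 : 0 ≤ z := hs.trans (le_of_lt hzs)
  exact lt_of_le_of_lt (dual_one_step (H.nn s hs) (H.nn z hz0) (H.symm z hz0) (H.r0 s hs)
    (H.r1 s hs) (H.rE s hs) H.eps (H.bound s hs) q hl hη hzs' hL) hz

omit [DecidableEq V] in
theorem NetFlow.continuousOn_dualR {c c' : ℝ → V → V → ℝ} {r : ℝ → V → ℝ} {E G : Set V} {ε : ℝ}
    (H : NetFlow c c' r E G ε) (q : V → ℝ) {l : ℝ} (hl : 0 < l) :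
    ContinuousOn (fun s => dualR E (c s) q l) (Set.Ici 0) := by
  intro s hs
  have hval : ∀ x y, Tendsto (fun z => c z x y) (𝓝[Set.Ici 0] s) (𝓝 (c s x y)) :=
    fun x y => H.cont x y s hs
  have h2 := (tendsto_netDist hval).const_mul ((2 * dualM q l) ^ 2)
  rw [mul_zero] at h2
  rw [ContinuousWithinAt, tendsto_iff_dist_tendsto_zero]
  refine squeeze_zero' (Eventually.of_forall fun _ => dist_nonneg) ?_ h2
  filter_upwards [self_mem_nhdsWithin] with z hz
  rw [Real.dist_eq, abs_le]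
  have e1 := dualR_sub_le E (H.nn s hs) (H.nn z hz) q hl
  have e2 := dualR_sub_le E (H.nn z hz) (H.nn s hs) q hl
  rw [netDist_comm] at e2
  constructor <;> linarith

theorem NetFlow.dual_upper_reg {c c' : ℝ → V → V → ℝ} {r : ℝ → V → ℝ} {E G : Set V} {ε : ℝ}
    (H : NetFlow c c' r E G ε) (q : V → ℝ) {T D W R0 : ℝ} (hT : 0 ≤ T) (hD : 0 ≤ D)
    (hW0 : 0 ≤ W) (hR00 : 0 ≤ R0)
    (hq : ∀ s, 0 ≤ s → s ≤ T → ∑ z, r s z * (q z ^ 2 / netV (c s) z) ≤ D * Real.exp s)
    (hW : ∀ s, 0 ≤ s → s ≤ T → ∑ z, r s z * (netV (c s) z)⁻¹ ≤ W)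
    (hR0 : ∀ u : V → ℝ, (∀ x ∈ E, u x = 0) → 2 * ∑ x, q x * u x - netK (c 0) u ≤ R0)
    {l : ℝ} (hl : 0 < l) {η : ℝ} (hη : 0 < η) :
    dualR E (c T) q l ≤ Real.exp ((4 * ε + (1 + η⁻¹) * l * W + η) * T)
      * (R0 + η + (1 + η) * D * (Real.exp T - 1)) := by
  set K := 4 * ε + (1 + η⁻¹) * l * W with hK
  have hε := H.eps
  have hK0 : 0 ≤ K := by rw [hK]; positivity
  have hf : ContinuousOn (fun s => dualR E (c s) q l) (Set.Icc 0 T) :=
    (H.continuousOn_dualR q hl).mono Set.Icc_subset_Ici_self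
  have hRnn : ∀ s, 0 ≤ s → 0 ≤ dualR E (c s) q l := by
    intro s hs
    have h0E : (0 : V → ℝ) ∈ dualAdm E := fun x _ => rfl
    have := dualJ_le_dualR (H.nn s hs) q hl h0E
    simpa [dualJ, netK] using this
  refine image_le_of_liminf_slope_right_lt_deriv_boundary' (f := fun s => dualR E (c s) q l)
    (f' := fun s => (1 + η) * (D * Real.exp s) + K * dualR E (c s) q l)
    (a := 0) (b := T) hf
    (B := fun s => Real.exp ((K + η) * s) * (R0 + η + (1 + η) * D * (Real.exp s - 1)))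
    (B' := fun s => (K + η) * (Real.exp ((K + η) * s) * (R0 + η + (1 + η) * D * (Real.exp s - 1)))
      + Real.exp ((K + η) * s) * ((1 + η) * D * Real.exp s)) ?_ ?_ ?_ ?_ ?_ (x := T) ⟨hT, le_rfl⟩
  · -- slope
    intro s hs b hb
    have hb' : ((1 + η) * ∑ z, r s z * (q z ^ 2 / netV (c s) z)
         + (1 + η⁻¹) * (l * dualR E (c s) q l) * ∑ z, r s z * (netV (c s) z)⁻¹)
      + 4 * ε * dualR E (c s) q l < b := by
      refine lt_of_le_of_lt ?_ hb
      have e1 := mul_le_mul_of_nonneg_left (hq s hs.1 hs.2.le) (by positivity : 0 ≤ 1 + η)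
      have hRs := hRnn s hs.1
      have e2 := mul_le_mul_of_nonneg_left (hW s hs.1 hs.2.le)
        (by positivity : 0 ≤ (1 + η⁻¹) * (l * dualR E (c s) q l))
      rw [hK]
      have e3 : (4 * ε + (1 + η⁻¹) * l * W) * dualR E (c s) q l
          = 4 * ε * dualR E (c s) q l + (1 + η⁻¹) * (l * dualR E (c s) q l) * W := by ring
      rw [e3]
      linarith
    have := H.dual_dini q hl hη hs.1 hb'
    refine Eventually.frequently (this.mono fun z hz => ?_)
    rw [slope_def_field, div_eq_inv_mul]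
    exact hz
  · -- initial value
    obtain ⟨u, huE, hu, _, _⟩ := exists_max E (H.nn 0 le_rfl) q hl
    have e1 := hR0 u huE
    have e2 : 0 ≤ l * ∑ x, u x ^ 2 := mul_nonneg hl.le (Finset.sum_nonneg fun _ _ => sq_nonneg _)
    simp only [mul_zero, Real.exp_zero, one_mul, sub_self, add_zero]
    rw [← hu]
    unfold dualJ
    linarith
  · fun_prop
  · intro s _
    have h1 : HasDerivAt (fun s : ℝ => Real.exp ((K + η) * s)) (Real.exp ((K + η) * s) * (K + η)) s := by
      have := ((hasDerivAt_id s).const_mul (K + η)).exp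
      simpa using this
    have h2 : HasDerivAt (fun s : ℝ => R0 + η + (1 + η) * D * (Real.exp s - 1))
        ((1 + η) * D * Real.exp s) s :=
      (((Real.hasDerivAt_exp s).sub_const 1).const_mul _).const_add _
    have h3 := h1.mul h2
    refine (h3.congr_deriv ?_).hasDerivWithinAt
    ring
  · intro s hs heq
    have hs0 := hs.1

    rw [heq]
    have hBpos : 0 < Real.exp ((K + η) * s) * (R0 + η + (1 + η) * D * (Real.exp s - 1)) := by
      have : 0 ≤ (1 + η) * D * (Real.exp s - 1) := by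
        have := Real.one_le_exp hs0
        have h' : 0 ≤ Real.exp s - 1 := by linarith
        positivity
      have h2 : 0 < R0 + η + (1 + η) * D * (Real.exp s - 1) := by linarith
      positivity
    have h1 : (1 + η) * (D * Real.exp s) ≤ Real.exp ((K + η) * s) * ((1 + η) * D * Real.exp s) := by
      have h2 : 1 ≤ Real.exp ((K + η) * s) := Real.one_le_exp (by positivity)
      have h3 : 0 ≤ (1 + η) * D * Real.exp s := by positivity
      nlinarith
    nlinarith [mul_pos hη hBpos]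

/-- **Network ODE, dual form** (note 9886, step (3)). -/
theorem NetFlow.dual_upper {c c' : ℝ → V → V → ℝ} {r : ℝ → V → ℝ} {E G : Set V} {ε : ℝ}
    (H : NetFlow c c' r E G ε) (q : V → ℝ) {T D W R0 : ℝ} (hT : 0 ≤ T) (hD : 0 ≤ D)
    (hq : ∀ s, 0 ≤ s → s ≤ T → ∑ z, r s z * (q z ^ 2 / netV (c s) z) ≤ D * Real.exp s)
    (hW : ∀ s, 0 ≤ s → s ≤ T → ∑ z, r s z * (netV (c s) z)⁻¹ ≤ W)
    (hR0 : ∀ u : V → ℝ, (∀ x ∈ E, u x = 0) → 2 * ∑ x, q x * u x - netK (c 0) u ≤ R0)
    {u : V → ℝ} (hu : ∀ x ∈ E, u x = 0) :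
    2 * ∑ x, q x * u x - netK (c T) u ≤ Real.exp (4 * ε * T) * (R0 + D * (Real.exp T - 1)) := by
  have hR00 : 0 ≤ R0 := by
    have := hR0 0 (fun _ _ => rfl)
    simpa [netK] using this
  have hW' : ∀ s, 0 ≤ s → s ≤ T → ∑ z, r s z * (netV (c s) z)⁻¹ ≤ max W 0 :=
    fun s h1 h2 => (hW s h1 h2).trans (le_max_left _ _)
  have hreg : ∀ t : ℝ, 0 < t → 2 * ∑ x, q x * u x - netK (c T) u - t ^ 2 * ∑ x, u x ^ 2 ≤
      Real.exp ((4 * ε + (t ^ 2 + t) * max W 0 + t) * T)
      * (R0 + t + (1 + t) * D * (Real.exp T - 1)) := by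
    intro t ht
    have h1 := H.dual_upper_reg q hT hD (le_max_right W 0) hR00 hq hW' hR0 (l := t ^ 2)
      (by positivity) ht
    have h2 := dualJ_le_dualR (H.nn T hT) q (l := t ^ 2) (by positivity) hu
    have h3 : (1 + t⁻¹) * t ^ 2 = t ^ 2 + t := by field_simp
    rw [h3] at h1
    unfold dualJ at h2
    exact h2.trans h1
  have hl1 : Tendsto (fun t : ℝ => 2 * ∑ x, q x * u x - netK (c T) u - t ^ 2 * ∑ x, u x ^ 2)
      (𝓝[>] 0) (𝓝 (2 * ∑ x, q x * u x - netK (c T) u - 0 ^ 2 * ∑ x, u x ^ 2)) := by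
    refine Tendsto.mono_left ?_ nhdsWithin_le_nhds
    exact (Continuous.tendsto (by fun_prop) 0)
  have hl2 : Tendsto (fun t : ℝ => Real.exp ((4 * ε + (t ^ 2 + t) * max W 0 + t) * T)
      * (R0 + t + (1 + t) * D * (Real.exp T - 1))) (𝓝[>] 0)
      (𝓝 (Real.exp ((4 * ε + (0 ^ 2 + 0) * max W 0 + 0) * T)
      * (R0 + 0 + (1 + 0) * D * (Real.exp T - 1)))) := by
    refine Tendsto.mono_left ?_ nhdsWithin_le_nhds
    have hc : Continuous (fun t : ℝ => Real.exp ((4 * ε + (t ^ 2 + t) * max W 0 + t) * T)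
      * (R0 + t + (1 + t) * D * (Real.exp T - 1))) := by fun_prop
    exact hc.tendsto 0
  have hle := le_of_tendsto_of_tendsto hl1 hl2
    (by filter_upwards [self_mem_nhdsWithin] with t ht using hreg t ht)
  simpa using hle

end P361.LRO
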