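import Vale.Agent.P361.LRO.Garding

/-!
The one-node inequality for symmetric homogeneous stable laws (star-mesh inequality), from the
convexity of the hyperbolicity cone.
-/

namespace Vale.Agent.P361.LRO.T1

open MvPolynomial

section coeffs

/-- the first coefficients of a product of linear polynomials -/
def J3 (P : Polynomial ℝ) (e q : ℝ) : Prop :=
  P.coeff 0 = 1 ∧ P.coeff 1 = e ∧ 2 * P.coeff 2 = e ^ 2 - q

theorem coeff_two_mul (P Q : Polynomial ℝ) :
    (P * Q).coeff 2 = P.coeff 0 * Q.coeff 2 + P.coeff 1 * Q.coeff 1 + P.coeff 2 * Q.coeff 0 := by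
  rw [Polynomial.coeff_mul, Finset.Nat.sum_antidiagonal_eq_sum_range_succ_mk,
    Finset.sum_range_succ, Finset.sum_range_succ, Finset.sum_range_one]

theorem coeff_one_mul' (P Q : Polynomial ℝ) :
    (P * Q).coeff 1 = P.coeff 0 * Q.coeff 1 + P.coeff 1 * Q.coeff 0 := by
  rw [Polynomial.mul_coeff_one]

theorem J3.mul {P Q : Polynomial ℝ} {e q e' q' : ℝ} (h : J3 P e q) (h' : J3 Q e' q') :
    J3 (P * Q) (e + e') (q + q') := by
  obtain ⟨h0, h1, h2⟩ := h
  obtain ⟨g0, g1, g2⟩ := h'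
  refine ⟨by rw [Polynomial.mul_coeff_zero, h0, g0, one_mul], ?_, ?_⟩
  · rw [coeff_one_mul', h0, h1, g0, g1]
    ring
  · rw [coeff_two_mul, h0, h1, g0, g1]
    linarith [h2, g2]

theorem J3.one : J3 1 0 0 := by
  refine ⟨by simp, ?_, ?_⟩
  · rw [Polynomial.coeff_one]
    simp
  · rw [Polynomial.coeff_one]
    simp

theorem J3.lin (a : ℝ) : J3 (Polynomial.C 1 + Polynomial.C a * Polynomial.X) a (a ^ 2) := by
  refine ⟨by simp, by simp [Polynomial.coeff_one], ?_⟩
  simp [Polynomial.coeff_one]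

theorem J3.pow {P : Polynomial ℝ} {e q : ℝ} (h : J3 P e q) (n : ℕ) :
    J3 (P ^ n) (n * e) (n * q) := by
  induction n with
  | zero => simpa using J3.one
  | succ n ih =>
    rw [pow_succ]
    have h1 := ih.mul h
    have e1 : (n : ℝ) * e + e = ((n + 1 : ℕ) : ℝ) * e := by push_cast; ring
    have e2 : (n : ℝ) * q + q = ((n + 1 : ℕ) : ℝ) * q := by push_cast; ring
    rwa [e1, e2] at h1

theorem J3.prod {V : Type*} (s : Finset V) (a : V → ℝ) (m : V → ℕ) :
    J3 (∏ x ∈ s, (Polynomial.C 1 + Polynomial.C (a x) * Polynomial.X) ^ m x)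
      (∑ x ∈ s, m x * a x) (∑ x ∈ s, m x * a x ^ 2) := by
  classical
  induction s using Finset.induction_on with
  | empty => simpa using J3.one
  | insert i s hi ih =>
    rw [Finset.prod_insert hi, Finset.sum_insert hi, Finset.sum_insert hi]
    exact ((J3.lin (a i)).pow (m i)).mul ih

end coeffs

section real

/-- the limit `τ → s` -/
theorem one_node_real (w0 w1 al E2 E0 la S S2 c s : ℝ) (hw1 : 0 < w1) (hs0 : 0 < s)
    (hs1 : s ≤ 1) (hs : w1 * (1 + s ^ 2) = w0 * s) (hcw : c * w1 = s * al)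
    (hfun : ∀ τ : ℝ, 0 ≤ τ → τ < s →
      (w1 - τ * w0 + τ ^ 2 * w1) *
        ((S ^ 2 - S2) * (w1 - τ * w0 + τ ^ 2 * w1) - 2 * S * al * (1 - τ ^ 2) +
          E2 * (1 + τ ^ 2) - τ * E0 - la * (1 - τ ^ 2) + 2 * c * S * (w0 - 2 * τ * w1) +
          2 * c ^ 2 * w1 - 4 * τ * c * al) ≤
      (S * (w1 - τ * w0 + τ ^ 2 * w1) - al * (1 - τ ^ 2) + c * (w0 - 2 * τ * w1)) ^ 2) :
    E2 * (1 + s ^ 2) - s * E0 - la * (1 - s ^ 2) - 2 * s ^ 2 * al ^ 2 / w1 ≤ 0 := by
  have hphi : ∀ τ : ℝ, s * (w1 - τ * w0 + τ ^ 2 * w1) = w1 * ((s - τ) * (1 - s * τ)) := by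
    intro τ
    linear_combination τ * hs
  have hcw0 : c * w0 = al * (1 + s ^ 2) := by
    have h1 : w1 * (c * w0) = w1 * (al * (1 + s ^ 2)) := by
      linear_combination w0 * hcw - al * hs
    exact mul_left_cancel₀ hw1.ne' h1
  set B : ℝ := |S| + |al| / w1 with hB
  set F : ℝ → ℝ := fun τ =>
    (S ^ 2 - S2) * (w1 - τ * w0 + τ ^ 2 * w1) - 2 * S * al * (1 - τ ^ 2) +
      E2 * (1 + τ ^ 2) - τ * E0 - la * (1 - τ ^ 2) + 2 * c * S * (w0 - 2 * τ * w1) +
      2 * c ^ 2 * w1 - 4 * τ * c * al - B ^ 2 * (w1 - τ * w0 + τ ^ 2 * w1)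
    with hF
  have hFle : ∀ τ : ℝ, 0 ≤ τ → τ < s → F τ ≤ 0 := by
    intro τ hτ0 hτs
    have h1 := hfun τ hτ0 hτs
    set φ : ℝ := w1 - τ * w0 + τ ^ 2 * w1 with hφ
    have h2 := hphi τ
    have hδ : 0 < s - τ := sub_pos.2 hτs
    have h3 : w1 * (s - τ) ^ 2 ≤ φ := by
      have h4 : s * (w1 * (s - τ) ^ 2) ≤ s * φ := by
        rw [h2]
        have h6 : s * (s - τ) ≤ 1 - s * τ := by
          have : s ^ 2 ≤ 1 := by
            have := pow_le_one₀ (n := 2) hs0.le hs1
            exact this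
          linarith
        have h7 := mul_le_mul_of_nonneg_left h6 (mul_nonneg hw1.le hδ.le)
        linarith
      exact le_of_mul_le_mul_left h4 hs0
    have h4 : 0 < φ := lt_of_lt_of_le (by positivity) h3
    have h5 : S * φ - al * (1 - τ ^ 2) + c * (w0 - 2 * τ * w1) = S * φ + al * (s - τ) ^ 2 := by
      linear_combination hcw0 - 2 * τ * hcw
    rw [h5] at h1
    have h6 : |S * φ + al * (s - τ) ^ 2| ≤ B * φ := by
      have a1 : (s - τ) ^ 2 ≤ φ / w1 := by
        rw [le_div_iff₀ hw1]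
        linarith
      calc |S * φ + al * (s - τ) ^ 2| ≤ |S * φ| + |al * (s - τ) ^ 2| := abs_add_le _ _
        _ = |S| * φ + |al| * (s - τ) ^ 2 := by
          rw [abs_mul, abs_mul, abs_of_pos h4, abs_of_nonneg (sq_nonneg (s - τ))]
        _ ≤ |S| * φ + |al| * (φ / w1) :=
          add_le_add le_rfl (mul_le_mul_of_nonneg_left a1 (abs_nonneg _))
        _ = B * φ := by
          rw [hB]
          ring
    have h7 : (S * φ + al * (s - τ) ^ 2) ^ 2 ≤ (B * φ) ^ 2 :=
      sq_le_sq.2 (h6.trans (le_abs_self _))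
    have h8 : φ * F τ ≤ 0 := by
      have h9 : φ * F τ = φ * ((S ^ 2 - S2) * φ - 2 * S * al * (1 - τ ^ 2) +
          E2 * (1 + τ ^ 2) - τ * E0 - la * (1 - τ ^ 2) + 2 * c * S * (w0 - 2 * τ * w1) +
          2 * c ^ 2 * w1 - 4 * τ * c * al) - (B * φ) ^ 2 := by
        simp only [hF]
        ring
      rw [h9]
      exact sub_nonpos.2 (h1.trans h7)
    by_contra h9
    exact absurd (mul_pos h4 (not_le.1 h9)) (not_lt.2 h8)
  have hFs : F s ≤ 0 := by
    have hc : Continuous F := by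
      simp only [hF]
      fun_prop
    have h1 : Filter.Tendsto F (nhdsWithin s (Set.Iio s)) (nhds (F s)) :=
      (hc.tendsto s).mono_left nhdsWithin_le_nhds
    refine le_of_tendsto h1 ?_
    have h2 : ∀ᶠ τ in nhdsWithin s (Set.Iio s), 0 < τ :=
      (eventually_gt_nhds hs0).filter_mono nhdsWithin_le_nhds
    filter_upwards [self_mem_nhdsWithin, h2] with τ hτ hτ0
    exact hFle τ hτ0.le hτ
  have h0 : w1 - s * w0 + s ^ 2 * w1 = 0 := by linear_combination hs
  have hcal : c * al = s * al ^ 2 / w1 := by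
    rw [eq_div_iff hw1.ne']
    linear_combination al * hcw
  have h1 : F s = E2 * (1 + s ^ 2) - s * E0 - la * (1 - s ^ 2) - 2 * s ^ 2 * al ^ 2 / w1 := by
    simp only [hF]
    rw [h0]
    have h2 : 2 * s ^ 2 * al ^ 2 / w1 = 2 * s * (c * al) := by
      rw [hcal]
      ring
    rw [h2]
    linear_combination (2 * S) * hcw0 + (2 * c - 4 * S * s) * hcw
  rw [← h1]
  exact hFs

end real

section law

variable {Om V : Type*} [Fintype Om] [Fintype V] [DecidableEq V]

/-- the generating polynomial of a law -/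
noncomputable def gen (W : Om → ℝ) (n : Om → V → ℕ) : MvPolynomial V ℝ :=
  ∑ w, C (W w) * ∏ x, X x ^ n w x

omit [DecidableEq V] in
theorem gen_aeval (W : Om → ℝ) (n : Om → V → ℕ) (y : V → ℂ) :
    aeval y (gen W n) = ∑ w, (W w : ℂ) * ∏ x, y x ^ n w x := by
  rw [gen, map_sum]
  refine Finset.sum_congr rfl fun w _ => ?_
  rw [map_mul, map_prod, aeval_C]
  congr 1
  refine Finset.prod_congr rfl fun x _ => ?_
  rw [map_pow, aeval_X]

omit [DecidableEq V] in
theorem gen_hom {W : Om → ℝ} {n : Om → V → ℕ} {N : ℕ}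
    (hdeg : ∀ w, W w ≠ 0 → ∑ x, n w x = N) : (gen W n).IsHomogeneous N := by
  refine IsHomogeneous.sum _ _ _ fun w _ => ?_
  by_cases hw : W w = 0
  · rw [hw, C_0, zero_mul]
    exact isHomogeneous_zero _ _ _
  · have h1 := (isHomogeneous_C V (W w)).mul (IsHomogeneous.prod Finset.univ
      (fun x => (X x : MvPolynomial V ℝ) ^ n w x) (fun x => n w x) (fun x _ => by
        have := (isHomogeneous_X ℝ x).pow (n w x)
        rwa [one_mul] at this))
    rwa [zero_add, hdeg w hw] at h1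

omit [DecidableEq V] in
theorem gen_lineR (W : Om → ℝ) (n : Om → V → ℕ) (b d : V → ℝ) :
    lineR (gen W n) b d = ∑ w, Polynomial.C (W w) *
      ∏ x, (Polynomial.C (b x) + Polynomial.C (d x) * Polynomial.X) ^ n w x := by
  rw [lineR, gen, map_sum]
  refine Finset.sum_congr rfl fun w _ => ?_
  rw [map_mul, map_prod, aeval_C]
  congr 1
  refine Finset.prod_congr rfl fun x _ => ?_
  rw [map_pow, aeval_X]

/-- sums over the configurations with `k` particles at `z` -/
noncomputable def Sk (W : Om → ℝ) (n : Om → V → ℕ) (z : V) (k : ℕ) (F : Om → ℝ) : ℝ :=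
  ∑ w, if n w z = k then W w * F w else 0

omit [Fintype V] [DecidableEq V] in
theorem Sk_add (W : Om → ℝ) (n : Om → V → ℕ) (z : V) (k : ℕ) (F G : Om → ℝ) :
    Sk W n z k (fun w => F w + G w) = Sk W n z k F + Sk W n z k G := by
  rw [Sk, Sk, Sk, ← Finset.sum_add_distrib]
  refine Finset.sum_congr rfl fun w _ => ?_
  split_ifs
  · ring
  · ring

omit [Fintype V] [DecidableEq V] in
theorem Sk_smul (W : Om → ℝ) (n : Om → V → ℕ) (z : V) (k : ℕ) (c : ℝ) (F : Om → ℝ) :
    Sk W n z k (fun w => c * F w) = c * Sk W n z k F := by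
  rw [Sk, Sk, Finset.mul_sum]
  refine Finset.sum_congr rfl fun w _ => ?_
  split_ifs
  · ring
  · ring

omit [Fintype V] [DecidableEq V] in
theorem Sk_split {W : Om → ℝ} {n : Om → V → ℕ} (hn : ∀ w x, n w x ≤ 2) (z : V)
    (F : ℕ → Om → ℝ) : ∑ w, W w * F (n w z) w =
      Sk W n z 0 (F 0) + Sk W n z 1 (F 1) + Sk W n z 2 (F 2) := by
  rw [Sk, Sk, Sk, ← Finset.sum_add_distrib, ← Finset.sum_add_distrib]
  refine Finset.sum_congr rfl fun w _ => ?_
  have h := hn w z
  interval_cases h1 : n w z <;> simp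

/-- the values of the polynomial, its first and second derivatives on the line through
`(1,…,1,-τ)` in the direction `(a, c)` -/
theorem line_coeffs {W : Om → ℝ} {n : Om → V → ℕ} (hn : ∀ w x, n w x ≤ 2) (z : V) (a : V → ℝ)
    (ha : a z = 0) (τ c : ℝ) :
    let P := lineR (gen W n) (fun x => if x = z then -τ else 1)
      (fun x => if x = z then c else a x)
    let e : Om → ℝ := fun w => ∑ x, n w x * a x
    let q : Om → ℝ := fun w => ∑ x, n w x * a x ^ 2
    P.coeff 0 = Sk W n z 0 (fun _ => 1) - τ * Sk W n z 1 (fun _ => 1) +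
        τ ^ 2 * Sk W n z 2 (fun _ => 1) ∧
    P.coeff 1 = Sk W n z 0 e + (c * Sk W n z 1 (fun _ => 1) - τ * Sk W n z 1 e) +
        (-2 * τ * c * Sk W n z 2 (fun _ => 1) + τ ^ 2 * Sk W n z 2 e) ∧
    2 * P.coeff 2 = Sk W n z 0 (fun w => e w ^ 2 - q w) +
        (2 * c * Sk W n z 1 e - τ * Sk W n z 1 (fun w => e w ^ 2 - q w)) +
        (2 * c ^ 2 * Sk W n z 2 (fun _ => 1) - 4 * τ * c * Sk W n z 2 e +
          τ ^ 2 * Sk W n z 2 (fun w => e w ^ 2 - q w)) := by
  intro P e q
  have hP : P = ∑ w, Polynomial.C (W w) *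
      ((Polynomial.C (-τ) + Polynomial.C c * Polynomial.X) ^ n w z *
        ∏ x ∈ Finset.univ.erase z,
          (Polynomial.C 1 + Polynomial.C (a x) * Polynomial.X) ^ n w x) := by
    change lineR (gen W n) _ _ = _
    rw [gen_lineR]
    refine Finset.sum_congr rfl fun w _ => ?_
    congr 1
    rw [← Finset.mul_prod_erase Finset.univ _ (Finset.mem_univ z), if_pos rfl, if_pos rfl]
    congr 1
    refine Finset.prod_congr rfl fun x hx => ?_
    rw [if_neg (Finset.ne_of_mem_erase hx), if_neg (Finset.ne_of_mem_erase hx)]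
  have hJ : ∀ w, J3 (∏ x ∈ Finset.univ.erase z,
      (Polynomial.C 1 + Polynomial.C (a x) * Polynomial.X) ^ n w x) (e w) (q w) := by
    intro w
    have h := J3.prod (Finset.univ.erase z) a (n w)
    have e1 : ∑ x ∈ Finset.univ.erase z, (n w x : ℝ) * a x = e w := by
      change _ = ∑ x, (n w x : ℝ) * a x
      rw [← Finset.add_sum_erase Finset.univ _ (Finset.mem_univ z), ha, mul_zero, zero_add]
    have e2 : ∑ x ∈ Finset.univ.erase z, (n w x : ℝ) * a x ^ 2 = q w := by
      change _ = ∑ x, (n w x : ℝ) * a x ^ 2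
      rw [← Finset.add_sum_erase Finset.univ _ (Finset.mem_univ z), ha]
      simp
    rwa [e1, e2] at h
  have hA : ∀ k : ℕ, P.coeff k = ∑ w, W w *
      ((Polynomial.C (-τ) + Polynomial.C c * Polynomial.X) ^ n w z *
        ∏ x ∈ Finset.univ.erase z,
          (Polynomial.C 1 + Polynomial.C (a x) * Polynomial.X) ^ n w x).coeff k := by
    intro k
    rw [hP, Polynomial.finsetSum_coeff]
    refine Finset.sum_congr rfl fun w _ => ?_
    rw [Polynomial.coeff_C_mul]
  -- coefficients of the powers of the node factor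
  have hN : ∀ m : ℕ, m ≤ 2 →
      ((Polynomial.C (-τ) + Polynomial.C c * Polynomial.X) ^ m).coeff 0 = (-τ) ^ m ∧
      ((Polynomial.C (-τ) + Polynomial.C c * Polynomial.X) ^ m).coeff 1 =
        (if m = 0 then 0 else if m = 1 then c else -2 * τ * c) ∧
      ((Polynomial.C (-τ) + Polynomial.C c * Polynomial.X) ^ m).coeff 2 =
        (if m = 2 then c ^ 2 else 0) := by
    intro m hm
    have l0 : (Polynomial.C (-τ) + Polynomial.C c * Polynomial.X).coeff 0 = -τ := by simp
    have l1 : (Polynomial.C (-τ) + Polynomial.C c * Polynomial.X).coeff 1 = c := by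
      rw [Polynomial.coeff_add, Polynomial.coeff_C_mul, Polynomial.coeff_X_one,
        Polynomial.coeff_C_of_ne_zero one_ne_zero]
      ring
    have l2 : (Polynomial.C (-τ) + Polynomial.C c * Polynomial.X).coeff 2 = 0 := by
      rw [Polynomial.coeff_add, Polynomial.coeff_C_mul, Polynomial.coeff_X,
        Polynomial.coeff_C_of_ne_zero two_ne_zero]
      norm_num
    interval_cases m
    · simp [Polynomial.coeff_one]
    · simp only [pow_one]
      rw [l0, l1, l2]
      simp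
    · rw [pow_two, Polynomial.mul_coeff_zero, coeff_one_mul', coeff_two_mul, l0, l1, l2]
      refine ⟨by ring, ?_, ?_⟩
      · simp
        ring
      · simp
        ring
  refine ⟨?_, ?_, ?_⟩
  · rw [hA 0]
    have h1 : ∀ w, ((Polynomial.C (-τ) + Polynomial.C c * Polynomial.X) ^ n w z *
        ∏ x ∈ Finset.univ.erase z,
          (Polynomial.C 1 + Polynomial.C (a x) * Polynomial.X) ^ n w x).coeff 0 =
        (-τ) ^ n w z := by
      intro w
      rw [Polynomial.mul_coeff_zero, (hJ w).1, (hN _ (hn w z)).1, mul_one]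
    simp only [h1]
    rw [Sk_split hn z (fun k _ => (-τ) ^ k)]
    have e0 : Sk W n z 0 (fun _ => (-τ) ^ 0) = Sk W n z 0 (fun _ => 1) := by simp
    have e1 : Sk W n z 1 (fun _ => (-τ) ^ 1) = -τ * Sk W n z 1 (fun _ => 1) := by
      rw [← Sk_smul]
      simp
    have e2 : Sk W n z 2 (fun _ => (-τ) ^ 2) = τ ^ 2 * Sk W n z 2 (fun _ => 1) := by
      rw [← Sk_smul]
      simp
    rw [e0, e1, e2]
    ring
  · rw [hA 1]
    have h1 : ∀ w, ((Polynomial.C (-τ) + Polynomial.C c * Polynomial.X) ^ n w z *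
        ∏ x ∈ Finset.univ.erase z,
          (Polynomial.C 1 + Polynomial.C (a x) * Polynomial.X) ^ n w x).coeff 1 =
        (-τ) ^ n w z * e w +
          (if n w z = 0 then 0 else if n w z = 1 then c else -2 * τ * c) := by
      intro w
      rw [coeff_one_mul', (hJ w).1, (hJ w).2.1, (hN _ (hn w z)).1, (hN _ (hn w z)).2.1, mul_one]
    simp only [h1]
    rw [Sk_split hn z (fun k w => (-τ) ^ k * e w +
      (if k = 0 then 0 else if k = 1 then c else -2 * τ * c))]
    have e0 : Sk W n z 0 (fun w => (-τ) ^ 0 * e w +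
        (if (0 : ℕ) = 0 then 0 else if (0 : ℕ) = 1 then c else -2 * τ * c)) = Sk W n z 0 e := by
      simp
    have e1 : Sk W n z 1 (fun w => (-τ) ^ 1 * e w +
        (if (1 : ℕ) = 0 then 0 else if (1 : ℕ) = 1 then c else -2 * τ * c)) =
        -τ * Sk W n z 1 e + c * Sk W n z 1 (fun _ => 1) := by
      rw [← Sk_smul, ← Sk_smul, ← Sk_add]
      simp
    have e2 : Sk W n z 2 (fun w => (-τ) ^ 2 * e w +
        (if (2 : ℕ) = 0 then 0 else if (2 : ℕ) = 1 then c else -2 * τ * c)) =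
        τ ^ 2 * Sk W n z 2 e + (-2 * τ * c) * Sk W n z 2 (fun _ => 1) := by
      rw [← Sk_smul, ← Sk_smul, ← Sk_add]
      simp
    rw [e0, e1, e2]
    ring
  · rw [hA 2, Finset.mul_sum]
    have h1 : ∀ w, 2 * (W w * ((Polynomial.C (-τ) + Polynomial.C c * Polynomial.X) ^ n w z *
        ∏ x ∈ Finset.univ.erase z,
          (Polynomial.C 1 + Polynomial.C (a x) * Polynomial.X) ^ n w x).coeff 2) =
        W w * ((-τ) ^ n w z * (e w ^ 2 - q w) +
          2 * (if n w z = 0 then 0 else if n w z = 1 then c else -2 * τ * c) * e w +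
          2 * (if n w z = 2 then c ^ 2 else 0)) := by
      intro w
      rw [coeff_two_mul, (hJ w).1, (hJ w).2.1, (hN _ (hn w z)).1, (hN _ (hn w z)).2.1,
        (hN _ (hn w z)).2.2, ← (hJ w).2.2]
      ring
    simp only [h1]
    rw [Sk_split hn z (fun k w => (-τ) ^ k * (e w ^ 2 - q w) +
          2 * (if k = 0 then 0 else if k = 1 then c else -2 * τ * c) * e w +
          2 * (if k = 2 then c ^ 2 else 0))]
    have e0 : Sk W n z 0 (fun w => (-τ) ^ 0 * (e w ^ 2 - q w) +
          2 * (if (0 : ℕ) = 0 then 0 else if (0 : ℕ) = 1 then c else -2 * τ * c) * e w +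
          2 * (if (0 : ℕ) = 2 then c ^ 2 else 0)) = Sk W n z 0 (fun w => e w ^ 2 - q w) := by
      simp
    have e1 : Sk W n z 1 (fun w => (-τ) ^ 1 * (e w ^ 2 - q w) +
          2 * (if (1 : ℕ) = 0 then 0 else if (1 : ℕ) = 1 then c else -2 * τ * c) * e w +
          2 * (if (1 : ℕ) = 2 then c ^ 2 else 0)) =
        -τ * Sk W n z 1 (fun w => e w ^ 2 - q w) + 2 * c * Sk W n z 1 e := by
      rw [← Sk_smul, ← Sk_smul, ← Sk_add]
      simp
    have e2 : Sk W n z 2 (fun w => (-τ) ^ 2 * (e w ^ 2 - q w) +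
          2 * (if (2 : ℕ) = 0 then 0 else if (2 : ℕ) = 1 then c else -2 * τ * c) * e w +
          2 * (if (2 : ℕ) = 2 then c ^ 2 else 0)) =
        τ ^ 2 * Sk W n z 2 (fun w => e w ^ 2 - q w) + (2 * (-2 * τ * c)) * Sk W n z 2 e +
          2 * c ^ 2 * Sk W n z 2 (fun _ => 1) := by
      rw [← Sk_smul, ← Sk_smul, ← Sk_smul, ← Sk_add, ← Sk_add]
      simp
    rw [e0, e1, e2]
    ring

/-- **One node**, in terms of the weights. -/
theorem one_node_core {W : Om → ℝ} {n : Om → V → ℕ} (hn : ∀ w x, n w x ≤ 2) {N : ℕ}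
    (hdeg : ∀ w, W w ≠ 0 → ∑ x, n w x = N) (hst : RStable (gen W n)) (z : V) (a : V → ℝ)
    (ha : a z = 0) (w0 w1 al E2 E0 la : ℝ) (hw1 : 0 < w1)
    (h00 : Sk W n z 0 (fun _ => 1) = w1) (h20 : Sk W n z 2 (fun _ => 1) = w1)
    (h10 : Sk W n z 1 (fun _ => 1) = w0)
    (h0A : Sk W n z 0 (fun w => ∑ x, ((n w x : ℝ) - 1) * a x) = -al)
    (h1A : Sk W n z 1 (fun w => ∑ x, ((n w x : ℝ) - 1) * a x) = 0)
    (h2A : Sk W n z 2 (fun w => ∑ x, ((n w x : ℝ) - 1) * a x) = al)
    (h0E : Sk W n z 0 (fun w => (∑ x, ((n w x : ℝ) - 1) * a x) ^ 2) = E2)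
    (h1E : Sk W n z 1 (fun w => (∑ x, ((n w x : ℝ) - 1) * a x) ^ 2) = E0)
    (h2E : Sk W n z 2 (fun w => (∑ x, ((n w x : ℝ) - 1) * a x) ^ 2) = E2)
    (h0L : Sk W n z 0 (fun w => ∑ x, ((n w x : ℝ) - 1) * a x ^ 2) = la)
    (h1L : Sk W n z 1 (fun w => ∑ x, ((n w x : ℝ) - 1) * a x ^ 2) = 0)
    (h2L : Sk W n z 2 (fun w => ∑ x, ((n w x : ℝ) - 1) * a x ^ 2) = -la)
    (s : ℝ) (hs0 : 0 < s) (hs1 : s ≤ 1) (hs : w1 * (1 + s ^ 2) = w0 * s) :
    E2 * (1 + s ^ 2) - s * E0 - la * (1 - s ^ 2) - 2 * s ^ 2 * al ^ 2 / w1 ≤ 0 := by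
  set S : ℝ := ∑ x, a x with hS
  set S2 : ℝ := ∑ x, a x ^ 2 with hS2
  have he : ∀ w, ∑ x, (n w x : ℝ) * a x = S + ∑ x, ((n w x : ℝ) - 1) * a x := by
    intro w
    rw [hS, ← Finset.sum_add_distrib]
    exact Finset.sum_congr rfl fun x _ => by ring
  have hq : ∀ w, ∑ x, (n w x : ℝ) * a x ^ 2 = S2 + ∑ x, ((n w x : ℝ) - 1) * a x ^ 2 := by
    intro w
    rw [hS2, ← Finset.sum_add_distrib]
    exact Finset.sum_congr rfl fun x _ => by ring
  -- the sums of `e` and of `e ^ 2 - q`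
  have he' : ∀ k, Sk W n z k (fun w => ∑ x, (n w x : ℝ) * a x) =
      S * Sk W n z k (fun _ => 1) + Sk W n z k (fun w => ∑ x, ((n w x : ℝ) - 1) * a x) := by
    intro k
    rw [← Sk_smul, ← Sk_add]
    congr 1
    funext w
    rw [he]
    ring
  have hq' : ∀ k, Sk W n z k (fun w => (∑ x, (n w x : ℝ) * a x) ^ 2 -
      ∑ x, (n w x : ℝ) * a x ^ 2) =
      (S ^ 2 - S2) * Sk W n z k (fun _ => 1) +
      (2 * S * Sk W n z k (fun w => ∑ x, ((n w x : ℝ) - 1) * a x) +
      (Sk W n z k (fun w => (∑ x, ((n w x : ℝ) - 1) * a x) ^ 2) +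
      (-1) * Sk W n z k (fun w => ∑ x, ((n w x : ℝ) - 1) * a x ^ 2))) := by
    intro k
    rw [← Sk_smul, ← Sk_smul, ← Sk_smul, ← Sk_add, ← Sk_add, ← Sk_add]
    congr 1
    funext w
    rw [he, hq]
    ring
  set c : ℝ := s * al / w1 with hc
  have hcw : c * w1 = s * al := by
    rw [hc]
    field_simp
  -- the three functions of `τ`
  have hfun : ∀ τ : ℝ, 0 ≤ τ → τ < s →
      (w1 - τ * w0 + τ ^ 2 * w1) *
        ((S ^ 2 - S2) * (w1 - τ * w0 + τ ^ 2 * w1) - 2 * S * al * (1 - τ ^ 2) +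
          E2 * (1 + τ ^ 2) - τ * E0 - la * (1 - τ ^ 2) + 2 * c * S * (w0 - 2 * τ * w1) +
          2 * c ^ 2 * w1 - 4 * τ * c * al) ≤
      (S * (w1 - τ * w0 + τ ^ 2 * w1) - al * (1 - τ ^ 2) + c * (w0 - 2 * τ * w1)) ^ 2 := by
    intro τ hτ0 hτs
    have hcone : Cone (gen W n) (fun x => if x = z then -τ else 1) := by
      intro r hr h0
      -- value at the shifted point
      have hval : aeval (fun i => (((if i = z then -τ else (1 : ℝ)) + r : ℝ) : ℂ)) (gen W n) =
          (((1 + r) ^ N * (w1 + w0 * ((r - τ) / (1 + r)) +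
            w1 * ((r - τ) / (1 + r)) ^ 2) : ℝ) : ℂ) := by
        have h1r : (1 + r : ℝ) ≠ 0 := by positivity
        rw [gen_aeval]
        have h2 : ∀ w, (W w : ℂ) * ∏ x, (((if x = z then -τ else (1 : ℝ)) + r : ℝ) : ℂ) ^ n w x =
            ((W w * ((1 + r) ^ N * ((r - τ) / (1 + r)) ^ n w z) : ℝ) : ℂ) := by
          intro w
          by_cases hw : W w = 0
          · rw [hw]
            simp
          · have h3 : ∏ x, ((if x = z then -τ else (1 : ℝ)) + r) ^ n w x =
                (1 + r) ^ N * ((r - τ) / (1 + r)) ^ n w z := by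
              rw [← hdeg w hw, ← Finset.prod_pow_eq_pow_sum,
                ← Finset.mul_prod_erase Finset.univ _ (Finset.mem_univ z),
                ← Finset.mul_prod_erase Finset.univ (fun x => (1 + r) ^ n w x)
                  (Finset.mem_univ z), if_pos rfl]
              have h4 : ∏ x ∈ Finset.univ.erase z, ((if x = z then -τ else (1 : ℝ)) + r) ^ n w x =
                  ∏ x ∈ Finset.univ.erase z, (1 + r) ^ n w x := by
                refine Finset.prod_congr rfl fun x hx => ?_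
                rw [if_neg (Finset.ne_of_mem_erase hx)]
              rw [h4, div_pow]
              field_simp
              ring
            rw [← h3]
            push_cast
            rfl
        simp only [h2]
        rw [← Complex.ofReal_sum]
        congr 1
        rw [Sk_split hn z (fun k _ => (1 + r) ^ N * ((r - τ) / (1 + r)) ^ k)]
        have e0 : ∀ k : ℕ, Sk W n z k (fun _ => (1 + r) ^ N * ((r - τ) / (1 + r)) ^ k) =
            ((1 + r) ^ N * ((r - τ) / (1 + r)) ^ k) * Sk W n z k (fun _ => 1) := by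
          intro k
          rw [← Sk_smul]
          simp
        rw [e0, e0, e0, h00, h10, h20]
        ring
      rw [hval] at h0
      have h1 : (1 + r) ^ N * (w1 + w0 * ((r - τ) / (1 + r)) +
            w1 * ((r - τ) / (1 + r)) ^ 2) = 0 := by exact_mod_cast h0
      have h1r : (0 : ℝ) < 1 + r := by positivity
      rcases mul_eq_zero.1 h1 with h2 | h2
      · exact (pow_pos h1r N).ne' h2
      · set t : ℝ := (r - τ) / (1 + r) with ht
        have ht1 : -s < t := by
          rw [ht, lt_div_iff₀ h1r]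
          nlinarith
        have h3 : s * (w1 + w0 * t + w1 * t ^ 2) = w1 * ((t + s) * (1 + s * t)) := by
          linear_combination (-t) * hs
        have h4 : 0 < 1 + s * t := by nlinarith
        have h5 : 0 < w1 * ((t + s) * (1 + s * t)) := by
          have : 0 < t + s := by linarith
          positivity
        rw [h2, mul_zero] at h3
        linarith
    have h := garding_ineq (gen_hom hdeg) hst hcone (fun x => if x = z then c else a x)
    obtain ⟨l0, l1, l2⟩ := line_coeffs (W := W) hn z a ha τ c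
    rw [l2, l1, l0, he', he', he', hq', hq', hq', h00, h10, h20, h0A, h1A, h2A, h0E, h1E, h2E,
      h0L, h1L, h2L] at h
    refine le_trans (le_of_eq ?_) (h.trans (le_of_eq ?_))
    · ring
    · ring
  exact one_node_real w0 w1 al E2 E0 la S S2 c s hw1 hs0 hs1 hs hcw hfun

end law

end Vale.Agent.P361.LRO.T1
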