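import Vale.Agent.P361.LRO.OneNode

/-!
Theorem 1 (star-mesh inequality) for symmetric homogeneous stable laws.
-/

namespace Vale.Agent.P361.LRO.T1

open MvPolynomial

section thm

variable {Om V : Type*} [Fintype Om] [Fintype V] [DecidableEq V]

/-- sums over the configurations which are charged at `z` -/
noncomputable def sA (W : Om → ℝ) (n : Om → V → ℕ) (z : V) (F : Om → ℝ) : ℝ :=
  ∑ w, if n w z = 1 then 0 else W w * F w

/-- sums over the configurations which are not charged at `z` -/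
noncomputable def sB (W : Om → ℝ) (n : Om → V → ℕ) (z : V) (F : Om → ℝ) : ℝ :=
  ∑ w, if n w z = 1 then W w * F w else 0

/-- the conditional expectations -/
noncomputable def EA (W : Om → ℝ) (n : Om → V → ℕ) (z : V) (F : Om → ℝ) : ℝ :=
  sA W n z F / sA W n z fun _ => 1

noncomputable def EB (W : Om → ℝ) (n : Om → V → ℕ) (z : V) (F : Om → ℝ) : ℝ :=
  sB W n z F / sB W n z fun _ => 1

omit [Fintype V] [DecidableEq V] in
theorem sA_eq {W : Om → ℝ} {n : Om → V → ℕ} (hn : ∀ w x, n w x ≤ 2) (z : V) (F : Om → ℝ) :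
    sA W n z F = Sk W n z 0 F + Sk W n z 2 F := by
  rw [sA, Sk, Sk, ← Finset.sum_add_distrib]
  refine Finset.sum_congr rfl fun w _ => ?_
  have h := hn w z
  interval_cases h1 : n w z <;> simp

omit [Fintype V] [DecidableEq V] in
theorem sB_eq (W : Om → ℝ) (n : Om → V → ℕ) (z : V) (F : Om → ℝ) :
    sB W n z F = Sk W n z 1 F := rfl

omit [Fintype V] [DecidableEq V] in
theorem Sk_symm {W : Om → ℝ} {n : Om → V → ℕ} (hn : ∀ w x, n w x ≤ 2) (ι : Equiv.Perm Om)
    (hWι : ∀ w, W (ι w) = W w) (hnι : ∀ w x, n (ι w) x = 2 - n w x) (z : V) {k : ℕ} (hk : k ≤ 2)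
    (F : Om → ℝ) : Sk W n z k F = Sk W n z (2 - k) fun w => F (ι w) := by
  rw [Sk, Sk, ← Equiv.sum_comp ι]
  refine Finset.sum_congr rfl fun w _ => ?_
  have h := hn w z
  rw [hnι, hWι]
  by_cases h1 : n w z = 2 - k
  · rw [if_pos (by omega), if_pos h1]
  · rw [if_neg (by omega), if_neg h1]

/-- the two weights: `2 w₁ ≤ w₀` -/
theorem two_mul_le {W : Om → ℝ} {n : Om → V → ℕ} (hn : ∀ w x, n w x ≤ 2) {N : ℕ}
    (hdeg : ∀ w, W w ≠ 0 → ∑ x, n w x = N) (hst : RStable (gen W n)) (z : V) (w0 w1 : ℝ)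
    (hw1 : 0 < w1) (hw0 : 0 ≤ w0)
    (h00 : Sk W n z 0 (fun _ => 1) = w1) (h20 : Sk W n z 2 (fun _ => 1) = w1)
    (h10 : Sk W n z 1 (fun _ => 1) = w0) : 2 * w1 ≤ w0 := by
  by_contra hlt
  rw [not_le] at hlt
  set r : ℝ := Real.sqrt (4 * w1 ^ 2 - w0 ^ 2) with hr
  have hr2 : r ^ 2 = 4 * w1 ^ 2 - w0 ^ 2 := Real.sq_sqrt (by nlinarith)
  have hrpos : 0 < r := Real.sqrt_pos.2 (by nlinarith)
  set t : ℂ := ⟨-w0 / (2 * w1), r / (2 * w1)⟩ with ht
  have htim : 0 < t.im := by
    change 0 < r / (2 * w1)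
    positivity
  have hzero : (w1 : ℂ) + w0 * t + w1 * t ^ 2 = 0 := by
    apply Complex.ext
    · simp only [ht, Complex.add_re, Complex.mul_re, Complex.ofReal_re, Complex.ofReal_im,
        pow_two, Complex.mul_im, zero_mul, sub_zero, Complex.zero_re]
      field_simp
      nlinarith [hr2]
    · simp only [ht, Complex.add_im, Complex.mul_re, Complex.ofReal_re, Complex.ofReal_im,
        pow_two, Complex.mul_im, zero_mul, Complex.zero_im]
      field_simp
      ring
  set u : ℂ := ⟨(|t.re| + 1) / t.im, 1⟩ with hu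
  have hval : aeval (fun x => u * (if x = z then t else 1)) (gen W n) = 0 := by
    rw [aeval_smul_hom (gen_hom hdeg), gen_aeval]
    have h1 : ∀ w, (W w : ℂ) * ∏ x, (if x = z then t else 1) ^ n w x =
        ((if n w z = 0 then W w * 1 else 0 : ℝ) : ℂ) +
          ((if n w z = 1 then W w * 1 else 0 : ℝ) : ℂ) * t +
          ((if n w z = 2 then W w * 1 else 0 : ℝ) : ℂ) * t ^ 2 := by
      intro w
      have h2 : ∏ x, (if x = z then t else (1 : ℂ)) ^ n w x = t ^ n w z := by
        rw [Finset.prod_eq_single z]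
        · rw [if_pos rfl]
        · intro x _ hx
          rw [if_neg hx, one_pow]
        · intro h
          exact absurd (Finset.mem_univ z) h
      rw [h2]
      have h := hn w z
      interval_cases h1 : n w z <;> simp
    simp only [h1]
    rw [Finset.sum_add_distrib, Finset.sum_add_distrib, ← Finset.sum_mul, ← Finset.sum_mul,
      ← Complex.ofReal_sum, ← Complex.ofReal_sum, ← Complex.ofReal_sum]
    have e0 : ∑ w, (if n w z = 0 then W w * 1 else 0) = w1 := h00
    have e1 : ∑ w, (if n w z = 1 then W w * 1 else 0) = w0 := h10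
    have e2 : ∑ w, (if n w z = 2 then W w * 1 else 0) = w1 := h20
    rw [e0, e1, e2, hzero, mul_zero]
  refine hst _ (fun x => ?_) hval
  by_cases hx : x = z
  · rw [if_pos hx, Complex.mul_im]
    change 0 < (|t.re| + 1) / t.im * t.im + 1 * t.re
    rw [div_mul_cancel₀ _ htim.ne', one_mul]
    have := neg_abs_le t.re
    linarith
  · rw [if_neg hx, mul_one]
    change (0 : ℝ) < 1
    exact one_pos

/-- **Theorem 1.** -/
theorem theorem_one {W : Om → ℝ} (hW : ∀ w, 0 ≤ W w) {n : Om → V → ℕ} (hn : ∀ w x, n w x ≤ 2)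
    (hdeg : ∀ w, W w ≠ 0 → ∑ x, n w x = Fintype.card V) (ι : Equiv.Perm Om)
    (hWι : ∀ w, W (ι w) = W w) (hnι : ∀ w x, n (ι w) x = 2 - n w x)
    (hst : ∀ y : V → ℂ, (∀ x, 0 < (y x).im) → ∑ w, (W w : ℂ) * ∏ x, y x ^ n w x ≠ 0)
    (z : V) (a : V → ℝ) (π : V → ℝ) (abar L eps : ℝ)
    (hπ : ∀ x, π x = EA W n z fun w => -((n w z : ℝ) - 1) * ((n w x : ℝ) - 1))
    (habar : abar = ∑ x, π x * (a x - a z)) (hL : L = ∑ x, π x * (a x - a z) ^ 2)
    (heps : eps = Real.sqrt (1 - 2 * sA W n z (fun _ => 1) /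
      (sA W n z (fun _ => 1) + sB W n z (fun _ => 1)))) :
    EA W n z (fun w => (∑ x, a x * ((n w x : ℝ) - 1)) ^ 2) -
        EB W n z (fun w => (∑ x, a x * ((n w x : ℝ) - 1)) ^ 2) ≤
      abar ^ 2 + 2 * eps / (1 + eps ^ 2) * (L - abar ^ 2) := by
  have hst' : RStable (gen W n) := by
    intro y hy
    rw [gen_aeval]
    exact hst y hy
  set w1 : ℝ := Sk W n z 2 (fun _ => 1) with hw1
  set w0 : ℝ := Sk W n z 1 (fun _ => 1) with hw0
  have h00 : Sk W n z 0 (fun _ => 1) = w1 := Sk_symm hn ι hWι hnι z (by norm_num) _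
  have hw1n : 0 ≤ w1 := Finset.sum_nonneg fun w _ => by
    split_ifs
    · rw [mul_one]
      exact hW w
    · exact le_rfl
  have hw0n : 0 ≤ w0 := Finset.sum_nonneg fun w _ => by
    split_ifs
    · rw [mul_one]
      exact hW w
    · exact le_rfl
  have hsA1 : sA W n z (fun _ => 1) = 2 * w1 := by
    rw [sA_eq hn, h00]
    ring
  have hsB1 : sB W n z (fun _ => 1) = w0 := rfl
  have hEBn : 0 ≤ EB W n z (fun w => (∑ x, a x * ((n w x : ℝ) - 1)) ^ 2) := by
    refine div_nonneg (Finset.sum_nonneg fun w _ => ?_) (by rw [hsB1]; exact hw0n)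
    split_ifs
    · exact mul_nonneg (hW w) (sq_nonneg _)
    · exact le_rfl
  rcases hw1n.eq_or_lt with h0 | h0
  · -- no charge at `z`
    have hEA0 : ∀ F, EA W n z F = 0 := by
      intro F
      rw [EA, hsA1, ← h0, mul_zero, div_zero]
    have h1 : abar = 0 := by
      rw [habar]
      refine Finset.sum_eq_zero fun x _ => ?_
      rw [hπ, hEA0, zero_mul]
    have h2 : L = 0 := by
      rw [hL]
      refine Finset.sum_eq_zero fun x _ => ?_
      rw [hπ, hEA0, zero_mul]
    rw [hEA0, h1, h2]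
    simp only [zero_sub, ne_eq, OfNat.ofNat_ne_zero, not_false_eq_true, zero_pow, sub_self,
      mul_zero, add_zero]
    linarith
  -- the shifted coefficients
  set b : V → ℝ := fun x => a x - a z with hb
  have hbz : b z = 0 := sub_self _
  set A : Om → ℝ := fun w => ∑ x, ((n w x : ℝ) - 1) * b x with hA
  set Q : Om → ℝ := fun w => ∑ x, ((n w x : ℝ) - 1) * b x ^ 2 with hQ
  have hjι : ∀ w x, ((n (ι w) x : ℝ) - 1) = -((n w x : ℝ) - 1) := by
    intro w x
    rw [hnι, Nat.cast_sub (hn w x)]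
    push_cast
    ring
  have hAι : ∀ w, A (ι w) = -A w := by
    intro w
    simp only [hA]
    rw [← Finset.sum_neg_distrib]
    refine Finset.sum_congr rfl fun x _ => ?_
    rw [hjι]
    ring
  have hQι : ∀ w, Q (ι w) = -Q w := by
    intro w
    simp only [hQ]
    rw [← Finset.sum_neg_distrib]
    refine Finset.sum_congr rfl fun x _ => ?_
    rw [hjι]
    ring
  have hneg : ∀ (k : ℕ) (F : Om → ℝ), Sk W n z k (fun w => -F w) = -Sk W n z k F := by
    intro k F
    have h := Sk_smul W n z k (-1) F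
    have h' : (fun w => -1 * F w) = fun w => -F w := by
      funext w
      ring
    rw [h'] at h
    rw [h]
    ring
  set al : ℝ := Sk W n z 2 A with hal
  set E2 : ℝ := Sk W n z 2 (fun w => A w ^ 2) with hE2
  set E0 : ℝ := Sk W n z 1 (fun w => A w ^ 2) with hE0
  set la : ℝ := -Sk W n z 2 Q with hla
  have h0A : Sk W n z 0 A = -al := by
    rw [Sk_symm hn ι hWι hnι z (by norm_num) A]
    simp only [hAι]
    exact hneg 2 A
  have h1A : Sk W n z 1 A = 0 := by
    have h := Sk_symm hn ι hWι hnι z (k := 1) (by norm_num) A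
    simp only [hAι] at h
    have h' := hneg 1 A
    have h2 : Sk W n z 1 A = -Sk W n z 1 A := h.trans h'
    linarith
  have h0E : Sk W n z 0 (fun w => A w ^ 2) = E2 := by
    rw [Sk_symm hn ι hWι hnι z (by norm_num) fun w => A w ^ 2]
    simp only [hAι, neg_sq]
    rfl
  have h0L : Sk W n z 0 Q = la := by
    rw [Sk_symm hn ι hWι hnι z (by norm_num) Q]
    simp only [hQι]
    exact hneg 2 Q
  have h1L : Sk W n z 1 Q = 0 := by
    have h := Sk_symm hn ι hWι hnι z (k := 1) (by norm_num) Q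
    simp only [hQι] at h
    have h' := hneg 1 Q
    have h2 : Sk W n z 1 Q = -Sk W n z 1 Q := h.trans h'
    linarith
  have h2L : Sk W n z 2 Q = -la := by
    rw [hla, neg_neg]
  have hle : 2 * w1 ≤ w0 := two_mul_le hn hdeg hst' z w0 w1 h0 hw0n h00 rfl rfl
  have hw0p : 0 < w0 := by linarith
  -- the root
  have heps2 : eps ^ 2 = (w0 - 2 * w1) / (w0 + 2 * w1) := by
    rw [heps, hsA1, hsB1, Real.sq_sqrt]
    · field_simp
      ring
    · rw [sub_nonneg, div_le_one (by positivity)]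
      linarith
  have heps0 : 0 ≤ eps := by
    rw [heps]
    exact Real.sqrt_nonneg _
  have heps1 : eps < 1 := by
    have h1 : eps ^ 2 < 1 := by
      rw [heps2, div_lt_one (by positivity)]
      linarith
    nlinarith
  have h1e : 0 < 1 - eps := by linarith
  have h1e' : 0 < 1 + eps := by linarith
  have heq : w1 * (1 + ((1 - eps) / (1 + eps)) ^ 2) = w0 * ((1 - eps) / (1 + eps)) := by
    have h1 : eps ^ 2 * (w0 + 2 * w1) = w0 - 2 * w1 := by
      rw [heps2]
      field_simp
    field_simp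
    linear_combination h1
  have hcore := one_node_core hn hdeg hst' z b hbz w0 w1 al E2 E0 la h0 h00 rfl rfl h0A h1A rfl
    h0E rfl rfl h0L h1L h2L ((1 - eps) / (1 + eps)) (div_pos h1e h1e')
    ((div_le_one h1e').2 (by linarith)) heq
  -- the conditional expectations
  have hsum : ∀ w, W w ≠ 0 → ∑ x, a x * ((n w x : ℝ) - 1) = A w := by
    intro w hw
    have h1 : ∑ x, ((n w x : ℝ) - 1) = 0 := by
      rw [Finset.sum_sub_distrib, ← Nat.cast_sum, hdeg w hw]
      simp
    have h2 : A w = ∑ x, a x * ((n w x : ℝ) - 1) - a z * ∑ x, ((n w x : ℝ) - 1) := by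
      simp only [hA, hb]
      rw [Finset.mul_sum, ← Finset.sum_sub_distrib]
      refine Finset.sum_congr rfl fun x _ => ?_
      ring
    rw [h2, h1, mul_zero, sub_zero]
  have hSk : ∀ k, Sk W n z k (fun w => (∑ x, a x * ((n w x : ℝ) - 1)) ^ 2) =
      Sk W n z k (fun w => A w ^ 2) := by
    intro k
    rw [Sk, Sk]
    refine Finset.sum_congr rfl fun w _ => ?_
    by_cases hw : W w = 0
    · rw [hw, zero_mul, zero_mul]
    · rw [hsum w hw]
  have hEA2 : EA W n z (fun w => (∑ x, a x * ((n w x : ℝ) - 1)) ^ 2) = E2 / w1 := by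
    rw [EA, hsA1, sA_eq hn, hSk, hSk, h0E]
    field_simp
    ring
  have hEB2 : EB W n z (fun w => (∑ x, a x * ((n w x : ℝ) - 1)) ^ 2) = E0 / w0 := by
    rw [EB, hsB1, sB_eq, hSk]
  have hpi : ∀ c : V → ℝ, ∑ x, π x * c x =
      (Sk W n z 0 (fun w => ∑ x, ((n w x : ℝ) - 1) * c x) -
        Sk W n z 2 (fun w => ∑ x, ((n w x : ℝ) - 1) * c x)) / (2 * w1) := by
    intro c
    have h1 : ∀ x, π x * c x = (sA W n z (fun w => -((n w z : ℝ) - 1) *
        (((n w x : ℝ) - 1) * c x))) / (2 * w1) := by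
      intro x
      rw [hπ, EA, hsA1, div_mul_eq_mul_div, sA, sA, Finset.sum_mul]
      congr 1
      refine Finset.sum_congr rfl fun w _ => ?_
      split_ifs
      · ring
      · ring
    simp only [h1]
    rw [← Finset.sum_div]
    congr 1
    simp only [sA, Sk]
    rw [Finset.sum_comm, ← Finset.sum_sub_distrib]
    refine Finset.sum_congr rfl fun w _ => ?_
    have h := hn w z
    have h2 : ∑ x, -((n w z : ℝ) - 1) * (((n w x : ℝ) - 1) * c x) =
        -((n w z : ℝ) - 1) * ∑ x, ((n w x : ℝ) - 1) * c x := by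
      rw [Finset.mul_sum]
    by_cases h3 : n w z = 1
    · simp [h3]
    · simp only [if_neg h3]
      rw [← Finset.mul_sum, h2]
      interval_cases h1 : n w z
      · simp
      · exact absurd rfl h3
      · simp
        ring
  have habar2 : abar = -al / w1 := by
    have h1 := hpi b
    rw [← habar] at h1
    rw [h1]
    change (Sk W n z 0 A - Sk W n z 2 A) / (2 * w1) = _
    rw [h0A]
    field_simp
    ring
  have hL2 : L = la / w1 := by
    have h1 := hpi fun x => b x ^ 2
    rw [← hL] at h1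
    rw [h1]
    change (Sk W n z 0 Q - Sk W n z 2 Q) / (2 * w1) = _
    rw [h0L, h2L]
    field_simp
    ring
  rw [hEA2, hEB2, habar2, hL2]
  set s : ℝ := (1 - eps) / (1 + eps) with hs
  have hs0 : 0 < s := div_pos h1e h1e'
  have hK : 2 * eps / (1 + eps ^ 2) = (1 - s ^ 2) / (1 + s ^ 2) := by
    rw [hs, div_eq_div_iff (by positivity) (by positivity)]
    field_simp
    ring
  have hw0s : w0 = w1 * (1 + s ^ 2) / s := by
    rw [eq_div_iff hs0.ne', ← heq]
  rw [hK, hw0s]
  have h5 : 0 < w1 * (1 + s ^ 2) := by positivity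
  have h6 : E2 / w1 - E0 / (w1 * (1 + s ^ 2) / s) =
      (E2 * (1 + s ^ 2) - s * E0) / (w1 * (1 + s ^ 2)) := by
    field_simp
  have h7 : (-al / w1) ^ 2 + (1 - s ^ 2) / (1 + s ^ 2) * (la / w1 - (-al / w1) ^ 2) =
      (la * (1 - s ^ 2) + 2 * s ^ 2 * al ^ 2 / w1) / (w1 * (1 + s ^ 2)) := by
    field_simp
    ring
  rw [h6, h7]
  exact div_le_div_of_nonneg_right (by linarith) h5.le

end thm

end Vale.Agent.P361.LRO.T1
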