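import Vale.Agent.P361.LRO.Cone

/-!
Stability of states on `V → Fin 2` with respect to a hemisphere, gates, nonvanishing trace
(P361, step (8)).
-/

namespace Vale.Agent.P361.LRO

open Complex Matrix

noncomputable section

variable {V : Type*} [Fintype V] [DecidableEq V]

/-- The multilinear form with coefficients `ψ`. -/
def L {ι : Type*} [Fintype ι] (ψ : (V → ι) → ℂ) (k : V → ι → ℂ) : ℂ :=
  ∑ σ : V → ι, ψ σ * ∏ x, k x (σ x)

lemma prod_update_eq {ι : Type*} (k : V → ι → ℂ) (x : V) (m : ι → ℂ) (σ : V → ι) :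
    ∏ y, (Function.update k x m) y (σ y) = m (σ x) * ∏ y ∈ Finset.univ.erase x, k y (σ y) := by
  rw [← Finset.mul_prod_erase Finset.univ _ (Finset.mem_univ x)]
  simp only [Function.update_self]
  congr 1
  refine Finset.prod_congr rfl fun y hy => ?_
  rw [Function.update_of_ne (Finset.ne_of_mem_erase hy)]

lemma L_update {ι : Type*} [Fintype ι] [DecidableEq ι] (ψ : (V → ι) → ℂ) (k : V → ι → ℂ) (x : V)
    (m : ι → ℂ) :
    L ψ (Function.update k x m) = ∑ i, m i * L ψ (Function.update k x (Pi.single i 1)) := by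
  simp only [L, prod_update_eq, Finset.mul_sum]
  rw [Finset.sum_comm]
  refine Finset.sum_congr rfl fun σ _ => ?_
  rw [Finset.sum_eq_single (σ x)]
  · simp only [Pi.single_eq_same]; ring
  · intro i _ hi
    rw [Pi.single_eq_of_ne (Ne.symm hi)]; ring
  · intro h; exact absurd (Finset.mem_univ _) h

/-- Open stability. -/
def OSt (g : ℝ) (ψ : (V → Fin 2) → ℂ) : Prop :=
  ∀ z : V → Fin 2 → ℂ, (∀ x, 0 < Q g (z x)) → L ψ z ≠ 0

/-- Closed stability. -/
def SSt (g : ℝ) (ψ : (V → Fin 2) → ℂ) : Prop :=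
  ∀ z : V → Fin 2 → ℂ, (∀ x, z x ≠ 0 ∧ 0 ≤ Q g (z x)) → L ψ z ≠ 0

lemma SSt.o {g : ℝ} {ψ : (V → Fin 2) → ℂ} (h : SSt g ψ) : OSt g ψ := fun z hz =>
  h z fun x => ⟨ne_zero_of_Q_pos (hz x), (hz x).le⟩

/-- Operators which preserve both stabilities. -/
structure Good (g : ℝ) (A : Matrix (V → Fin 2) (V → Fin 2) ℂ) : Prop where
  o : ∀ ψ, OSt g ψ → OSt g (A *ᵥ ψ)
  s : ∀ ψ, SSt g ψ → SSt g (A *ᵥ ψ)

/-- Operators which improve the stability. -/
def Strict (g : ℝ) (A : Matrix (V → Fin 2) (V → Fin 2) ℂ) : Prop :=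
  ∀ ψ, OSt g ψ → SSt g (A *ᵥ ψ)

/-- Operators which may spoil the stability. -/
def Weak (g : ℝ) (A : Matrix (V → Fin 2) (V → Fin 2) ℂ) : Prop :=
  ∀ ψ, SSt g ψ → OSt g (A *ᵥ ψ)

lemma Strict.good {g : ℝ} {A : Matrix (V → Fin 2) (V → Fin 2) ℂ} (h : Strict g A) : Good g A :=
  ⟨fun ψ hψ => (h ψ hψ).o, fun ψ hψ => h ψ hψ.o⟩

lemma Good.one {g : ℝ} : Good g (1 : Matrix (V → Fin 2) (V → Fin 2) ℂ) :=
  ⟨fun ψ h => by rwa [one_mulVec], fun ψ h => by rwa [one_mulVec]⟩

lemma Good.mul {g : ℝ} {A B : Matrix (V → Fin 2) (V → Fin 2) ℂ} (hA : Good g A) (hB : Good g B) :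
    Good g (A * B) :=
  ⟨fun ψ h => by rw [← mulVec_mulVec]; exact hA.o _ (hB.o _ h),
    fun ψ h => by rw [← mulVec_mulVec]; exact hA.s _ (hB.s _ h)⟩

lemma Good.pow {g : ℝ} {A : Matrix (V → Fin 2) (V → Fin 2) ℂ} (hA : Good g A) (n : ℕ) :
    Good g (A ^ n) := by
  induction n with
  | zero => rw [pow_zero]; exact Good.one
  | succ n ih => rw [pow_succ]; exact ih.mul hA

lemma Good.list {g : ℝ} {l : List (Matrix (V → Fin 2) (V → Fin 2) ℂ)}
    (h : ∀ A ∈ l, Good g A) : Good g l.prod := by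
  induction l with
  | nil => rw [List.prod_nil]; exact Good.one
  | cons a l ih =>
    rw [List.prod_cons]
    exact (h a (by simp)).mul (ih fun A hA => h A (by simp [hA]))

lemma Strict.mul_right {g : ℝ} {A B : Matrix (V → Fin 2) (V → Fin 2) ℂ} (hA : Strict g A)
    (hB : Good g B) : Strict g (A * B) := fun ψ h => by
  rw [← mulVec_mulVec]; exact hA _ (hB.o _ h)

lemma Strict.mul_left {g : ℝ} {A B : Matrix (V → Fin 2) (V → Fin 2) ℂ} (hA : Good g A)
    (hB : Strict g B) : Strict g (A * B) := fun ψ h => by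
  rw [← mulVec_mulVec]; exact hA.s _ (hB _ h)

lemma Strict.weak_strict {g : ℝ} {A R B : Matrix (V → Fin 2) (V → Fin 2) ℂ} (hA : Strict g A)
    (hR : Weak g R) (hB : Strict g B) : Strict g (A * R * B) := fun ψ h => by
  rw [← mulVec_mulVec, ← mulVec_mulVec]; exact hA _ (hR _ (hB _ h))

/-- Product operators. -/
def prodMat (R : V → Matrix (Fin 2) (Fin 2) ℂ) : Matrix (V → Fin 2) (V → Fin 2) ℂ :=
  Matrix.of fun σ τ => ∏ y, R y (σ y) (τ y)

lemma L_prodMat (R : V → Matrix (Fin 2) (Fin 2) ℂ) (ψ : (V → Fin 2) → ℂ) (z : V → Fin 2 → ℂ) :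
    L (prodMat R *ᵥ ψ) z = L ψ (fun y t => ∑ s, z y s * R y s t) := by
  have h1 : ∀ τ : V → Fin 2, ∏ x, ∑ s, z x s * R x s (τ x) =
      ∑ σ : V → Fin 2, ∏ x, z x (σ x) * R x (σ x) (τ x) := by
    intro τ
    rw [Finset.prod_univ_sum, Fintype.piFinset_univ]
  simp only [L]
  simp_rw [h1, mulVec, dotProduct, prodMat, Matrix.of_apply, Finset.sum_mul, Finset.mul_sum]
  rw [Finset.sum_comm]
  refine Finset.sum_congr rfl fun τ _ => Finset.sum_congr rfl fun σ _ => ?_
  rw [Finset.prod_mul_distrib]; ring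

/-- A product operator with all factors mapping the closed cone into the open cone. -/
lemma strict_prodMat {g : ℝ} {R : V → Matrix (Fin 2) (Fin 2) ℂ}
    (h : ∀ y (u : Fin 2 → ℂ), u ≠ 0 → 0 ≤ Q g u → 0 < Q g (fun t => ∑ s, u s * R y s t)) :
    Strict g (prodMat R) := by
  intro ψ hψ z hz
  rw [L_prodMat]
  exact hψ _ fun x => h x (z x) (hz x).1 (hz x).2

/-- The swap of the spins at `x` and `y`. -/
def swapMat (x y : V) : Matrix (V → Fin 2) (V → Fin 2) ℂ :=
  Matrix.of fun σ τ => if τ = σ ∘ Equiv.swap x y then 1 else 0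

lemma swapMat_mulVec (x y : V) (ψ : (V → Fin 2) → ℂ) :
    swapMat x y *ᵥ ψ = fun σ => ψ (σ ∘ Equiv.swap x y) := by
  funext σ
  simp only [mulVec, dotProduct, swapMat, Matrix.of_apply, ite_mul, one_mul, zero_mul,
    Finset.sum_ite_eq', Finset.mem_univ, if_true]

lemma L_swap (x y : V) (ψ : (V → Fin 2) → ℂ) (z : V → Fin 2 → ℂ) :
    L (fun σ => ψ (σ ∘ Equiv.swap x y)) z = L ψ (z ∘ Equiv.swap x y) := by
  simp only [L]
  refine Fintype.sum_equiv (Equiv.arrowCongr (Equiv.swap x y) (Equiv.refl (Fin 2))) _ _ fun σ => ?_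
  have e : (Equiv.arrowCongr (Equiv.swap x y) (Equiv.refl (Fin 2))) σ = σ ∘ Equiv.swap x y := by
    funext w; simp [Equiv.arrowCongr]
  rw [e]
  congr 1
  rw [← Equiv.prod_comp (Equiv.swap x y)]
  rfl

omit [Fintype V] in
lemma comp_swap_eq {x y : V} (hxy : x ≠ y) (z : V → Fin 2 → ℂ) :
    z ∘ Equiv.swap x y = Function.update (Function.update z x (z y)) y (z x) := by
  funext w
  by_cases hy : w = y
  · subst hy; simp
  · rw [Function.update_of_ne hy]
    by_cases hx : w = x
    · subst hx; simp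
    · rw [Function.update_of_ne hx]
      simp [Equiv.swap_apply_of_ne_of_ne hx hy]

lemma L_two {x y : V} (hxy : x ≠ y) (ψ : (V → Fin 2) → ℂ) (z : V → Fin 2 → ℂ)
    (u v : Fin 2 → ℂ) :
    L ψ (Function.update (Function.update z x u) y v) =
      bil (fun s t => L ψ (Function.update (Function.update z x (Pi.single s 1)) y
        (Pi.single t 1))) u v := by
  rw [L_update]
  simp only [Function.update_comm hxy]
  simp only [L_update (m := u)]
  simp only [bil, Fin.sum_univ_two]
  ring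

/-- The swap gate. -/
def gate (a b : ℝ) (x y : V) : Matrix (V → Fin 2) (V → Fin 2) ℂ :=
  (a : ℂ) • (1 : Matrix (V → Fin 2) (V → Fin 2) ℂ) + (b : ℂ) • swapMat x y

lemma L_gate (a b : ℝ) (x y : V) (ψ : (V → Fin 2) → ℂ) (z : V → Fin 2 → ℂ) :
    L (gate a b x y *ᵥ ψ) z = (a : ℂ) * L ψ z + (b : ℂ) * L ψ (z ∘ Equiv.swap x y) := by
  rw [← L_swap]
  simp only [gate, add_mulVec, smul_mulVec, one_mulVec, swapMat_mulVec, L, Pi.add_apply,
    Pi.smul_apply, smul_eq_mul, Finset.mul_sum, ← Finset.sum_add_distrib]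
  refine Finset.sum_congr rfl fun σ _ => ?_
  ring

lemma good_gate {g : ℝ} {a b : ℝ} (ha : 0 ≤ a) (hb : 0 ≤ b) (hab : 0 < a + b) (x y : V) :
    Good g (gate a b x y) := by
  by_cases hxy : x = y
  · subst hxy
    have e : gate a b x x = ((a + b : ℝ) : ℂ) • (1 : Matrix (V → Fin 2) (V → Fin 2) ℂ) := by
      have : swapMat x x = (1 : Matrix (V → Fin 2) (V → Fin 2) ℂ) := by
        ext σ τ
        simp only [swapMat, Equiv.swap_self, Matrix.of_apply, Matrix.one_apply, Equiv.coe_refl,
          Function.comp_id, eq_comm]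
      rw [gate, this, ← add_smul]; push_cast; rfl
    have h0 : (((a + b : ℝ) : ℂ)) ≠ 0 := by
      rw [Ne, ofReal_eq_zero]; exact hab.ne'
    have hL : ∀ (ψ : (V → Fin 2) → ℂ) (z : V → Fin 2 → ℂ),
        L (gate a b x x *ᵥ ψ) z = ((a + b : ℝ) : ℂ) * L ψ z := by
      intro ψ z
      rw [e]
      simp only [smul_mulVec, one_mulVec, L, Pi.smul_apply, smul_eq_mul, Finset.mul_sum, mul_assoc]
    exact ⟨fun ψ hψ z hz => by rw [hL]; exact mul_ne_zero h0 (hψ z hz),
      fun ψ hψ z hz => by rw [hL]; exact mul_ne_zero h0 (hψ z hz)⟩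
  · have hself : ∀ z : V → Fin 2 → ℂ, z = Function.update (Function.update z x (z x)) y (z y) := by
      intro z; simp
    constructor
    · intro ψ hψ z hz
      rw [L_gate, comp_swap_eq hxy, L_two hxy]
      nth_rewrite 1 [hself z]
      rw [L_two hxy]
      refine swap_open ha hb hab (fun u v hu hv => ?_) (hz x) (hz y)
      rw [← L_two hxy]
      refine hψ _ fun w => ?_
      by_cases hy : w = y
      · subst hy; simpa using hv
      · rw [Function.update_of_ne hy]
        by_cases hx : w = x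
        · subst hx; simpa using hu
        · rw [Function.update_of_ne hx]; exact hz w
    · intro ψ hψ z hz
      rw [L_gate, comp_swap_eq hxy, L_two hxy]
      nth_rewrite 1 [hself z]
      rw [L_two hxy]
      refine swap_closed ha hb hab (fun u v hu0 hu hv0 hv => ?_) (hz x).1 (hz x).2 (hz y).1
        (hz y).2
      rw [← L_two hxy]
      refine hψ _ fun w => ?_
      by_cases hy : w = y
      · subst hy; simpa using ⟨hv0, hv⟩
      · rw [Function.update_of_ne hy]
        by_cases hx : w = x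
        · subst hx; simpa using ⟨hu0, hu⟩
        · rw [Function.update_of_ne hx]; exact hz w

/-- Product states of the closed cone are open stable. -/
lemma oSt_prod {g : ℝ} {w : V → Fin 2 → ℂ} (hw : ∀ x, w x ≠ 0 ∧ 0 ≤ Q g (w x)) :
    OSt g (fun τ => ∏ x, w x (τ x)) := by
  intro z hz
  have : L (fun τ => ∏ x, w x (τ x)) z = ∏ x, dot (z x) (w x) := by
    simp only [L, dot]
    have h2 : ∀ x, z x 0 * w x 0 + z x 1 * w x 1 = ∑ s, z x s * w x s := fun x => by
      rw [Fin.sum_univ_two]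
    simp_rw [h2]
    rw [Finset.prod_univ_sum, Fintype.piFinset_univ]
    refine Finset.sum_congr rfl fun σ _ => ?_
    rw [Finset.prod_mul_distrib]; ring
  rw [this]
  exact Finset.prod_ne_zero_iff.mpr fun x _ => dot_ne_zero (hz x) (hw x).2 (hw x).1

lemma sum_arrow (F : (V → Fin 2) → (V → Fin 2) → ℂ) :
    ∑ ρ : V → Fin 2 × Fin 2, F (fun x => (ρ x).1) (fun x => (ρ x).2) = ∑ σ, ∑ τ, F σ τ := by
  rw [← Fintype.sum_prod_type']
  exact Fintype.sum_equiv (Equiv.arrowProdEquivProdArrow V (fun _ => Fin 2) (fun _ => Fin 2)) _ _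
    fun ρ => rfl

/-- A strict operator has nonzero trace. -/
theorem Strict.trace_ne_zero {g : ℝ} {A : Matrix (V → Fin 2) (V → Fin 2) ℂ} (hA : Strict g A) :
    A.trace ≠ 0 := by
  set φ : (V → Fin 2 × Fin 2) → ℂ := fun ρ => A (fun x => (ρ x).1) (fun x => (ρ x).2) with hφ
  -- the kernel with the sites of `T` contracted
  let K : Finset V → (V → Fin 2 → ℂ) → (V → Fin 2 → ℂ) → V → Fin 2 × Fin 2 → ℂ :=
    fun T z w x i => if x ∈ T then (if i.1 = i.2 then 1 else 0) else z x i.1 * w x i.2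
  have key : ∀ T : Finset V, ∀ z w : V → Fin 2 → ℂ, (∀ x, z x ≠ 0 ∧ 0 ≤ Q g (z x)) →
      (∀ x, w x ≠ 0 ∧ 0 ≤ Q g (w x)) → L φ (K T z w) ≠ 0 := by
    intro T
    induction T using Finset.induction_on with
    | empty =>
      intro z w hz hw
      have e : L φ (K ∅ z w) = L (A *ᵥ fun τ => ∏ x, w x (τ x)) z := by
        have h1 : L φ (K ∅ z w) = ∑ σ, ∑ τ, A σ τ * ∏ x, (z x (σ x) * w x (τ x)) := by
          rw [← sum_arrow (fun σ τ => A σ τ * ∏ x, (z x (σ x) * w x (τ x)))]
          simp only [L, K, Finset.notMem_empty, if_false, hφ]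
        rw [h1]
        simp only [L, mulVec, dotProduct, Finset.sum_mul]
        refine Finset.sum_congr rfl fun σ _ => Finset.sum_congr rfl fun τ _ => ?_
        rw [Finset.prod_mul_distrib]
        ring
      rw [e]
      exact hA _ (oSt_prod hw) z hz
    | insert x T hx ih =>
      intro z w hz hw
      have hupd : ∀ u v : Fin 2 → ℂ, K T (Function.update z x u) (Function.update w x v) =
          Function.update (K T z w) x (fun i => u i.1 * v i.2) := by
        intro u v
        funext y i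
        by_cases hy : y = x
        · subst hy; simp [K, hx]
        · simp [K, Function.update_of_ne hy]
      have hins : K (insert x T) z w =
          Function.update (K T z w) x (fun i => if i.1 = i.2 then 1 else 0) := by
        funext y i
        by_cases hy : y = x
        · subst hy; simp [K]
        · simp [K, hy]
      set M : Fin 2 → Fin 2 → ℂ := fun s t =>
        L φ (Function.update (K T z w) x (Pi.single (s, t) 1)) with hM
      have hb : ∀ u v : Fin 2 → ℂ,
          L φ (K T (Function.update z x u) (Function.update w x v)) = bil M u v := by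
        intro u v
        rw [hupd, L_update, Fintype.sum_prod_type]
        simp only [bil, hM]
        refine Finset.sum_congr rfl fun s _ => Finset.sum_congr rfl fun t _ => ?_
        ring
      have ht : L φ (K (insert x T) z w) = M 0 0 + M 1 1 := by
        rw [hins, L_update, Fintype.sum_prod_type]
        simp [Fin.sum_univ_two, hM]
      rw [ht]
      refine LRO.trace_ne_zero (g := g) fun u v hu0 hu hv0 hv => ?_
      rw [← hb]
      refine ih _ _ (fun y => ?_) (fun y => ?_)
      · by_cases hy : y = x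
        · subst hy; simpa using ⟨hu0, hu⟩
        · rw [Function.update_of_ne hy]; exact hz y
      · by_cases hy : y = x
        · subst hy; simpa using ⟨hv0, hv⟩
        · rw [Function.update_of_ne hy]; exact hw y
  have hfin := key Finset.univ (fun _ => bd) (fun _ => bd)
    (fun _ => ⟨bd_ne_zero, (Q_bd g).ge⟩) (fun _ => ⟨bd_ne_zero, (Q_bd g).ge⟩)
  have e : L φ (K Finset.univ (fun _ => bd) (fun _ => bd)) = A.trace := by
    have h1 : L φ (K Finset.univ (fun _ => bd) (fun _ => bd)) =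
        ∑ σ, ∑ τ, A σ τ * ∏ x, (if σ x = τ x then 1 else 0) := by
      rw [← sum_arrow (fun σ τ => A σ τ * ∏ x, (if σ x = τ x then 1 else 0))]
      simp only [L, K, Finset.mem_univ, if_true, hφ]
    rw [h1]
    simp only [Matrix.trace, Matrix.diag_apply]
    refine Finset.sum_congr rfl fun σ _ => ?_
    rw [Finset.sum_eq_single σ]
    · simp
    · intro τ _ hτ
      have : ∃ x, σ x ≠ τ x := by
        by_contra hc
        exact hτ (funext fun x => (not_not.mp fun hx => hc ⟨x, hx⟩).symm)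
      obtain ⟨x, hx⟩ := this
      rw [Finset.prod_eq_zero (Finset.mem_univ x) (if_neg hx), mul_zero]
    · intro h; exact absurd (Finset.mem_univ _) h
  rwa [e] at hfin

end

end Vale.Agent.P361.LRO
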