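import Vale.Agent.P361.LRO.Fam

/-!
P361, step (5)/(6): the sup-distance on the torus and the total weight of a bump.
-/

namespace Vale.Agent.P361.LRO

open Finset

noncomputable section

variable {n : ℕ}

/-- Distance to `0` in `ZMod n`. -/
def zabs (z : ZMod n) : ℕ := z.valMinAbs.natAbs

theorem zabs_neg (z : ZMod n) : zabs (-z) = zabs z := ZMod.natAbs_valMinAbs_neg z

theorem zabs_one_le : zabs (1 : ZMod n) ≤ 1 := by
  rcases Nat.eq_zero_or_pos n with h | h
  · subst h
    unfold zabs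
    rw [ZMod.valMinAbs_def_zero]
    rfl
  · have : NeZero n := ⟨h.ne'⟩
    unfold zabs
    rw [ZMod.valMinAbs_natAbs_eq_min]
    refine (min_le_left _ _).trans ?_
    rw [ZMod.val_one_eq_one_mod]
    exact Nat.mod_le _ _

theorem zabs_add_le (z w : ZMod n) : zabs (z + w) ≤ zabs z + zabs w := by
  unfold zabs
  exact (ZMod.natAbs_valMinAbs_add_le z w).trans (Int.natAbs_add_le _ _)

theorem zabs_zero : zabs (0 : ZMod n) = 0 := by simp [zabs]

/-- Sup-distance on the torus. -/
def tdist (x y : Tor n) : ℕ := Finset.univ.sup fun i : Fin 3 => zabs (x i - y i)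

theorem zabs_le_tdist (x y : Tor n) (i : Fin 3) : zabs (x i - y i) ≤ tdist x y :=
  Finset.le_sup (f := fun i : Fin 3 => zabs (x i - y i)) (Finset.mem_univ i)

theorem tdist_le {x y : Tor n} {m : ℕ} (h : ∀ i, zabs (x i - y i) ≤ m) : tdist x y ≤ m :=
  Finset.sup_le fun i _ => h i

theorem tdist_self (x : Tor n) : tdist x x = 0 := by
  refine Nat.le_zero.1 (tdist_le fun i => ?_)
  rw [sub_self, zabs_zero]

theorem tdist_comm (x y : Tor n) : tdist x y = tdist y x := by
  unfold tdist
  congr 1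
  funext i
  rw [← zabs_neg, neg_sub]

theorem tdist_triangle (x y z : Tor n) : tdist x z ≤ tdist x y + tdist y z := by
  refine tdist_le fun i => ?_
  have e : x i - z i = (x i - y i) + (y i - z i) := by ring
  rw [e]
  exact (zabs_add_le _ _).trans (add_le_add (zabs_le_tdist x y i) (zabs_le_tdist y z i))

theorem tdist_step (x : Tor n) (i : Fin 3) : tdist (x + Pi.single i 1) x ≤ 1 := by
  refine tdist_le fun j => ?_
  rw [Pi.add_apply, add_sub_cancel_left]
  by_cases h : j = i
  · subst h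
    rw [Pi.single_eq_same]
    exact zabs_one_le
  · rw [Pi.single_eq_of_ne h, zabs_zero]
    exact Nat.zero_le _

theorem tdist_lip (y x : Tor n) (i : Fin 3) :
    |(tdist (x + Pi.single i 1) y : ℝ) - tdist x y| ≤ 1 := by
  have h1 := tdist_triangle (x + Pi.single i 1) x y
  have h2 := tdist_triangle x (x + Pi.single i 1) y
  have h3 := tdist_step x i
  rw [tdist_comm x (x + Pi.single i 1)] at h2
  rw [abs_le]
  constructor
  · have : (tdist x y : ℝ) ≤ 1 + tdist (x + Pi.single i 1) y := by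
      exact_mod_cast h2.trans (Nat.add_le_add_right h3 _)
    linarith
  · have : (tdist (x + Pi.single i 1) y : ℝ) ≤ 1 + tdist x y := by
      exact_mod_cast h1.trans (Nat.add_le_add_right h3 _)
    linarith

/-- Distance to a nonempty set. -/
def sdist (A : Finset (Tor n)) (hA : A.Nonempty) (x : Tor n) : ℕ := A.inf' hA fun y => tdist x y

theorem sdist_lip (A : Finset (Tor n)) (hA : A.Nonempty) (x : Tor n) (i : Fin 3) :
    |(sdist A hA (x + Pi.single i 1) : ℝ) - sdist A hA x| ≤ 1 := by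
  obtain ⟨y, hy, e1⟩ := Finset.exists_mem_eq_inf' hA fun y => tdist x y
  obtain ⟨z, hz, e2⟩ := Finset.exists_mem_eq_inf' hA fun y => tdist (x + Pi.single i 1) y
  have h1 : sdist A hA (x + Pi.single i 1) ≤ tdist (x + Pi.single i 1) y := Finset.inf'_le _ hy
  have h2 : sdist A hA x ≤ tdist x z := Finset.inf'_le _ hz
  have h3 := abs_le.1 (tdist_lip y x i)
  have h4 := abs_le.1 (tdist_lip z x i)
  have h5 : sdist A hA x = tdist x y := e1
  have h6 : sdist A hA (x + Pi.single i 1) = tdist (x + Pi.single i 1) z := e2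
  have h1' : (sdist A hA (x + Pi.single i 1) : ℝ) ≤ tdist (x + Pi.single i 1) y := by
    exact_mod_cast h1
  have h2' : (sdist A hA x : ℝ) ≤ tdist x z := by exact_mod_cast h2
  rw [abs_le]
  constructor
  · rw [h6]; linarith [h4.1]
  · rw [h5]; linarith [h3.2]

/-! ### Sums over the torus -/

theorem zabs_fiber [NeZero n] (k : ℕ) : (univ.filter fun z : ZMod n => zabs z = k).card ≤ 2 := by
  have h : (univ.filter fun z : ZMod n => zabs z = k) ⊆
      ({((k : ℤ) : ZMod n), ((-(k : ℤ) : ℤ) : ZMod n)} : Finset (ZMod n)) := by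
    intro z hz
    rw [Finset.mem_filter] at hz
    have h1 : z.valMinAbs.natAbs = k := hz.2
    have h2 : ((z.valMinAbs : ℤ) : ZMod n) = z := ZMod.coe_valMinAbs z
    rw [Finset.mem_insert, Finset.mem_singleton]
    rcases Int.natAbs_eq z.valMinAbs with h3 | h3
    · left; rw [← h2, h3, h1]
    · right; rw [← h2, h3, h1]
  exact (Finset.card_le_card h).trans Finset.card_le_two

theorem sum_zabs_le [NeZero n] (f : ℕ → ℝ) (hf : ∀ k, 0 ≤ f k) :
    ∑ z : ZMod n, f (zabs z) ≤ 2 * ∑ k ∈ range n, f k := by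
  have hlt : ∀ z : ZMod n, zabs z ∈ range n := by
    intro z
    rw [Finset.mem_range]
    unfold zabs
    rw [ZMod.valMinAbs_natAbs_eq_min]
    exact lt_of_le_of_lt (min_le_left _ _) (ZMod.val_lt z)
  rw [← Finset.sum_fiberwise_of_maps_to (g := zabs) (t := range n) fun z _ => hlt z,
    Finset.mul_sum]
  refine Finset.sum_le_sum fun k _ => ?_
  have : ∑ z ∈ univ.filter (fun z : ZMod n => zabs z = k), f (zabs z) =
      ((univ.filter fun z : ZMod n => zabs z = k).card : ℝ) * f k := by
    rw [← nsmul_eq_mul, ← Finset.sum_const]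
    exact Finset.sum_congr rfl fun z hz => by rw [(Finset.mem_filter.1 hz).2]
  rw [this]
  exact mul_le_mul_of_nonneg_right (by exact_mod_cast zabs_fiber k) (hf k)

theorem sum_exp_le {a : ℝ} (ha : 0 < a) (r m : ℕ) :
    ∑ k ∈ range m, Real.exp (-(a * max ((k : ℝ) - r) 0)) ≤ r + 1 + 1 / a := by
  -- finite geometric sum
  have hgeo : ∀ j : ℕ, ∑ k ∈ range j, Real.exp (-(a * ((k : ℝ) + 1))) ≤ 1 / a := by
    intro j
    have h1 : ∀ j : ℕ, a * ∑ k ∈ range j, Real.exp (-(a * ((k : ℝ) + 1))) ≤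
        1 - Real.exp (-(a * j)) := by
      intro j
      induction j with
      | zero => simp
      | succ j ih =>
        rw [Finset.sum_range_succ, mul_add]
        have e : Real.exp (-(a * j)) = Real.exp (-(a * ((j : ℝ) + 1))) * Real.exp a := by
          rw [← Real.exp_add]; congr 1; ring
        have h2 := Real.add_one_le_exp a
        have h3 := Real.exp_pos (-(a * ((j : ℝ) + 1)))
        have h4 : Real.exp (-(a * ((j : ℝ) + 1))) * (a + 1) ≤ Real.exp (-(a * j)) := by
          rw [e]; exact mul_le_mul_of_nonneg_left h2 h3.le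
        push_cast
        nlinarith
    have h2 := h1 j
    have h3 := Real.exp_pos (-(a * (j : ℝ)))
    rw [le_div_iff₀ ha]
    nlinarith
  have hsplit : ∀ m : ℕ, ∑ k ∈ range m, Real.exp (-(a * max ((k : ℝ) - r) 0)) ≤
      ∑ k ∈ range (r + 1 + m), Real.exp (-(a * max ((k : ℝ) - r) 0)) := fun m =>
    Finset.sum_le_sum_of_subset_of_nonneg (Finset.range_mono (by omega))
      fun _ _ _ => (Real.exp_pos _).le
  refine (hsplit m).trans ?_
  rw [Finset.sum_range_add]
  have h1 : ∑ k ∈ range (r + 1), Real.exp (-(a * max ((k : ℝ) - r) 0)) ≤ r + 1 := by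
    calc _ ≤ ∑ _k ∈ range (r + 1), (1 : ℝ) := Finset.sum_le_sum fun k _ =>
          Real.exp_le_one_iff.2 (by
            have := mul_nonneg ha.le (le_max_right ((k : ℝ) - r) 0); linarith)
      _ = r + 1 := by simp
  have h2 : ∑ x ∈ range m, Real.exp (-(a * max (((r + 1 + x : ℕ) : ℝ) - r) 0)) ≤ 1 / a := by
    refine le_trans (le_of_eq ?_) (hgeo m)
    refine Finset.sum_congr rfl fun x _ => ?_
    congr 2
    have : (((r + 1 + x : ℕ) : ℝ) - r) = (x : ℝ) + 1 := by push_cast; ring
    rw [this, max_eq_left (by positivity)]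
  linarith

/-- Total weight of a bump of radius `r` around `y`. -/
theorem sum_bump_le [NeZero n] {lam : ℝ} (hl : 0 < lam) (r : ℕ) (y : Tor n) :
    ∑ x : Tor n, Real.exp (-(lam * max ((tdist x y : ℝ) - r) 0)) ≤
      (2 * (r + 1 + 3 / lam)) ^ 3 := by
  set f : ℕ → ℝ := fun k => Real.exp (-(lam / 3 * max ((k : ℝ) - r) 0)) with hf
  have hf0 : ∀ k, 0 ≤ f k := fun k => (Real.exp_pos _).le
  have h1 : ∀ x : Tor n, Real.exp (-(lam * max ((tdist x y : ℝ) - r) 0)) ≤
      ∏ i : Fin 3, f (zabs (x i - y i)) := by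
    intro x
    rw [Fin.prod_univ_three]
    simp only [hf]
    rw [← Real.exp_add, ← Real.exp_add]
    refine Real.exp_le_exp.2 ?_
    have g : ∀ i : Fin 3, max ((zabs (x i - y i) : ℝ) - r) 0 ≤ max ((tdist x y : ℝ) - r) 0 := by
      intro i
      have : (zabs (x i - y i) : ℝ) ≤ tdist x y := by exact_mod_cast zabs_le_tdist x y i
      exact max_le_max (by linarith) le_rfl
    have g0 := mul_le_mul_of_nonneg_left (g 0) (by positivity : (0 : ℝ) ≤ lam / 3)
    have g1 := mul_le_mul_of_nonneg_left (g 1) (by positivity : (0 : ℝ) ≤ lam / 3)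
    have g2 := mul_le_mul_of_nonneg_left (g 2) (by positivity : (0 : ℝ) ≤ lam / 3)
    linarith
  have h2 : ∑ x : Tor n, ∏ i : Fin 3, f (zabs (x i - y i)) =
      ∏ i : Fin 3, ∑ z : ZMod n, f (zabs (z - y i)) := by
    rw [Finset.prod_univ_sum]
    refine Finset.sum_congr ?_ fun _ _ => rfl
    ext x
    simp
  have h3 : ∀ i : Fin 3, ∑ z : ZMod n, f (zabs (z - y i)) ≤ 2 * (r + 1 + 3 / lam) := by
    intro i
    have e : ∑ z : ZMod n, f (zabs (z - y i)) = ∑ z : ZMod n, f (zabs z) :=
      Fintype.sum_equiv (Equiv.subRight (y i)) _ _ fun z => rfl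
    rw [e]
    refine (sum_zabs_le f hf0).trans ?_
    have := sum_exp_le (a := lam / 3) (by positivity) r n
    have e2 : 1 / (lam / 3) = 3 / lam := by field_simp
    rw [e2] at this
    linarith
  calc _ ≤ ∑ x : Tor n, ∏ i : Fin 3, f (zabs (x i - y i)) := Finset.sum_le_sum fun x _ => h1 x
    _ = ∏ i : Fin 3, ∑ z : ZMod n, f (zabs (z - y i)) := h2
    _ ≤ ∏ _i : Fin 3, (2 * (r + 1 + 3 / lam)) :=
        Finset.prod_le_prod (fun i _ => Finset.sum_nonneg fun z _ => hf0 _) fun i _ => h3 i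
    _ = _ := by simp

end

end Vale.Agent.P361.LRO
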