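import Vale.Agent.P361.LRO.ThmOne

/-!
The weight of the charged configurations is at most the weight of the uncharged ones.
-/

namespace Vale.Agent.P361.LRO.T1

open MvPolynomial

theorem sA_le_sB {Om V : Type*} [Fintype Om] [Fintype V] [DecidableEq V] {W : Om → ℝ}
    (hW : ∀ w, 0 ≤ W w) {n : Om → V → ℕ} (hn : ∀ w x, n w x ≤ 2) {N : ℕ}
    (hdeg : ∀ w, W w ≠ 0 → ∑ x, n w x = N) (ι : Equiv.Perm Om)
    (hWι : ∀ w, W (ι w) = W w) (hnι : ∀ w x, n (ι w) x = 2 - n w x)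
    (hst : ∀ y : V → ℂ, (∀ x, 0 < (y x).im) → ∑ w, (W w : ℂ) * ∏ x, y x ^ n w x ≠ 0)
    (z : V) : sA W n z (fun _ => 1) ≤ sB W n z (fun _ => 1) := by
  have hst' : RStable (gen W n) := by
    intro y hy
    rw [gen_aeval]
    exact hst y hy
  have h00 : Sk W n z 0 (fun _ => 1) = Sk W n z 2 (fun _ => 1) :=
    Sk_symm hn ι hWι hnι z (by norm_num) _
  have hnn : ∀ k, 0 ≤ Sk W n z k (fun _ => 1) := fun k => Finset.sum_nonneg fun w _ => by
    split_ifs
    · rw [mul_one]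
      exact hW w
    · exact le_rfl
  rw [sA_eq hn, sB_eq, h00]
  rcases (hnn 2).eq_or_lt with h0 | h0
  · rw [← h0, add_zero]
    exact hnn 1
  · have h1 := two_mul_le hn hdeg hst' z (Sk W n z 1 (fun _ => 1)) (Sk W n z 2 (fun _ => 1)) h0
      (hnn 1) h00 rfl rfl
    linarith

end Vale.Agent.P361.LRO.T1
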